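import Vale.Agent.P287T.Sx.St
import Vale.Agent.P287T.Kx.St

/-!
# The bigradings attached to a chart
-/

set_option linter.unusedSectionVars false

open MvPolynomial

noncomputable section

namespace Vale.Agent.P287T.Sx

section gen

variable {R : Type} [CommRing R] [Algebra ℂ R] {I : Type} [DecidableEq I]

/-- the Euler operator of a graded algebra, placed in charge zero -/
theorem exists_eu_alg [AddMonoid I] (𝒟 : I → Submodule ℂ R) [GradedAlgebra 𝒟] (c : I →+ ℤ)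
    (hc : Function.Injective c) :
    ∃ e : Eu R, Lb e e ∧ (∀ m, e.H (0, c m) = 𝒟 m) ∧
      ∀ γ : ℤ × ℤ, (∀ m, γ ≠ (0, c m)) → e.H γ ≤ ⊥ := by
  obtain ⟨e, he⟩ := exists_eu 𝒟 fun m => (0, c m)
  have h1 : ∀ m, e.H (0, c m) = 𝒟 m := fun m => le_antisymm
    (mem_of_eu 𝒟 he _ _ fun k hk => by rw [hc (Prod.ext_iff.1 hk).2]) (he m)
  have h2 : ∀ γ : ℤ × ℤ, (∀ m, γ ≠ (0, c m)) → e.H γ ≤ ⊥ := fun γ hγ =>
    mem_of_eu 𝒟 he _ _ fun k hk => (hγ k hk.symm).elim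
  refine ⟨e, lb_of fun γ δ r v hr hv => ?_, h1, h2⟩
  by_cases hγ : ∃ m, γ = (0, c m)
  · by_cases hδ : ∃ m, δ = (0, c m)
    · obtain ⟨m, rfl⟩ := hγ
      obtain ⟨k, rfl⟩ := hδ
      rw [h1] at hr hv
      rw [Prod.mk_add_mk, add_zero, ← map_add, h1]
      exact SetLike.mul_mem_graded hr hv
    · rw [(Submodule.mem_bot ℂ).1 (h2 δ (not_exists.1 hδ) hv), smul_zero]
      exact zero_mem _
  · rw [(Submodule.mem_bot ℂ).1 (h2 γ (not_exists.1 hγ) hr), zero_smul]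
    exact zero_mem _

theorem aeval_mem (𝒟 : ℤ → Submodule ℂ R) [GradedAlgebra 𝒟] {σ : Type} {y : σ → R}
    (hy : ∀ i, y i ∈ 𝒟 1) {f : MvPolynomial σ ℂ} {m : ℕ} (hf : f.IsHomogeneous m) :
    aeval y f ∈ 𝒟 m := by
  rw [aeval_def, eval₂_eq]
  refine sum_mem fun μ hμ => ?_
  rw [← Algebra.smul_def]
  refine Submodule.smul_mem _ _ ?_
  have h1 : (m : ℤ) = ∑ i ∈ μ.support, μ i • (1 : ℤ) := by
    have : μ.degree = m := by
      rw [Finsupp.degree_eq_weight_one]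
      exact hf (mem_support_iff.1 hμ)
    rw [← this, Finsupp.degree_apply]
    simp
  rw [h1]
  exact SetLike.prod_pow_mem_graded _ _ _ _ fun i _ => hy i

end gen

section coef

variable {Θ : Type} [CommRing Θ] [Algebra ℂ Θ] {e : Eu Θ}

theorem weight_wx (μ : Fin 6 →₀ ℕ) : Finsupp.weight wx μ = (2 * (μ.degree : ℤ), 0) := by
  rw [Finsupp.weight_apply, Finsupp.sum, Finsupp.degree_apply]
  refine Prod.ext ?_ ?_
  · simp [Prod.fst_sum, wx, Finset.mul_sum, mul_comm]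
  · simp [Prod.snd_sum, wx]

/-- bihomogeneous polynomials in terms of their coefficients -/
theorem mem_wx (h : ∀ γ : ℤ × ℤ, γ.1 ≠ 0 → e.H γ ≤ ⊥) {c m : ℤ} {f : Px Θ} :
    f ∈ (e.mv wx).H (c, m) ↔
      ∀ μ, coeff μ f ∈ e.H (0, m) ∧ (coeff μ f ≠ 0 → 2 * (μ.degree : ℤ) = c) := by
  rw [Eu.mem_mv]
  refine forall_congr' fun μ => ?_
  rw [weight_wx, Prod.mk_sub_mk, sub_zero]
  by_cases hc : 2 * (μ.degree : ℤ) = c
  · rw [← hc, sub_self]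
    exact ⟨fun h => ⟨h, fun _ => rfl⟩, fun h => h.1⟩
  · constructor
    · intro h1
      have h2 := (Submodule.mem_bot ℂ).1 (h _ (sub_ne_zero.2 (Ne.symm hc)) h1)
      rw [h2]
      exact ⟨zero_mem _, fun h3 => (h3 rfl).elim⟩
    · intro h1
      rw [by_contra fun h3 : ¬ coeff μ f = 0 => hc (h1.2 h3)]
      exact zero_mem _

end coef

section Gr

variable {B D : Type} [CommRing B] [Algebra ℂ B] [CommRing D] [Algebra ℂ D] [Algebra B D]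
  [IsScalarTower ℂ B D] (Γ : Gr B D)

theorem Gr.mem_eL {c m : ℤ} {f : Px B} : f ∈ Γ.eL.H (c, m) ↔
    ∀ μ, coeff μ f ∈ Γ.eB.H (0, m) ∧ (coeff μ f ≠ 0 → 2 * (μ.degree : ℤ) = c) := mem_wx Γ.chB

theorem Gr.mem_eX {c m : ℤ} {f : Px D} : f ∈ Γ.eX.H (c, m) ↔
    ∀ μ, coeff μ f ∈ Γ.eD.H (0, m) ∧ (coeff μ f ≠ 0 → 2 * (μ.degree : ℤ) = c) := mem_wx Γ.chD

theorem Gr.mx_iff {ι κ : Type} {p : ι → ℤ} {q : κ → ℤ} {j m : ℤ} {g : Matrix κ ι (Px D)} :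
    MX (Γ.eD.H (0, m)) p q j g ↔ ∀ i l, g i l ∈ Γ.eX.H (j + p l - q i, m) :=
  forall₂_congr fun _ _ => Γ.mem_eX.symm

end Gr

open Vale.Agent.P287T.Au Vale.Agent.P287T.Kx Vale.Agent.P287Z Vale.Agent.P287T.Cy

variable {W : S6} {C : Cf W}

/-- `Γ` is the pair of gradings of the chart `T` -/
structure IsGr (T : Cht C) (Γ : Gr C.B T.D) : Prop where
  eD : ∀ m : ℤ, Γ.eD.H (0, m) = T.𝒟 m
  eB : ∀ m : ℕ, Γ.eB.H (0, (m : ℤ)) = gr C.I m
  neg : ∀ m : ℤ, m < 0 → Γ.eB.H (0, m) ≤ ⊥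

theorem alg_mk (T : Cht C) (f : MvPolynomial (Fin C.ν) ℂ) :
    algebraMap C.B T.D (Ideal.Quotient.mk C.I f) = aeval (fun i => algebraMap C.B T.D (C.y i)) f := by
  have : (IsScalarTower.toAlgHom ℂ C.B T.D).comp (Ideal.Quotient.mkₐ ℂ C.I) =
      aeval fun i => algebraMap C.B T.D (C.y i) := by
    ext i
    rw [aeval_X]
    rfl
  exact DFunLike.congr_fun this f

theorem alg_mem (T : Cht C) {m : ℕ} {b : C.B} (hb : b ∈ gr C.I m) :
    algebraMap C.B T.D b ∈ T.𝒟 m := by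
  obtain ⟨f, hf, rfl⟩ := hb
  exact (alg_mk T f).symm ▸ aeval_mem T.𝒟 T.dy hf

/-- **GRD** -/
theorem exists_gr (T : Cht C) : ∃ Γ : Gr C.B T.D, IsGr T Γ := by
  obtain ⟨a, a1, a2, a3⟩ := exists_eu_alg (gr C.I) (Nat.castAddMonoidHom ℤ) Nat.cast_injective
  obtain ⟨e, e1, e2, e3⟩ := exists_eu_alg T.𝒟 (AddMonoidHom.id ℤ) Function.injective_id
  refine ⟨⟨a, e, a1, e1, fun δ v hv => ?_, fun γ h => a3 γ fun m hm => h (hm ▸ rfl),
    fun γ h => e3 γ fun m hm => h (hm ▸ rfl)⟩, e2, a2, fun m hm => a3 _ fun k hk => ?_⟩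
  · rw [zero_add]
    by_cases h : ∃ m : ℕ, δ = (0, (m : ℤ))
    · obtain ⟨m, rfl⟩ := h
      exact (e2 m).ge (alg_mem T ((a2 m).le hv))
    · rw [(Submodule.mem_bot ℂ).1 (a3 δ (not_exists.1 h) hv), map_zero]
      exact zero_mem _
  · have : m = (k : ℤ) := (Prod.ext_iff.1 hk).2
    lia

namespace IsGr

variable {T : Cht C} {Γ : Gr C.B T.D} (h : IsGr T Γ)

include h

theorem zero : Γ.eD.H 0 = T.𝒟 0 := h.eD 0

theorem fm (hW : W.IsHomogeneous 3) : Fm Γ W C.p T.d where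
  hW μ hμ := by
    have h1 : μ.degree = 3 := by
      rw [Finsupp.degree_eq_weight_one]
      exact hW hμ
    have h2 := congrArg Prod.fst (weight_wx μ)
    rw [h1, Finsupp.weight_apply, Finsupp.sum, Prod.fst_sum] at h2
    exact h2
  dg := h.zero.symm ▸ T.dg
  sq := T.sq

/-- homogeneous elements of the coordinate ring lift to forms -/
theorem lift_B {m : ℤ} {b : C.B} (hb : b ∈ Γ.eB.H (0, m)) :
    ∃ f : MvPolynomial (Fin C.ν) ℂ, Ideal.Quotient.mk C.I f = b ∧ f.IsHomogeneous m.toNat ∧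
      (b = 0 → f = 0) ∧ (m < 0 → f = 0) := by
  by_cases h0 : b = 0
  · exact ⟨0, h0 ▸ map_zero _, isHomogeneous_zero _ _ _, fun _ => rfl, fun _ => rfl⟩
  · have hm : 0 ≤ m := le_of_not_gt fun hm => h0 (h.neg m hm hb)
    obtain ⟨k, rfl⟩ := Int.eq_ofNat_of_zero_le hm
    obtain ⟨f, hf, e⟩ := (h.eB k).le hb
    exact ⟨f, e, hf, fun h1 => (h0 h1).elim, fun h1 => absurd hm (not_le.2 h1)⟩

theorem mk_mem {m : ℕ} {f : MvPolynomial (Fin C.ν) ℂ} (hf : f.IsHomogeneous m) :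
    Ideal.Quotient.mk C.I f ∈ Γ.eB.H (0, (m : ℤ)) := (h.eB m).ge ⟨f, hf, rfl⟩

theorem y_mem (i : Fin C.ν) : C.y i ∈ Γ.eB.H (0, 1) := h.mk_mem (isHomogeneous_X ℂ i)

/-- bihomogeneous elements of `B[x]` lift to bihomogeneous elements of `ℂ[y][x]` -/
theorem lift_L {c m : ℤ} {f : Px C.B} (hf : f ∈ Γ.eL.H (c, m)) :
    ∃ F : Px (MvPolynomial (Fin C.ν) ℂ), MvPolynomial.map (Ideal.Quotient.mk C.I) F = f ∧
      ∀ μ, (coeff μ F).IsHomogeneous m.toNat ∧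
        (coeff μ F ≠ 0 → 0 ≤ m ∧ 2 * (μ.degree : ℤ) = c) := by
  classical
  have h1 := Γ.mem_eL.1 hf
  choose g g1 g2 g3 g4 using fun μ => h.lift_B (h1 μ).1
  have key : ∀ μ, coeff μ (∑ ν ∈ f.support, monomial ν (g ν)) = g μ := fun μ => by
    rw [coeff_sum, Finset.sum_eq_single μ]
    · rw [coeff_monomial, if_pos rfl]
    · intro ν _ hν
      rw [coeff_monomial, if_neg hν]
    · intro hμ
      rw [g3 μ (notMem_support_iff.1 hμ), map_zero, coeff_zero]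
  refine ⟨∑ ν ∈ f.support, monomial ν (g ν), MvPolynomial.ext _ _ fun μ => ?_, fun μ => ?_⟩
  · rw [coeff_map, key, g1]
  · rw [key]
    exact ⟨g2 μ, fun h2 => ⟨le_of_not_gt fun h3 => h2 (g4 μ h3),
      (h1 μ).2 fun h3 => h2 (g3 μ h3)⟩⟩

/-- the same for matrices -/
theorem lift_M {ι κ : Type} {γ : κ → ι → ℤ × ℤ} {g : Matrix κ ι (Px C.B)}
    (hg : ∀ i l, g i l ∈ Γ.eL.H (γ i l)) :
    ∃ G : Matrix κ ι (Px (MvPolynomial (Fin C.ν) ℂ)), mm (Ideal.Quotient.mk C.I) G = g ∧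
      ∀ i l μ, (coeff μ (G i l)).IsHomogeneous (γ i l).2.toNat ∧
        (coeff μ (G i l) ≠ 0 → 0 ≤ (γ i l).2 ∧ 2 * (μ.degree : ℤ) = (γ i l).1) := by
  choose G G1 G2 using fun i l => h.lift_L (c := (γ i l).1) (m := (γ i l).2) (hg i l)
  exact ⟨Matrix.of G, Matrix.ext G1, G2⟩

end IsGr

end Vale.Agent.P287T.Sx
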