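import Vale.Agent.P287T.Sx.Mv
import Mathlib.RingTheory.TensorProduct.MvPolynomial
import Mathlib.RingTheory.Flat.Basic
import Mathlib.RingTheory.Noetherian.Basic
import Mathlib.LinearAlgebra.Matrix.ToLin

/-!
# Block STRICT: the interfaces
-/

set_option linter.all false

open TensorProduct MvPolynomial Matrix

noncomputable section

namespace Vale.Agent.P287T.Sx

attribute [local instance] MvPolynomial.algebraMvPolynomial

/-- polynomials in the six variables `x` -/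
abbrev Px (Θ : Type) [CommRing Θ] : Type := MvPolynomial (Fin 6) Θ

/-- the variables `x` have charge two -/
def wx : Fin 6 → ℤ × ℤ := fun _ => (2, 0)

/-- matrices of charge `j` whose coefficients lie in `D₀` (the same as `Au.MD`) -/
def MX {D : Type} [CommRing D] [Algebra ℂ D] (D₀ : Submodule ℂ D) {ι κ : Type} (p : ι → ℤ)
    (q : κ → ℤ) (j : ℤ) (g : Matrix κ ι (Px D)) : Prop :=
  ∀ i l m, coeff m (g i l) ∈ D₀ ∧ (coeff m (g i l) ≠ 0 → 2 * (m.degree : ℤ) = j + p l - q i)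

/-- change of the ring of coefficients -/
def mm {R S : Type} [CommRing R] [CommRing S] (f : R →+* S) {ι κ : Type}
    (g : Matrix κ ι (Px R)) : Matrix κ ι (Px S) := g.map (MvPolynomial.map f)

/-- congruence of matrices modulo `w` -/
def Cg {R : Type} [CommRing R] (w : R) {ι κ : Type} (a b : Matrix κ ι R) : Prop :=
  ∀ i l, w ∣ a i l - b i l

variable (B D : Type) [CommRing B] [Algebra ℂ B] [CommRing D] [Algebra ℂ D] [Algebra B D]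
  [IsScalarTower ℂ B D]

/-- gradings of `B` and `D` in charge zero -/
structure Gr where
  eB : Eu B
  eD : Eu D
  lbB : Lb eB eB
  lbD : Lb eD eD
  alg : Deg eB eD 0 (algebraMap B D)
  chB : ∀ γ : ℤ × ℤ, γ.1 ≠ 0 → eB.H γ ≤ ⊥
  chD : ∀ γ : ℤ × ℤ, γ.1 ≠ 0 → eD.H γ ≤ ⊥

/-- the first factor -/
def i0 : D →+* D ⊗[B] D := Algebra.TensorProduct.includeLeftRingHom

/-- the second factor -/
def i1 : D →+* D ⊗[B] D := (Algebra.TensorProduct.includeRight : D →ₐ[B] D ⊗[B] D)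

/-- the diagonal -/
def mu : D ⊗[B] D →+* D := (Algebra.TensorProduct.lmul' B : D ⊗[B] D →ₐ[B] D)

/-- the factors zero and one -/
def j01 : D ⊗[B] D →+* D ⊗[B] (D ⊗[B] D) :=
  (Algebra.TensorProduct.map (AlgHom.id B D) Algebra.TensorProduct.includeLeft :
    D ⊗[B] D →ₐ[B] D ⊗[B] (D ⊗[B] D))

/-- the factors zero and two -/
def j02 : D ⊗[B] D →+* D ⊗[B] (D ⊗[B] D) :=
  (Algebra.TensorProduct.map (AlgHom.id B D) Algebra.TensorProduct.includeRight :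
    D ⊗[B] D →ₐ[B] D ⊗[B] (D ⊗[B] D))

/-- the factors one and two -/
def j12 : D ⊗[B] D →+* D ⊗[B] (D ⊗[B] D) :=
  (Algebra.TensorProduct.includeRight : D ⊗[B] D →ₐ[B] D ⊗[B] (D ⊗[B] D))

variable {B D}

theorem Gr.lbBD (Γ : Gr B D) : Lb Γ.eB Γ.eD := Γ.lbD.res Γ.alg

/-- the grading of `D ⊗ D` -/
def Gr.e2 (Γ : Gr B D) : Eu (D ⊗[B] D) := Eu.ten Γ.lbBD Γ.lbBD

theorem Gr.lb2 (Γ : Gr B D) : Lb Γ.eB Γ.e2 := Lb.ten Γ.lbBD Γ.lbBD Γ.lbBD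

/-- the grading of `D ⊗ D ⊗ D` -/
def Gr.e3 (Γ : Gr B D) : Eu (D ⊗[B] (D ⊗[B] D)) := Eu.ten Γ.lbBD Γ.lb2

/-- the grading of `B[x]` -/
def Gr.eL (Γ : Gr B D) : Eu (Px B) := Γ.eB.mv wx

/-- the grading of `D[x]` -/
def Gr.eX (Γ : Gr B D) : Eu (Px D) := Γ.eD.mv wx

variable {ι : Type} [Fintype ι] [DecidableEq ι]

/-- a family of matrix factorizations over `D` -/
structure Fm (Γ : Gr B D) (W : Px ℂ) (p : ι → ℤ) (d : Matrix ι ι (Px D)) : Prop where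
  hW : W.IsWeightedHomogeneous (fun _ => (2 : ℤ)) 6
  dg : MX (Γ.eD.H 0) p p 3 d
  sq : d * d = MvPolynomial.map (algebraMap ℂ D) W • (1 : Matrix ι ι (Px D))

/-- exactness of the complex of maps from the second to the first pull-back, in negative degrees -/
def Neg (Γ : Gr B D) (p : ι → ℤ) (d : Matrix ι ι (Px D)) : Prop :=
  ∀ k : ℤ, k < 0 →
    ∃ s s' : Matrix ι ι (Px (D ⊗[B] D)) →ₗ[D ⊗[B] D] Matrix ι ι (Px (D ⊗[B] D)),
      (∀ m, MX (Γ.e2.H 0) p p (3 * k) m → MX (Γ.e2.H 0) p p (3 * k - 3) (s m)) ∧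
      ∀ m, MX ⊤ p p (3 * k) m → m = mm (i0 B D) d * s m + s m * mm (i1 B D) d +
        s' (mm (i0 B D) d * m - m * mm (i1 B D) d)

/-- **Input of STRICT**: a descent datum up to homotopy -/
structure Inp (Γ : Gr B D) (W : Px ℂ) (p : ι → ℤ) (d : Matrix ι ι (Px D)) : Prop where
  fm : Fm Γ W p d
  neg : Neg Γ p d
  dat : ∃ (g : Matrix ι ι (Px (D ⊗[B] D))) (h : Matrix ι ι (Px (D ⊗[B] (D ⊗[B] D))))
    (h0 : Matrix ι ι (Px D)), MX (Γ.e2.H 0) p p 0 g ∧ MX (Γ.e3.H 0) p p (-3) h ∧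
      MX (Γ.eD.H 0) p p (-3) h0 ∧ mm (i0 B D) d * g = g * mm (i1 B D) d ∧
      mm (j01 B D) g * mm (j12 B D) g - mm (j02 B D) g =
        mm ((j01 B D).comp (i0 B D)) d * h + h * mm ((j12 B D).comp (i1 B D)) d ∧
      mm (mu B D) g - 1 = d * h0 + h0 * d

/-- **Output of STRICT**: a complex `… → P₂ → P₁ → P₀` of finite free bigraded modules over
`B[x] / W` which over `D` is homotopy equivalent to the periodic complex of `d`. -/
structure Out (Γ : Gr B D) (W : Px ℂ) (p : ι → ℤ) (d : Matrix ι ι (Px D)) where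
  r : ℕ → ℕ
  dg : ∀ n, Fin (r n) → ℤ × ℤ
  δ : ∀ n, Matrix (Fin (r n)) (Fin (r (n + 1))) (Px B)
  α : ∀ n, Matrix ι (Fin (r n)) (Px D)
  β : ∀ n, Matrix (Fin (r n)) ι (Px D)
  s : ℕ → Matrix ι ι (Px D)
  t : ∀ n, Matrix (Fin (r (n + 1))) (Fin (r n)) (Px D)
  hδ : ∀ n i j, δ n i j ∈ Γ.eL.H (dg (n + 1) j + (3, 0) - dg n i)
  hα : ∀ n i j, α n i j ∈ Γ.eX.H (dg n j - (p i, 0))
  hβ : ∀ n j i, β n j i ∈ Γ.eX.H ((p i, 0) - dg n j)
  hs : ∀ n i l, s n i l ∈ Γ.eX.H (p l - 3 - p i, 0)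
  ht : ∀ n i j, t n i j ∈ Γ.eX.H (dg n j - (3, 0) - dg (n + 1) i)
  δδ : ∀ n, Cg (MvPolynomial.map (algebraMap ℂ B) W) (δ n * δ (n + 1)) 0
  cα : ∀ n, Cg (MvPolynomial.map (algebraMap ℂ D) W) (d * α (n + 1))
    (α n * mm (algebraMap B D) (δ n))
  cβ : ∀ n, Cg (MvPolynomial.map (algebraMap ℂ D) W) (mm (algebraMap B D) (δ n) * β (n + 1))
    (β n * d)
  αβ : ∀ n, Cg (MvPolynomial.map (algebraMap ℂ D) W) (α (n + 1) * β (n + 1) - 1)
    (d * s (n + 1) + s n * d)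
  βα : ∀ n, Cg (MvPolynomial.map (algebraMap ℂ D) W) (β (n + 1) * α (n + 1) - 1)
    (mm (algebraMap B D) (δ (n + 1)) * t (n + 1) + t n * mm (algebraMap B D) (δ n))

/-- the window: multiples of `W` and generators of charge less than `3 m` -/
def GE (W : Px ℂ) (p : ι → ℤ) (m : ℤ) : Submodule (Px D) (ι → Px D) where
  carrier := {v | ∀ i, 3 * m ≤ p i → MvPolynomial.map (algebraMap ℂ D) W ∣ v i}
  zero_mem' := fun _ _ => dvd_zero _
  add_mem' := fun h h' i hi => dvd_add (h i hi) (h' i hi)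
  smul_mem' := fun c _ h i hi => (h i hi).mul_left c

/-- The total object `T` over `B[x]` with its windows `G m`, and its comparison with `d`. -/
structure Qi (Γ : Gr B D) (W : Px ℂ) (p : ι → ℤ) (d : Matrix ι ι (Px D)) where
  T : Type
  [ag : AddCommGroup T]
  [mc : Module ℂ T]
  [ml : Module (Px B) T]
  [tw : IsScalarTower ℂ (Px B) T]
  e : Eu T
  lb : Lb Γ.eL e
  DT : T →ₗ[Px B] T
  deg : Deg e e (3, 0) DT
  G : ℤ → Submodule (Px B) T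
  hG : ∀ m, ∀ v ∈ G m, e.ε v ∈ G m
  DG : ∀ m, ∀ v ∈ G m, DT v ∈ G (m + 1)
  DD : ∀ m v, DT (DT v) ∈ G m
  WG : ∀ m v, MvPolynomial.map (algebraMap ℂ B) W • v ∈ G m
  π : T →ₗ[Px B] (ι → Px D)
  πdeg : Deg e (Γ.eX.pi fun i => (p i, 0)) 0 π
  πD : ∀ v, π (DT v) = d *ᵥ π v
  πG : ∀ m, ∀ v ∈ G m, π v ∈ GE W p m
  inj : ∀ (m : ℤ) (z : Px D ⊗[Px B] T),
    DT.baseChange (Px D) z ∈ (G (m + 1)).baseChange (Px D) →
    (∃ c, π.liftBaseChange (Px D) z - d *ᵥ c ∈ GE W p m) →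
    ∃ y, z - DT.baseChange (Px D) y ∈ (G m).baseChange (Px D)
  sur : ∀ (m : ℤ) (w : ι → Px D), d *ᵥ w ∈ GE W p (m + 1) →
    ∃ (z : Px D ⊗[Px B] T) (c : ι → Px D), DT.baseChange (Px D) z ∈ (G (m + 1)).baseChange (Px D) ∧
      w - π.liftBaseChange (Px D) z - d *ᵥ c ∈ GE W p m

attribute [instance] Qi.ag Qi.mc Qi.ml Qi.tw

/-- the grading of `D[x]^ι` -/
def Gr.eE (Γ : Gr B D) (p : ι → ℤ) : Eu (ι → Px D) := Γ.eX.pi fun i => (p i, 0)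

theorem Gr.lbE (Γ : Gr B D) (p : ι → ℤ) : Lb Γ.eB (Γ.eE p) :=
  ((Γ.lbD.mvC wx).res Γ.alg).pi _

variable (B) in
/-- the differential on `D[x]^ι ⊗ Q` -/
def dQ (d : Matrix ι ι (Px D)) (Q : Type) [AddCommGroup Q] [Module B Q] :
    (ι → Px D) ⊗[B] Q →ₗ[Px B] (ι → Px D) ⊗[B] Q :=
  AlgebraTensorModule.rTensor B Q (d.mulVecLin.restrictScalars (Px B))

/-- **(c) RES** -/
def StRes : Prop :=
  ∀ (B D : Type) [CommRing B] [Algebra ℂ B] [CommRing D] [Algebra ℂ D] [Algebra B D]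
    [IsScalarTower ℂ B D] [Module.Flat B D] [IsNoetherianRing D] (ι : Type) [Fintype ι]
    [DecidableEq ι] (Γ : Gr B D) (W : Px ℂ) (p : ι → ℤ) (d : Matrix ι ι (Px D)),
    Fm Γ W p d → Qi Γ W p d → Nonempty (Out Γ W p d)

/-- **EX** -/
def StEx : Prop :=
  ∀ (B D : Type) [CommRing B] [Algebra ℂ B] [CommRing D] [Algebra ℂ D] [Algebra B D]
    [IsScalarTower ℂ B D] (ι : Type) [Fintype ι] [DecidableEq ι] (Γ : Gr B D) (p : ι → ℤ)
    (d : Matrix ι ι (Px D)), Neg Γ p d →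
    ∀ (Q : Type) [AddCommGroup Q] [Module ℂ Q] [Module B Q] [IsScalarTower ℂ B Q] (f : Eu Q)
      (hf : Lb Γ.eB f), (∀ γ : ℤ × ℤ, γ.1 ≠ 0 → f.H γ ≤ ⊥) →
    ∀ (k : ℤ) (F : (ι → Px D) ⊗[B] Q →ₗ[Px B] (ι → Px D) ⊗[B] Q), k < 0 →
      Deg (Eu.ten (Γ.lbE p) hf) (Eu.ten (Γ.lbE p) hf) (3 * k, 0) F → dQ B d Q * F = F * dQ B d Q →
      ∃ x, F = dQ B d Q * x + x * dQ B d Q ∧ ∀ (f' : Eu Q) (hf' : Lb Γ.eB f') (γ : ℤ × ℤ),
        Deg (Eu.ten (Γ.lbE p) hf') (Eu.ten (Γ.lbE p) hf') γ F →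
        Deg (Eu.ten (Γ.lbE p) hf') (Eu.ten (Γ.lbE p) hf') (γ - (3, 0)) x

/-- **STRICT** -/
def StStrict : Prop :=
  ∀ (B D : Type) [CommRing B] [Algebra ℂ B] [CommRing D] [Algebra ℂ D] [Algebra B D]
    [IsScalarTower ℂ B D] [Module.Flat B D] [IsNoetherianRing D] (ι : Type) [Fintype ι]
    [DecidableEq ι] (Γ : Gr B D) (W : Px ℂ) (p : ι → ℤ) (d : Matrix ι ι (Px D)),
    Inp Γ W p d → Nonempty (Out Γ W p d)

end Vale.Agent.P287T.Sx
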