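import Vale.Agent.P287T.Sx.Eu
import Mathlib.RingTheory.GradedAlgebra.Basic
import Mathlib.Algebra.MvPolynomial.Eval

/-!
# Bigradings of polynomial rings
-/

set_option linter.all false

open TensorProduct MvPolynomial

noncomputable section

namespace Vale.Agent.P287T.Sx

section

variable {σ : Type} {Θ : Type} [CommRing Θ] [Algebra ℂ Θ]

/-- the Euler operator of a polynomial ring with weights `w` -/
def mvE (e : Eu Θ) (w : σ → ℤ × ℤ) (f : MvPolynomial σ Θ) : MvPolynomial σ Θ :=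
  ∑ μ ∈ f.support, monomial μ ((e.sh (Finsupp.weight w μ)).ε (coeff μ f))

theorem coeff_mvE (e : Eu Θ) (w : σ → ℤ × ℤ) (f : MvPolynomial σ Θ) (μ : σ →₀ ℕ) :
    coeff μ (mvE e w f) = (e.sh (Finsupp.weight w μ)).ε (coeff μ f) := by
  classical
  rw [mvE, coeff_sum, Finset.sum_eq_single μ]
  · rw [coeff_monomial, if_pos rfl]
  · intro ν _ h
    rw [coeff_monomial, if_neg h]
  · intro h
    rw [notMem_support_iff.1 h, map_zero, map_zero, coeff_zero]

/-- the grading of a polynomial ring with weights `w` -/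
def Eu.mv (e : Eu Θ) (w : σ → ℤ × ℤ) : Eu (MvPolynomial σ Θ) where
  ε :=
    { toFun := mvE e w
      map_add' := fun f g => by
        ext μ
        simp only [coeff_mvE, coeff_add, map_add]
      map_smul' := fun c f => by
        ext μ
        simp only [coeff_mvE, coeff_smul, map_smul, RingHom.id_apply] }
  diag f := by
    classical
    rw [f.as_sum]
    refine Submodule.sum_mem _ fun μ _ => ?_
    induction coeff μ f using (e.sh (Finsupp.weight w μ)).ind with
    | h0 => rw [map_zero]; exact Submodule.zero_mem _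
    | hh γ a h =>
      refine Submodule.subset_span ⟨γ, MvPolynomial.ext _ _ fun ν => ?_⟩
      show coeff ν (mvE e w _) = _
      rw [coeff_mvE, coeff_smul, coeff_monomial]
      split_ifs with hν
      · exact hν ▸ h
      · rw [map_zero, smul_zero]
    | ha a b ha hb => rw [map_add]; exact Submodule.add_mem _ ha hb

theorem Eu.mem_mv {e : Eu Θ} {w : σ → ℤ × ℤ} {γ : ℤ × ℤ} {f : MvPolynomial σ Θ} :
    f ∈ (e.mv w).H γ ↔ ∀ μ, coeff μ f ∈ e.H (γ - Finsupp.weight w μ) := by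
  simp only [← Eu.mem_sh]
  rw [Eu.mem_H, MvPolynomial.ext_iff]
  exact forall_congr' fun μ => by
    rw [coeff_smul, Eu.mem_H, ← coeff_mvE]
    rfl

theorem Eu.monomial_mem {e : Eu Θ} {w : σ → ℤ × ℤ} {γ : ℤ × ℤ} {a : Θ} (ha : a ∈ e.H γ)
    (μ : σ →₀ ℕ) : monomial μ a ∈ (e.mv w).H (γ + Finsupp.weight w μ) := by
  classical
  refine Eu.mem_mv.2 fun ν => ?_
  rw [coeff_monomial]
  split_ifs with h
  · rwa [← h, add_sub_cancel_right]
  · exact Submodule.zero_mem _

theorem Lb.mul {e : Eu Θ} (h : Lb e e) {γ δ : ℤ × ℤ} {r v : Θ} (hr : r ∈ e.H γ)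
    (hv : v ∈ e.H δ) : r * v ∈ e.H (γ + δ) := h.smul hr hv

theorem Lb.one {e : Eu Θ} (h : Lb e e) : (1 : Θ) ∈ e.H 0 := by
  have := h 1 1
  rw [smul_eq_mul, smul_eq_mul, smul_eq_mul, mul_one, mul_one, one_mul] at this
  rw [Eu.mem_H, ev_zero, zero_smul]
  exact left_eq_add.1 this

theorem Lb.mv {e : Eu Θ} (h : Lb e e) (w : σ → ℤ × ℤ) : Lb (e.mv w) (e.mv w) := by
  classical
  refine lb_of fun γ δ r v hr hv => Eu.mem_mv.2 fun μ => ?_
  rw [smul_eq_mul, coeff_mul]
  refine Submodule.sum_mem _ fun x hx => ?_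
  have := h.mul (Eu.mem_mv.1 hr x.1) (Eu.mem_mv.1 hv x.2)
  rwa [sub_add_sub_comm, ← map_add, Finset.mem_antidiagonal.1 hx] at this

theorem Deg.mv {Θ' : Type} [CommRing Θ'] [Algebra ℂ Θ'] {e : Eu Θ} {e' : Eu Θ'} {φ : Θ →+* Θ'}
    (h : Deg e e' 0 φ) (w : σ → ℤ × ℤ) : Deg (e.mv w) (e'.mv w) 0 (MvPolynomial.map φ) :=
  fun δ v hv => Eu.mem_mv.2 fun μ => by
    have := h _ _ (Eu.mem_mv.1 hv μ)
    rwa [coeff_map, zero_add, ← zero_add (δ - _)]

theorem Lb.mvC {e : Eu Θ} (h : Lb e e) (w : σ → ℤ × ℤ) : Lb e (e.mv w) :=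
  lb_of fun γ δ r v hr hv => Eu.mem_mv.2 fun μ => by
    rw [coeff_smul, add_sub_assoc]
    exact h.smul hr (Eu.mem_mv.1 hv μ)

/-- compatibility passes along a homogeneous map of rings -/
theorem Lb.res {B V : Type} [CommRing B] [Algebra ℂ B] [Algebra B Θ] [AddCommGroup V]
    [Module ℂ V] [Module Θ V] [Module B V] [IsScalarTower ℂ Θ V] [IsScalarTower ℂ B V]
    [IsScalarTower B Θ V] {a : Eu B} {e : Eu Θ} {f : Eu V} (h : Lb e f)
    (hd : Deg a e 0 (algebraMap B Θ)) : Lb a f :=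
  lb_of fun γ δ r v hr hv => by
    have := h.smul (hd _ _ hr) hv
    rwa [zero_add, algebraMap_smul] at this

/-- the trivial grading -/
def Eu.triv (V : Type) [AddCommGroup V] [Module ℂ V] : Eu V where
  ε := 0
  diag v := Submodule.subset_span ⟨0, by simp [ev_zero]⟩

/-- the grading attached to a decomposition, placed in charge zero -/
theorem exists_eu {V : Type} [AddCommGroup V] [Module ℂ V] {I : Type} [DecidableEq I]
    (𝒟 : I → Submodule ℂ V) [DirectSum.Decomposition 𝒟] (c : I → ℤ × ℤ) :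
    ∃ e : Eu V, ∀ m, 𝒟 m ≤ e.H (c m) := by
  let ε : V →ₗ[ℂ] V := (DirectSum.toModule ℂ I V fun m => ev (c m) • (𝒟 m).subtype) ∘ₗ
    (DirectSum.decomposeLinearEquiv 𝒟).toLinearMap
  have h : ∀ m v, v ∈ 𝒟 m → ε v = ev (c m) • v := fun m v hv => by
    show DirectSum.toModule ℂ I V _ (DirectSum.decompose 𝒟 v) = _
    rw [DirectSum.decompose_of_mem 𝒟 hv]
    exact DirectSum.toModule_lof (M := fun m => 𝒟 m) ℂ m ⟨v, hv⟩
  refine ⟨⟨ε, fun v => ?_⟩, h⟩
  induction v using DirectSum.Decomposition.inductionOn 𝒟 with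
  | zero => exact Submodule.zero_mem _
  | homogeneous m => exact Submodule.subset_span ⟨_, h _ _ m.2⟩
  | add a b ha hb => exact Submodule.add_mem _ ha hb

theorem mem_of_eu {V : Type} [AddCommGroup V] [Module ℂ V] {I : Type} [DecidableEq I]
    (𝒟 : I → Submodule ℂ V) [DirectSum.Decomposition 𝒟] {c : I → ℤ × ℤ} {e : Eu V}
    (h : ∀ m, 𝒟 m ≤ e.H (c m)) (γ : ℤ × ℤ) (p : Submodule ℂ V) (hp : ∀ m, c m = γ → 𝒟 m ≤ p) :
    e.H γ ≤ p := by
  intro v hv
  rw [← e.pr_self hv]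
  clear hv
  induction v using DirectSum.Decomposition.inductionOn 𝒟 with
  | zero => rw [map_zero]; exact p.zero_mem
  | @homogeneous i m =>
    by_cases hi : c i = γ
    · rw [e.pr_self (hi ▸ h _ m.2)]
      exact hp i hi m.2
    · rw [e.pr_ne (h _ m.2) (Ne.symm hi)]
      exact p.zero_mem
  | add a b ha hb => rw [map_add]; exact p.add_mem ha hb

end

end Vale.Agent.P287T.Sx
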