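import Vale.Agent.P287T.Sx.Co
import Vale.Agent.P287T.Sx.Mv

/-!
# Degrees of the maps of the comodule calculus
-/

set_option linter.all false

open TensorProduct

noncomputable section

namespace Vale.Agent.P287T.Sx

section

variable {V V' : Type} [AddCommGroup V] [Module ℂ V] [AddCommGroup V'] [Module ℂ V']
  {e : Eu V} {e' : Eu V'} {γ γ' : ℤ × ℤ}

theorem Deg.add {f g : V → V'} (hf : Deg e e' γ f) (hg : Deg e e' γ g) :
    Deg e e' γ fun v => f v + g v := fun δ v hv => add_mem (hf δ v hv) (hg δ v hv)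

theorem Deg.neg {f : V → V'} (hf : Deg e e' γ f) : Deg e e' γ fun v => - f v :=
  fun δ v hv => neg_mem (hf δ v hv)

theorem Deg.zero : Deg e e' γ fun _ => 0 := fun _ _ _ => zero_mem _

theorem Deg.cast {f : V → V'} (hf : Deg e e' γ f) (h : γ' = γ) : Deg e e' γ' f := h ▸ hf

theorem Eu.cast {v : V} (hv : v ∈ e.H γ) (h : γ' = γ) : v ∈ e.H γ' := h ▸ hv

end

variable {B : Type} [CommRing B] [Algebra ℂ B] {a : Eu B}
  {V X Y Z : Type} [AddCommGroup V] [Module ℂ V] [Module B V] [IsScalarTower ℂ B V]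
  [AddCommGroup X] [Module ℂ X] [Module B X] [IsScalarTower ℂ B X]
  [AddCommGroup Y] [Module ℂ Y] [Module B Y] [IsScalarTower ℂ B Y]
  [AddCommGroup Z] [Module ℂ Z] [Module B Z] [IsScalarTower ℂ B Z]
  {eV : Eu V} {eX : Eu X} {eY : Eu Y} {eZ : Eu Z} {γ γ' : ℤ × ℤ}

/-- induction over the homogeneous elements of a tensor product -/
theorem Eu.ten_ind (hV : Lb a eV) (hX : Lb a eX) {P : V ⊗[B] X → Prop} (h0 : P 0)
    (ha : ∀ u v, P u → P v → P (u + v))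
    (hh : ∀ δ δ' v x, v ∈ eV.H δ → x ∈ eX.H δ' → γ = δ + δ' → P (v ⊗ₜ x)) {z : V ⊗[B] X}
    (hz : z ∈ (Eu.ten hV hX).H γ) : P z := by
  rw [← (Eu.ten hV hX).pr_self hz]
  clear hz
  induction z using TensorProduct.induction_on with
  | zero => rwa [map_zero]
  | tmul v x =>
    induction v using eV.ind with
    | h0 => rwa [zero_tmul, map_zero]
    | hh δ v hv =>
      induction x using eX.ind with
      | h0 => rwa [tmul_zero, map_zero]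
      | hh δ' x hx =>
        by_cases h : γ = δ + δ'
        · rw [Eu.pr_self _ (h ▸ Eu.tmul_mem hV hX hv hx)]
          exact hh _ _ _ _ hv hx h
        · rwa [Eu.pr_ne _ (Eu.tmul_mem hV hX hv hx) h]
      | ha a b ha' hb => rw [tmul_add, map_add]; exact ha _ _ ha' hb
    | ha a b ha' hb => rw [add_tmul, map_add]; exact ha _ _ ha' hb
  | add x y hx hy => rw [map_add]; exact ha _ _ hx hy

theorem Lb.t (hV : Lb a eV) (hX : Lb a eX) : Lb a (Eu.ten hV hX) := Lb.ten hV hX hV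

section

variable {U : Type} [AddCommGroup U] [Module ℂ U] {g : Eu U} {F : Type}

theorem deg2 (hV : Lb a eV) (hX : Lb a eX) [FunLike F (V ⊗[B] X) U]
    [AddMonoidHomClass F (V ⊗[B] X) U] (φ : F)
    (h : ∀ δ δ' v x, v ∈ eV.H δ → x ∈ eX.H δ' → φ (v ⊗ₜ x) ∈ g.H (γ + (δ + δ'))) :
    Deg (Eu.ten hV hX) g γ φ := fun δ _ hz =>
  Eu.ten_ind (γ := δ) hV hX (P := fun z => φ z ∈ g.H (γ + δ)) (by rw [map_zero]; exact zero_mem _)
    (fun u v hu hv => by rw [map_add]; exact add_mem hu hv)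
    (fun _ _ _ _ hv hx e => e ▸ h _ _ _ _ hv hx) hz

theorem deg3r (hV : Lb a eV) (hX : Lb a eX) (hY : Lb a eY) [FunLike F (V ⊗[B] (X ⊗[B] Y)) U]
    [AddMonoidHomClass F (V ⊗[B] (X ⊗[B] Y)) U] (φ : F)
    (h : ∀ δ δ' δ'' v x y, v ∈ eV.H δ → x ∈ eX.H δ' → y ∈ eY.H δ'' →
      φ (v ⊗ₜ (x ⊗ₜ y)) ∈ g.H (γ + (δ + (δ' + δ'')))) :
    Deg (Eu.ten hV (hX.t hY)) g γ φ :=
  deg2 hV _ φ fun δ δ' v _ hv hz =>
    Eu.ten_ind (γ := δ') hX hY (P := fun z => φ (v ⊗ₜ z) ∈ g.H (γ + (δ + δ')))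
      (by rw [tmul_zero, map_zero]; exact zero_mem _)
      (fun u v hu hv => by rw [tmul_add, map_add]; exact add_mem hu hv)
      (fun _ _ _ _ hx hy e => e ▸ h _ _ _ _ _ _ hv hx hy) hz

theorem deg3l (hV : Lb a eV) (hX : Lb a eX) (hY : Lb a eY) [FunLike F ((V ⊗[B] X) ⊗[B] Y) U]
    [AddMonoidHomClass F ((V ⊗[B] X) ⊗[B] Y) U] (φ : F)
    (h : ∀ δ δ' δ'' v x y, v ∈ eV.H δ → x ∈ eX.H δ' → y ∈ eY.H δ'' →
      φ ((v ⊗ₜ x) ⊗ₜ y) ∈ g.H (γ + (δ + δ' + δ''))) :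
    Deg (Eu.ten (hV.t hX) hY) g γ φ :=
  deg2 _ hY φ fun δ δ' _ y hz hy =>
    Eu.ten_ind (γ := δ) hV hX (P := fun z => φ (z ⊗ₜ y) ∈ g.H (γ + (δ + δ')))
      (by rw [zero_tmul, map_zero]; exact zero_mem _)
      (fun u v hu hv => by rw [add_tmul, map_add]; exact add_mem hu hv)
      (fun _ _ _ _ hv hx e => e ▸ h _ _ _ _ _ _ hv hx hy) hz

end

theorem deg_lTensor (hV : Lb a eV) (hX : Lb a eX) (hY : Lb a eY) {φ : X →ₗ[B] Y}
    (h : Deg eX eY γ φ) : Deg (Eu.ten hV hX) (Eu.ten hV hY) γ (φ.lTensor V) :=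
  deg2 _ _ _ fun _ _ _ _ hv hx => Eu.cast (Eu.tmul_mem hV hY hv (h _ _ hx)) (by abel)

theorem deg_assoc (hV : Lb a eV) (hX : Lb a eX) (hY : Lb a eY) :
    Deg (Eu.ten (hV.t hX) hY) (Eu.ten hV (hX.t hY)) 0 (TensorProduct.assoc B V X Y).toLinearMap :=
  deg3l _ _ _ _ fun _ _ _ _ _ _ hv hx hy =>
    Eu.cast (Eu.tmul_mem hV (hX.t hY) hv (Eu.tmul_mem hX hY hx hy)) (by abel)

variable {D L E : Type} [CommRing D] [Algebra ℂ D] [Algebra B D] [IsScalarTower ℂ B D]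
  [CommRing L] [Algebra B L] [AddCommGroup E] [Module ℂ E] [Module B E] [Module D E] [Module L E]
  [IsScalarTower ℂ B E] [IsScalarTower ℂ D E] [IsScalarTower B D E] [IsScalarTower B L E]
  [SMulCommClass D L E] {eD : Eu D} {eE : Eu E}

theorem deg_lT (hE : Lb a eE) (hX : Lb a eX) (hY : Lb a eY) {φ : X →ₗ[B] Y}
    (h : Deg eX eY γ φ) : Deg (Eu.ten hE hX) (Eu.ten hE hY) γ (lT L E φ) :=
  deg2 _ _ _ fun _ _ _ _ hv hx => Eu.cast (Eu.tmul_mem hE hY hv (h _ _ hx)) (by abel)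

theorem deg_rT (hE : Lb a eE) (hX : Lb a eX) {φ : E →ₗ[L] E} (h : Deg eE eE γ φ) :
    Deg (Eu.ten hE hX) (Eu.ten hE hX) γ (rT B X φ) :=
  deg2 _ _ _ fun _ _ _ _ hv hx => Eu.cast (Eu.tmul_mem hE hX (h _ _ hv) hx) (by abel)

theorem deg_ex (hE : Lb a eE) (hY : Lb a eY) (hX : Lb a eX) {ρ : E →ₗ[L] E ⊗[B] Y}
    (h : Deg eE (Eu.ten hE hY) γ ρ) : Deg (Eu.ten hE hX) (Eu.ten hE (hY.t hX)) γ (ex X ρ) :=
  deg2 _ _ _ fun δ δ' v x hv hx => by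
    rw [ex_tmul]
    have : Deg eY (Eu.ten hY hX) δ' ((TensorProduct.mk B Y X).flip x) := fun _ _ hy =>
      Eu.cast (Eu.tmul_mem hY hX hy hx) (by abel)
    exact Eu.cast (deg_lT hE hY (hY.t hX) this _ _ (h _ _ hv)) (by abel)

theorem deg_ex2 (hE : Lb a eE) (hD : Lb a eD) (hX : Lb a eX) {H : E →ₗ[L] E ⊗[B] (D ⊗[B] D)}
    (h : Deg eE (Eu.ten hE (hD.t hD)) γ H) :
    Deg (Eu.ten hE hX) (Eu.ten hE (hD.t (hD.t hX))) γ (ex2 X H) :=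
  (deg_lT hE _ _ (deg_assoc hD hD hX)).comp (deg_ex hE _ hX h) (zero_add _).symm

theorem deg_eps0 (hE : Lb a eE) (hD : Lb a eD) (m : Lb eD eE) :
    Deg (Eu.ten hE hD) eE 0 (eps0 B D L E) :=
  deg2 _ _ _ fun _ _ _ _ hv hx => Eu.cast (m.smul hx hv) (by abel)

theorem deg_act (hE : Lb a eE) (hD : Lb a eD) (hX : Lb a eX) (m : Lb eD eE) :
    Deg (Eu.ten hE (hD.t hX)) (Eu.ten hE hX) 0 (act D L E X) :=
  deg3r _ _ _ _ fun _ _ _ _ _ _ hv hu hx => by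
    rw [act_tmul]
    exact Eu.cast (Eu.tmul_mem hE hX (m.smul hu hv) hx) (by abel)

theorem deg_mul2 (hD : Lb a eD) (hX : Lb a eX) (m : Lb eD eD) :
    Deg (Eu.ten hD (hD.t hX)) (Eu.ten hD hX) 0 (mul2 B D X) :=
  deg3r _ _ _ _ fun _ _ _ _ _ _ hv hu hx => by
    rw [mul2_tmul]
    exact Eu.cast (Eu.tmul_mem hD hX (m.mul hv hu) hx) (by abel)

theorem deg_k1 [Module D X] [IsScalarTower B D X] [IsScalarTower ℂ D X] (hD : Lb a eD)
    (hX : Lb a eX) (m : Lb eD eX) : Deg (Eu.ten hD (hD.t hX)) (Eu.ten hD hX) 0 (k1 B D X) :=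
  deg3r _ _ _ _ fun _ _ _ _ _ _ hv hu hx => by
    rw [k1_tmul]
    exact Eu.cast (Eu.tmul_mem hD hX hu (m.smul hv hx)) (by abel)

/-- a homogeneous comodule -/
structure Cmd.Hg {d : E →ₗ[L] E} (c : Cmd B D d) (hE : Lb a eE) (hD : Lb a eD) : Prop where
  ρ : Deg eE (Eu.ten hE hD) 0 c.ρ
  H : Deg eE (Eu.ten hE (hD.t hD)) (-3, 0) c.H
  H0 : Deg eE eE (-3, 0) c.H0
  mE : Lb eD eE
  mD : Lb eD eD

namespace Cmd.Hg

variable {d : E →ₗ[L] E} {c : Cmd B D d} {hE : Lb a eE} {hD : Lb a eD} (h : c.Hg hE hD)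
  (hX : Lb a eX)

include h

theorem del {π : D ⊗[B] X →ₗ[B] X} (hπ : Deg (Eu.ten hD hX) eX γ π) :
    Deg (Eu.ten hE hX) (Eu.ten hE hX) γ (c.del π) :=
  (deg_lT hE _ _ hπ).comp (deg_ex hE hD hX h.ρ) (add_zero _).symm

theorem kap {π : D ⊗[B] X →ₗ[B] X} (hπ : Deg (Eu.ten hD hX) eX γ π) :
    Deg (Eu.ten hE hX) (Eu.ten hE hX) (γ + γ + (-3, 0)) (c.kap π) :=
  (deg_lT hE _ _ (φ := π ∘ₗ π.lTensor D) (hπ.comp (deg_lTensor hD _ _ hπ) rfl)).comp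
    (deg_ex2 hE hD hX h.H) rfl

variable [Module D X] [IsScalarTower B D X] [IsScalarTower ℂ D X] (m : Lb eD eX) (S : Sp B D X)

include m

theorem con (hσ : Deg eX (Eu.ten hD hX) γ S.σ) :
    Deg (Eu.ten hE hX) (Eu.ten hE hX) γ (c.con S) :=
  (deg_act hE hD hX h.mE).comp ((deg_lT hE _ _ (deg_k1 hD hX m)).comp
    ((deg_ex hE hD (hD.t hX) h.ρ).comp (deg_lT hE _ _ hσ) rfl) rfl) (by abel)

theorem hty (hπ : Deg (Eu.ten hD hX) eX γ S.π) (hσ : Deg eX (Eu.ten hD hX) (-γ) S.σ) :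
    Deg (Eu.ten hE hX) (Eu.ten hE hX) (-3, 0) (c.hty S) := by
  have h1 : Deg _ _ 0 (k1 B D X ∘ₗ (S.σ ∘ₗ S.π).lTensor D) :=
    (deg_k1 hD hX m).comp (deg_lTensor hD (hD.t hX) (hD.t hX) (φ := S.σ ∘ₗ S.π)
      (hσ.comp hπ (neg_add_cancel γ).symm)) (zero_add _).symm
  have h2 : Deg _ _ γ (S.π ∘ₗ mul2 B D X ∘ₗ (k1 B D X).lTensor D) :=
    hπ.comp ((deg_mul2 hD hX h.mD).comp (deg_lTensor hD (hD.t (hD.t hX)) _ (deg_k1 hD hX m)) rfl)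
      (by abel)
  exact (((deg_act hE hD hX h.mE).comp ((deg_lT hE (hD.t (hD.t hX)) (hD.t hX) h1).comp
    (deg_ex2 hE hD hX h.H) rfl) (by abel)).add (deg_rT hE hX h.H0)).add
    ((deg_lT hE (hD.t (hD.t (hD.t hX))) hX h2).comp ((deg_ex2 hE hD (hD.t hX) h.H).comp
      (deg_lT hE _ _ hσ) rfl) (by abel))

omit m in
theorem coa (ho : Deg eD eX 0 S.o) : Deg eE (Eu.ten hE hX) 0 (c.coa S) :=
  (deg_lT hE hD hX ho).comp h.ρ (zero_add _).symm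

end Cmd.Hg

end Vale.Agent.P287T.Sx
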