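import Vale.Agent.P287T.Sx.If
import Vale.Agent.P287T.Sx.Dg
import Mathlib.LinearAlgebra.TensorAlgebra.Basic
import Mathlib.Algebra.TrivSqZeroExt.Basic

/-!
# Block STRICT, step AM: the normalised Amitsur object
-/

set_option linter.all false

open TensorProduct TensorAlgebra

noncomputable section

namespace Vale.Agent.P287T.Sx

namespace AmP

variable {B : Type} [CommRing B] {M : Type} [AddCommGroup M] [Module B M]

theorem exists_lift {A : Type} [Ring A] (t : B →+* A) (ht : ∀ c x, t c * x = x * t c) (g : M → A)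
    (h1 : ∀ m m', g (m + m') = g m + g m') (h2 : ∀ r m, g (r • m) = t r * g m) :
    ∃ L : TensorAlgebra B M →+* A, (∀ b, L (algebraMap B _ b) = t b) ∧ ∀ m, L (ι B m) = g m :=
  letI : Algebra B A := t.toAlgebra' ht
  ⟨(TensorAlgebra.lift B (⟨⟨g, h1⟩, h2⟩ : M →ₗ[B] A)).toRingHom, AlgHom.commutes _, lift_ι_apply _⟩

theorem exists_der (a : B →+ B) (ha : ∀ r s, a (r * s) = a r * s + r * a s) (e : M →+ M)
    (he : ∀ (r : B) m, e (r • m) = a r • m + r • e m) :
    ∃ ε : TensorAlgebra B M →+ TensorAlgebra B M, (∀ b, ε (algebraMap B _ b) = algebraMap B _ (a b)) ∧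
      (∀ m, ε (ι B m) = ι B (e m)) ∧ ∀ x y, ε (x * y) = ε x * y + x * ε y := by
  have h1 : a 1 = 0 := by simpa using ha 1 1
  let t : B →+* TrivSqZeroExt (TensorAlgebra B M) (TensorAlgebra B M) :=
    { toFun := fun b => .inl (algebraMap B _ b) + .inr (algebraMap B _ (a b))
      map_one' := by simp [h1]
      map_mul' := fun r s => TrivSqZeroExt.ext (by simp) (by simp [ha, add_comm])
      map_zero' := by simp
      map_add' := fun r s => TrivSqZeroExt.ext (by simp) (by simp) }
  have t1 : ∀ b, (t b).fst = algebraMap B _ b := fun b => by simp [t]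
  have t2 : ∀ b, (t b).snd = algebraMap B _ (a b) := fun b => by simp [t]
  obtain ⟨L, hb, hι⟩ := exists_lift t (fun c x => TrivSqZeroExt.ext (by simp [t1, Algebra.commutes])
    (by simp [t1, t2, Algebra.commutes, add_comm])) (fun m : M => .inl (ι B m) + .inr (ι B (e m)))
    (fun m m' => TrivSqZeroExt.ext (by simp) (by simp)) fun r m =>
      TrivSqZeroExt.ext (by simp [t1, Algebra.smul_def]) (by
        simp [t1, t2, he, Algebra.smul_def, add_comm])
  have hf : ∀ x, (L x).fst = x := fun x => by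
    induction x using TensorAlgebra.induction with
    | algebraMap r => exact (congrArg TrivSqZeroExt.fst (hb r)).trans (t1 r)
    | ι m => simp [hι]
    | mul x y hx hy => rw [map_mul, TrivSqZeroExt.fst_mul, hx, hy]
    | add x y hx hy => rw [map_add, TrivSqZeroExt.fst_add, hx, hy]
  refine ⟨AddMonoidHom.mk' (fun x => (L x).snd) fun x y => by rw [map_add]; rfl,
    fun b => (congrArg TrivSqZeroExt.snd (hb b)).trans (t2 b), fun m => by simp [hι],
    fun x y => ?_⟩
  simp only [AddMonoidHom.mk'_apply, map_mul, TrivSqZeroExt.snd_mul, hf, smul_eq_mul,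
    op_smul_eq_mul, add_comm]

theorem exists_sig {Y : Type} [AddCommGroup Y] [Module B Y]
    (φ : M →ₗ[B] TensorAlgebra B M →ₗ[B] Y) : ∃ σ : TensorAlgebra B M →ₗ[B] Y,
      (∀ b, σ (algebraMap B _ b) = 0) ∧ ∀ m q, σ (ι B m * q) = φ m q := by
  let L := TensorAlgebra.lift B (A := Module.End B (TensorAlgebra B M × Y))
    { toFun := fun m : M => (LinearMap.mul B _ (ι B m) ∘ₗ LinearMap.fst B _ _).prod
        (φ m ∘ₗ LinearMap.fst B _ _)
      map_add' := fun m m' => LinearMap.ext fun z => Prod.ext (by simp [add_mul]) (by simp)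
      map_smul' := fun r m => LinearMap.ext fun z => Prod.ext (by simp) (by simp) }
  have hι : ∀ m z, L (ι B m) z = (ι B m * z.1, φ m z.1) := fun m z =>
    LinearMap.congr_fun (lift_ι_apply _ m) z
  have hf : ∀ x z, (L x z).1 = x * z.1 := fun x => by
    induction x using TensorAlgebra.induction with
    | algebraMap r => intro z; rw [L.commutes, ← Algebra.smul_def]; rfl
    | ι m => intro z; rw [hι]
    | mul x y hx hy => intro z; rw [map_mul, Module.End.mul_apply, hx, hy, mul_assoc]
    | add x y hx hy => intro z; rw [map_add, LinearMap.add_apply, Prod.fst_add, hx, hy, add_mul]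
  refine ⟨LinearMap.snd B _ _ ∘ₗ LinearMap.applyₗ (1, 0) ∘ₗ L.toLinearMap, fun b => ?_,
    fun m q => ?_⟩
  · change (L _ (1, 0)).2 = 0
    rw [L.commutes]
    exact smul_zero b
  · change (L _ (1, 0)).2 = _
    rw [map_mul, Module.End.mul_apply, hι, hf, mul_one]

variable (B) (D : Type) [CommRing D] [Algebra B D]

/-- `D / B` -/
abbrev Mq : Type := D ⧸ Submodule.span B {(1 : D)}

/-- the tensor algebra -/
abbrev Tq : Type := TensorAlgebra B (Mq B D)

/-- the generators -/
def gn : D →ₗ[B] Tq B D := ι B ∘ₗ Submodule.mkQ _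

/-- `u ⊗ q ↦ u q` -/
def pi0 : D ⊗[B] Tq B D →ₗ[B] Tq B D := TensorProduct.lift (LinearMap.mul B _ ∘ₗ gn B D)

variable {B D}

theorem pi0_tmul (u : D) (q : Tq B D) : pi0 B D (u ⊗ₜ q) = gn B D u * q := rfl

theorem gn_one : gn B D 1 = 0 := by
  rw [gn, LinearMap.comp_apply, Submodule.mkQ_apply,
    (Submodule.Quotient.mk_eq_zero _).2 (Submodule.mem_span_singleton_self _), map_zero]

theorem ind {P : Tq B D → Prop} (h1 : ∀ b, P (algebraMap B _ b)) (h2 : ∀ u q, P (gn B D u * q))
    (h3 : ∀ x y, P x → P y → P (x + y)) (q : Tq B D) : P q := by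
  have key : ∀ x : Tq B D, ∃ b z, x = algebraMap B _ b + pi0 B D z := fun x => by
    induction x using TensorAlgebra.induction with
    | algebraMap r => exact ⟨r, 0, by simp⟩
    | ι m =>
      obtain ⟨u, rfl⟩ := Submodule.mkQ_surjective _ m
      exact ⟨0, u ⊗ₜ 1, by rw [map_zero, zero_add, pi0_tmul, mul_one]; rfl⟩
    | add x y hx hy =>
      obtain ⟨a, z, rfl⟩ := hx
      obtain ⟨b, w, rfl⟩ := hy
      exact ⟨a + b, z + w, by rw [map_add, map_add, add_add_add_comm]⟩
    | mul x y hx hy =>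
      obtain ⟨a, z, rfl⟩ := hx
      obtain ⟨b, w, e⟩ := hy
      have : pi0 B D z * y = pi0 B D ((LinearMap.mulRight B y).lTensor D z) := by
        induction z using TensorProduct.induction_on with
        | zero => simp
        | tmul u q => exact mul_assoc _ _ _
        | add a b ha hb => simp only [map_add, add_mul, ha, hb]
      refine ⟨a * b, a • w + (LinearMap.mulRight B y).lTensor D z, ?_⟩
      rw [add_mul, this, map_add, map_smul, map_mul, Algebra.smul_def, ← add_assoc, ← mul_add, ← e]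
  obtain ⟨b, z, rfl⟩ := key q
  refine h3 _ _ (h1 b) ?_
  induction z using TensorProduct.induction_on with
  | zero => simpa using h1 0
  | tmul u q => exact h2 u q
  | add a b ha hb => rw [map_add]; exact h3 _ _ ha hb

theorem exists_sig0 : ∃ σ : Tq B D →ₗ[B] D ⊗[B] (D ⊗[B] Tq B D), (∀ b, σ (algebraMap B _ b) = 0) ∧
    ∀ u q, σ (gn B D u * q) = u ⊗ₜ (1 ⊗ₜ q) - 1 ⊗ₜ (u ⊗ₜ q) := by
  let φ : D →ₗ[B] Tq B D →ₗ[B] D ⊗[B] (D ⊗[B] Tq B D) := LinearMap.mk₂ B
    (fun u q => u ⊗ₜ (1 ⊗ₜ q) - 1 ⊗ₜ (u ⊗ₜ q))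
    (fun _ _ _ => by simp only [add_tmul, tmul_add]; abel)
    (fun _ _ _ => by simp only [← smul_tmul', tmul_smul, smul_sub])
    (fun _ _ _ => by simp only [tmul_add]; abel) fun _ _ _ => by simp only [tmul_smul, smul_sub]
  obtain ⟨σ, h1, h2⟩ := exists_sig (Submodule.liftQ (Submodule.span B {(1 : D)}) φ
    ((Submodule.span_singleton_le_iff_mem _ _).2 (LinearMap.ext fun _ => sub_self _)))
  exact ⟨σ, h1, fun u q => h2 _ q⟩

theorem aug_gn (u : D) (q : Tq B D) : algebraMapInv (gn B D u * q) = 0 := by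
  rw [map_mul, gn, LinearMap.comp_apply, algebraMapInv, lift_ι_apply, LinearMap.zero_apply, zero_mul]

/-- the split resolution -/
def sp (σ : Tq B D →ₗ[B] D ⊗[B] (D ⊗[B] Tq B D)) (h1 : ∀ b, σ (algebraMap B _ b) = 0)
    (h2 : ∀ u q, σ (gn B D u * q) = u ⊗ₜ (1 ⊗ₜ q) - 1 ⊗ₜ (u ⊗ₜ q)) : Sp B D (D ⊗[B] Tq B D) where
  π := (pi0 B D).lTensor D ∘ₗ (TensorProduct.leftComm B D D _).toLinearMap
  σ := k1 B D _ ∘ₗ σ.lTensor D
  a := (TensorProduct.rid B D).toLinearMap ∘ₗ algebraMapInv.toLinearMap.lTensor D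
  o := (TensorProduct.mk B D _).flip 1
  σπ := by
    ext u a q
    simp [pi0_tmul, h2, tmul_sub, smul_tmul', mul_comm]
  πσ := by
    refine TensorProduct.ext' fun a q => ?_
    induction q using ind with
    | h1 b =>
      have := h1 1
      rw [map_one] at this
      simp [this, Algebra.algebraMap_eq_smul_one, smul_tmul]
    | h2 u q => simp [h2, tmul_sub, pi0_tmul, gn_one, aug_gn, smul_tmul']
    | h3 x y hx hy => rw [tmul_add, map_add, map_add, hx, hy]
  πu := by
    ext b u a q
    simp [smul_tmul']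
  ou := by
    ext b a
    simp [smul_tmul']
  ao := by
    ext a
    simp

end AmP

open AmP

/-- **AM** -/
theorem stAm : StAm := by
  intro B D _ _ _ _ _ _ Γ
  have o1 : Γ.eD.ε 1 = 0 := by rw [Γ.lbD.one, ev_zero, zero_smul]
  have hp : ∀ v ∈ Submodule.span B {(1 : D)}, Γ.eD.ε v ∈ Submodule.span B {(1 : D)} :=
    fun v hv => Γ.lbBD.span (S := {1}) (fun _ h => ⟨0, Set.eq_of_mem_singleton h ▸ Γ.lbD.one⟩) hv
  obtain ⟨ε, e1, e2, e3⟩ := exists_der Γ.eB.ε.toAddMonoidHom Γ.lbB
    (Γ.eD.quot _ hp).ε.toAddMonoidHom (Γ.lbBD.quot _ hp)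
  obtain ⟨n, n1, n2, n3⟩ := exists_der (M := Mq B D) (0 : B →+ B) (by simp) (AddMonoidHom.id _)
    (by simp)
  obtain ⟨σ, s1, s2⟩ := exists_sig0 (B := B) (D := D)
  replace e1 : ∀ b, ε (algebraMap B _ b) = algebraMap B _ (Γ.eB.ε b) := e1
  replace n1 : ∀ b, n (algebraMap B _ b) = 0 := fun b => (n1 b).trans (map_zero _)
  replace e2 : ∀ u, ε (gn B D u) = gn B D (Γ.eD.ε u) := fun u => e2 _
  replace n2 : ∀ u, n (gn B D u) = gn B D u := fun u => n2 _
  let N : Tq B D →ₗ[B] Tq B D :=
    { n with map_smul' := fun b q => by simp [Algebra.smul_def, n3, n1] }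
  have c0 : ∀ c : ℂ, Γ.eB.ε (algebraMap ℂ B c) = 0 := fun c => by
    rw [Algebra.algebraMap_eq_smul_one, map_smul, Γ.lbB.one, ev_zero, zero_smul, smul_zero]
  let E : Tq B D →ₗ[ℂ] Tq B D :=
    { ε with
      map_smul' := fun c q => by
        rw [RingHom.id_apply, ← algebraMap_smul B, ← algebraMap_smul B c, Algebra.smul_def,
          Algebra.smul_def]
        simp [e3, e1, c0] }
  let G : Set (Tq B D) := {q | ∃ (γ : ℤ × ℤ) (k : ℕ), γ.1 = 0 ∧ ε q = ev γ • q ∧ n q = k • q}
  have hG : ∀ q, q ∈ Submodule.span ℂ G := fun q => by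
    induction q using TensorAlgebra.induction with
    | algebraMap b =>
      induction b using Γ.eB.ind with
      | h0 => rw [map_zero]; exact zero_mem _
      | ha a b ha hb => rw [map_add]; exact add_mem ha hb
      | hh γ b hb =>
        by_cases h : γ.1 = 0
        · refine Submodule.subset_span ⟨γ, 0, h, ?_, by rw [n1, zero_smul]⟩
          rw [e1, hb]
          exact ((Algebra.linearMap B _).restrictScalars ℂ).map_smul _ _
        · rw [(Submodule.mem_bot ℂ).1 (Γ.chB γ h hb), map_zero]; exact zero_mem _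
    | ι m =>
      obtain ⟨u, rfl⟩ := Submodule.mkQ_surjective _ m
      change gn B D u ∈ _
      induction u using Γ.eD.ind with
      | h0 => rw [map_zero]; exact zero_mem _
      | ha a b ha hb => rw [map_add]; exact add_mem ha hb
      | hh γ b hb =>
        by_cases h : γ.1 = 0
        · refine Submodule.subset_span ⟨γ, 1, h, ?_, by rw [n2, one_smul]⟩
          rw [e2, hb]
          exact ((gn B D).restrictScalars ℂ).map_smul _ _
        · rw [(Submodule.mem_bot ℂ).1 (Γ.chD γ h hb), map_zero]; exact zero_mem _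
    | add x y hx hy => exact add_mem hx hy
    | mul x y hx hy =>
      have h := Submodule.mul_mem_mul hx hy
      rw [Submodule.span_mul_span] at h
      refine Submodule.span_mono ?_ h
      rintro _ ⟨x, ⟨γ, k, h1, h2, h3⟩, y, ⟨γ', k', h1', h2', h3'⟩, rfl⟩
      refine ⟨γ + γ', k + k', by rw [Prod.fst_add, h1, h1', add_zero], ?_, ?_⟩
      · rw [e3, h2, h2', ev_add, add_smul, smul_mul_assoc, mul_smul_comm]
      · rw [n3, h3, h3', add_smul, smul_mul_assoc, mul_smul_comm]
  have evc : ∀ (c : ℤ) (q : Tq B D), ev (c, 0) • q = c • q := fun c q => by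
    simp [ev, Int.cast_smul_eq_zsmul]
  let f : ℤ → Eu (Tq B D) := fun c => ⟨E + c • N.restrictScalars ℂ, fun q => by
    refine Submodule.span_mono ?_ (hG q)
    rintro q ⟨γ, k, -, h2, h3⟩
    refine ⟨γ + (c * k, 0), ?_⟩
    change ε q + c • n q = _
    rw [h2, h3, ev_add, add_smul, evc, mul_smul, natCast_zsmul]⟩
  have fe : ∀ c q, (f c).ε q = ε q + c • n q := fun _ _ => rfl
  have f1 : ∀ c b, (f c).ε (algebraMap B _ b) = algebraMap B _ (Γ.eB.ε b) := fun c b => by
    rw [fe, e1, n1, smul_zero, add_zero]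
  have f2 : ∀ c u, (f c).ε (gn B D u) = gn B D (Γ.eD.ε u) + c • gn B D u := fun c u => by
    rw [fe, e2, n2]
  have f3 : ∀ c x y, (f c).ε (x * y) = (f c).ε x * y + x * (f c).ε y := fun c x y => by
    simp only [fe, e3, n3, smul_add, add_mul, mul_add, smul_mul_assoc, mul_smul_comm]
    abel
  have lb : ∀ c, Lb Γ.eB (f c) := fun c r q => by simp only [Algebra.smul_def, f3, f1]
  have au : ∀ q, algebraMapInv (n q) = 0 := fun q => by
    induction q using TensorAlgebra.induction with
    | algebraMap b => rw [n1, map_zero]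
    | ι m =>
      obtain ⟨u, rfl⟩ := Submodule.mkQ_surjective _ m
      exact (congrArg algebraMapInv (n2 u)).trans (by simpa using aug_gn u 1)
    | add x y hx hy => rw [map_add, map_add, hx, hy, add_zero]
    | mul x y hx hy => rw [n3, map_add, map_mul, map_mul, hx, hy, zero_mul, mul_zero, add_zero]
  refine ⟨{ Q := Tq B D, f := f, lb := lb, ch := fun γ h q hq => ?_, N := N
            hN := fun c q => by rw [fe, fe, zero_smul, add_zero]; rfl
            spN := fun q => ?_, π := pi0 B D, π1 := fun q => by rw [pi0_tmul, gn_one, zero_mul]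
            dπ := fun c => ?_, aug := algebraMapInv.toLinearMap, augN := au, daug := fun c => ?_
            S := sp σ s1 s2, Sπ := fun _ _ _ => rfl, Sa := fun _ _ => rfl, dσ := fun c => ?_
            dob := fun c δ v hv => ?_ }⟩
  · rw [← (f 0).pr_self hq]
    clear hq
    induction hG q using Submodule.span_induction with
    | mem q hq =>
      obtain ⟨γ', k, h1, h2, -⟩ := hq
      exact (f 0).pr_ne (γ := γ') (by rw [Eu.mem_H, fe, zero_smul, add_zero, h2]) fun e =>
        h (e ▸ h1)
    | zero => rw [map_zero]; exact zero_mem _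
    | add x y _ _ hx hy => rw [map_add]; exact add_mem hx hy
    | smul c x _ hx => rw [map_smul]; exact Submodule.smul_mem _ c hx
  · induction hG q using Submodule.span_induction with
    | mem q hq =>
      obtain ⟨_, k, -, -, h⟩ := hq
      exact Submodule.subset_span ⟨k, h⟩
    | zero => exact zero_mem _
    | add x y _ _ hx hy => exact add_mem hx hy
    | smul c x _ hx => rw [← algebraMap_smul B]; exact Submodule.smul_mem _ _ hx
  · refine deg2 _ _ _ fun δ δ' u q hu hq => ?_
    have : gn B D (ev δ • u) = ev δ • gn B D u := ((gn B D).restrictScalars ℂ).map_smul _ _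
    rw [Eu.mem_H, pi0_tmul, f3, f2, hu, hq, this, ev_add, ev_add, add_smul, add_smul, evc, add_mul,
      smul_mul_assoc, smul_mul_assoc, mul_smul_comm]
    abel
  · refine (deg_iff (V := Tq B D) (V' := B) (algebraMapInv.toLinearMap.restrictScalars ℂ)).2 fun q => ?_
    rw [ev_zero, zero_smul, add_zero]
    change Γ.eB.ε (algebraMapInv q) = algebraMapInv ((f c).ε q)
    induction q using ind with
    | h1 b => rw [f1, algebraMap_leftInverse, algebraMap_leftInverse]
    | h2 u q =>
      rw [f3, f2, add_mul, smul_mul_assoc, map_add, map_add, map_zsmul, aug_gn, aug_gn, aug_gn,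
        map_zero, smul_zero, add_zero, add_zero]
    | h3 x y hx hy => simp only [map_add, hx, hy]
  · refine (deg_k1 Γ.lbBD (Γ.lbBD.t (lb c)) (Lb.ten Γ.lbBD (lb c) Γ.lbD)).comp
      (deg_lTensor Γ.lbBD (lb c) (Γ.lbBD.t (Γ.lbBD.t (lb c))) (φ := σ) ?_) (zero_add _).symm
    refine (deg_iff (σ.restrictScalars ℂ)).2 fun q => ?_
    change (Eu.ten _ _).ε (σ q) = σ ((f c).ε q) + _ • σ q
    induction q using ind with
    | h1 b => rw [f1, s1, s1, map_zero, smul_zero, add_zero]
    | h2 u q =>
      have : ∀ y : D ⊗[B] (D ⊗[B] Tq B D), ev (-c, 0) • y = -(c • y) := fun y => by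
        rw [← neg_smul, ← Int.cast_smul_eq_zsmul ℂ, ev, Int.cast_zero, zero_mul, add_zero]
      simp only [f3, f2, add_mul, smul_mul_assoc, map_add, map_zsmul, s2, map_sub, Eu.ten_tmul, o1,
        zero_tmul, tmul_add, zero_add, this]
      abel
    | h3 x y hx hy => simp only [map_add, hx, hy, smul_add]; abel
  · have h : (1 : Tq B D) ∈ (f c).H 0 := by
      rw [Eu.mem_H, ← map_one (algebraMap B (Tq B D)), f1, Γ.lbB.one, ev_zero, zero_smul, zero_smul,
        map_zero]
    exact Eu.cast (Eu.tmul_mem Γ.lbBD (lb c) hv h) (by abel)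

end Vale.Agent.P287T.Sx
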