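import Vale.Agent.P287T.Sx.Eu

/-!
# Comodules up to homotopy: the calculus
-/

set_option linter.all false

open TensorProduct

noncomputable section

namespace Vale.Agent.P287T.Sx

variable {B D L E : Type} [CommRing B] [CommRing D] [Algebra B D] [CommRing L] [Algebra B L]
  [AddCommGroup E] [Module B E] [Module D E] [Module L E] [IsScalarTower B D E]
  [IsScalarTower B L E] [SMulCommClass D L E]
  {X Y Z : Type} [AddCommGroup X] [Module B X] [AddCommGroup Y] [Module B Y] [AddCommGroup Z]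
  [Module B Z]

variable (L E) in
/-- `1 ⊗ f` -/
abbrev lT (f : X →ₗ[B] Y) : E ⊗[B] X →ₗ[L] E ⊗[B] Y := AlgebraTensorModule.lTensor L E f

variable (B X) in
/-- `f ⊗ 1` -/
abbrev rT {E' : Type} [AddCommGroup E'] [Module B E'] [Module L E'] [IsScalarTower B L E']
    (f : E →ₗ[L] E') : E ⊗[B] X →ₗ[L] E' ⊗[B] X := AlgebraTensorModule.rTensor B X f

variable (X) in
/-- a map `E → E ⊗ Y` extended to `E ⊗ X → E ⊗ (Y ⊗ X)` -/
def ex (ρ : E →ₗ[L] E ⊗[B] Y) : E ⊗[B] X →ₗ[L] E ⊗[B] (Y ⊗[B] X) :=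
  (AlgebraTensorModule.assoc B B L E Y X).toLinearMap ∘ₗ rT B X ρ

theorem ex_tmul (ρ : E →ₗ[L] E ⊗[B] Y) (e : E) (x : X) :
    ex X ρ (e ⊗ₜ x) = lT L E ((TensorProduct.mk B Y X).flip x) (ρ e) := by
  show AlgebraTensorModule.assoc B B L E Y X (ρ e ⊗ₜ x) = _
  induction ρ e using TensorProduct.induction_on with
  | zero => simp
  | tmul a b => simp
  | add a b ha hb => simp only [add_tmul, map_add, ha, hb]

variable (B D L E) in
/-- the action `E ⊗ D → E` -/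
def eps0 : E ⊗[B] D →ₗ[L] E :=
  AlgebraTensorModule.lift
    { toFun := fun e => (LinearMap.toSpanSingleton D E e).restrictScalars B
      map_add' := fun a b => by ext; simp
      map_smul' := fun c a => LinearMap.ext fun u => smul_comm u c a }

@[simp] theorem eps0_tmul (e : E) (u : D) : eps0 B D L E (e ⊗ₜ u) = u • e := rfl

variable (D L E X) in
/-- the action `E ⊗ (D ⊗ X) → E ⊗ X` -/
def act : E ⊗[B] (D ⊗[B] X) →ₗ[L] E ⊗[B] X :=
  rT B X (eps0 B D L E) ∘ₗ (AlgebraTensorModule.assoc B B L E D X).symm.toLinearMap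

@[simp] theorem act_tmul (e : E) (u : D) (x : X) :
    act D L E X (e ⊗ₜ (u ⊗ₜ[B] x)) = (u • e) ⊗ₜ[B] x := by simp [act]

variable (B D X) in
/-- `x ↦ 1 ⊗ x` -/
abbrev eta : X →ₗ[B] D ⊗[B] X := TensorProduct.mk B D X 1

variable (B D X) in
/-- `a ⊗ u ⊗ x ↦ a u ⊗ x` -/
def mul2 : D ⊗[B] (D ⊗[B] X) →ₗ[B] D ⊗[B] X :=
  (LinearMap.mul' B D).rTensor X ∘ₗ (TensorProduct.assoc B D D X).symm.toLinearMap

@[simp] theorem mul2_tmul (a u : D) (x : X) :
    mul2 B D X (a ⊗ₜ (u ⊗ₜ[B] x)) = (a * u) ⊗ₜ[B] x := by simp [mul2]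

theorem ext3 {V : Type} [AddCommGroup V] [Module B V] [Module L V] [IsScalarTower B L V]
    {f g : E ⊗[B] (Y ⊗[B] X) →ₗ[L] V}
    (h : ∀ e y x, f (e ⊗ₜ (y ⊗ₜ x)) = g (e ⊗ₜ (y ⊗ₜ x))) : f = g :=
  AlgebraTensorModule.ext fun e z => by
    induction z using TensorProduct.induction_on with
    | zero => simp
    | tmul a b => exact h e a b
    | add a b ha hb => simp only [tmul_add, map_add, ha, hb]

theorem lT_lT (f : X →ₗ[B] Y) (g : Y →ₗ[B] Z) (z : E ⊗[B] X) :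
    lT L E g (lT L E f z) = lT L E (g ∘ₗ f) z := by
  rw [lT, lT, lT, AlgebraTensorModule.lTensor_comp]; rfl

theorem lT_id (z : E ⊗[B] X) : lT L E (LinearMap.id : X →ₗ[B] X) z = z := by
  rw [lT, AlgebraTensorModule.lTensor_id]; rfl

theorem lT_sub (f g : X →ₗ[B] Y) (z : E ⊗[B] X) :
    lT L E (f - g) z = lT L E f z - lT L E g z := by
  rw [lT, map_sub]; rfl

theorem rT_lT (d : E →ₗ[L] E) (f : X →ₗ[B] Y) (z : E ⊗[B] X) :
    rT B Y d (lT L E f z) = lT L E f (rT B X d z) := by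
  induction z using TensorProduct.induction_on with
  | zero => simp
  | tmul a b => simp
  | add a b ha hb => simp only [map_add, ha, hb]

theorem rT_act {d : E →ₗ[L] E} (hd : ∀ (u : D) e, d (u • e) = u • d e)
    (z : E ⊗[B] (D ⊗[B] X)) : rT B X d (act D L E X z) = act D L E X (rT B _ d z) :=
  LinearMap.congr_fun (ext3 (f := rT B X d ∘ₗ act D L E X) (g := act D L E X ∘ₗ rT B _ d)
    fun e y x => by simp [hd]) z

theorem act_eta (z : E ⊗[B] X) : act D L E X (lT L E (eta B D X) z) = z := by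
  induction z using TensorProduct.induction_on with
  | zero => simp
  | tmul a b => simp
  | add a b ha hb => simp only [map_add, ha, hb]

theorem ex_lT (ρ : E →ₗ[L] E ⊗[B] Z) (f : X →ₗ[B] Y) (z : E ⊗[B] X) :
    ex Y ρ (lT L E f z) = lT L E (f.lTensor Z) (ex X ρ z) := by
  induction z using TensorProduct.induction_on with
  | zero => simp
  | tmul a b =>
    rw [AlgebraTensorModule.lTensor_tmul, ex_tmul, ex_tmul, lT_lT]
    rfl
  | add a b ha hb => simp only [map_add, ha, hb]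

theorem ex_rT {ρ : E →ₗ[L] E ⊗[B] Z} {d : E →ₗ[L] E} (h : ∀ e, ρ (d e) = rT B Z d (ρ e))
    (z : E ⊗[B] X) : ex X ρ (rT B X d z) = rT B _ d (ex X ρ z) := by
  induction z using TensorProduct.induction_on with
  | zero => simp
  | tmul a b => rw [AlgebraTensorModule.rTensor_tmul, ex_tmul, ex_tmul, rT_lT, h]
  | add a b ha hb => simp only [map_add, ha, hb]

variable (X) in
/-- a map `E → E ⊗ (D ⊗ D)` extended to `E ⊗ X → E ⊗ (D ⊗ (D ⊗ X))` -/
def ex2 (H : E →ₗ[L] E ⊗[B] (D ⊗[B] D)) : E ⊗[B] X →ₗ[L] E ⊗[B] (D ⊗[B] (D ⊗[B] X)) :=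
  lT L E (TensorProduct.assoc B D D X).toLinearMap ∘ₗ ex X H

variable (B D) in
/-- a comodule up to homotopy -/
structure Cmd (d : E →ₗ[L] E) where
  ρ : E →ₗ[L] E ⊗[B] D
  H : E →ₗ[L] E ⊗[B] (D ⊗[B] D)
  H0 : E →ₗ[L] E
  du : ∀ (u : D) e, d (u • e) = u • d e
  ρd : ∀ e, ρ (d e) = rT B D d (ρ e)
  ρu : ∀ (u : D) e, ρ (u • e) = lT L E (LinearMap.mul B D u) (ρ e)
  co : ∀ e, ex D ρ (ρ e) - lT L E (eta B D D) (ρ e) = rT B _ d (H e) + H (d e)
  cu : ∀ e, eps0 B D L E (ρ e) - e = d (H0 e) + H0 (d e)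

namespace Cmd

variable {d : E →ₗ[L] E} (c : Cmd B D d)

theorem coX (z : E ⊗[B] X) : ex (D ⊗[B] X) c.ρ (ex X c.ρ z) =
    lT L E (eta B D _) (ex X c.ρ z) + (rT B _ d (ex2 X c.H z) + ex2 X c.H (rT B X d z)) := by
  induction z using TensorProduct.induction_on with
  | zero => simp
  | tmul e x =>
    have h := congrArg (lT L E ((TensorProduct.assoc B D D X).toLinearMap ∘ₗ
      (TensorProduct.mk B (D ⊗[B] D) X).flip x)) (c.co e)
    rw [map_sub, map_add, ← rT_lT, lT_lT, sub_eq_iff_eq_add'] at h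
    rw [AlgebraTensorModule.rTensor_tmul]
    simp only [ex2, LinearMap.comp_apply, ex_tmul, lT_lT, ex_lT]
    have e1 : ex (D ⊗[B] X) c.ρ (lT L E ((TensorProduct.mk B D X).flip x) (c.ρ e)) =
        lT L E ((TensorProduct.assoc B D D X).toLinearMap ∘ₗ
          (TensorProduct.mk B (D ⊗[B] D) X).flip x) (ex D c.ρ (c.ρ e)) := by
      rw [ex_lT]
      congr 2
      ext
      rfl
    rw [← ex_lT, e1, h]
    rfl
  | add a b ha hb => simp only [map_add, ha, hb]; abel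

theorem cuX (z : E ⊗[B] X) : act D L E X (ex X c.ρ z) =
    z + (rT B X d (rT B X c.H0 z) + rT B X c.H0 (rT B X d z)) := by
  induction z using TensorProduct.induction_on with
  | zero => simp
  | tmul e x =>
    have : act D L E X (ex X c.ρ (e ⊗ₜ x)) = eps0 B D L E (c.ρ e) ⊗ₜ x := by
      simp [act, ex]
    rw [this, sub_eq_iff_eq_add'.1 (c.cu e)]
    simp [add_tmul]
  | add a b ha hb => simp only [map_add, ha, hb]; abel

theorem ρact (z : E ⊗[B] (D ⊗[B] X)) : ex X c.ρ (act D L E X z) =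
    lT L E (mul2 B D X) (ex (D ⊗[B] X) c.ρ z) :=
  LinearMap.congr_fun (ext3 (f := ex X c.ρ ∘ₗ act D L E X)
    (g := lT L E (mul2 B D X) ∘ₗ ex (D ⊗[B] X) c.ρ) fun e y x => by
      simp only [LinearMap.comp_apply, act_tmul, ex_tmul, c.ρu, lT_lT]
      congr 2
      ext a
      simp [mul_comm]) z

theorem ρeps (z : E ⊗[B] D) : c.ρ (eps0 B D L E z) =
    lT L E (LinearMap.mul' B D) (ex D c.ρ z) := by
  induction z using TensorProduct.induction_on with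
  | zero => simp
  | tmul e u =>
    simp only [eps0_tmul, ex_tmul, c.ρu, lT_lT]
    congr 2
    ext a
    simp [mul_comm]
  | add a b ha hb => simp only [map_add, ha, hb]

variable (π : D ⊗[B] X →ₗ[B] X)

/-- the coboundary -/
def del : E ⊗[B] X →ₗ[L] E ⊗[B] X := lT L E π ∘ₗ ex X c.ρ

/-- the null-homotopy of its square -/
def kap : E ⊗[B] X →ₗ[L] E ⊗[B] X := lT L E (π ∘ₗ π.lTensor D) ∘ₗ ex2 X c.H

theorem del_d (z : E ⊗[B] X) : c.del π (rT B X d z) = rT B X d (c.del π z) := by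
  simp only [del, LinearMap.comp_apply, ex_rT c.ρd, rT_lT]

theorem del_del (hπ : ∀ x, π (1 ⊗ₜ x) = 0) (z : E ⊗[B] X) :
    c.del π (c.del π z) = rT B X d (c.kap π z) + c.kap π (rT B X d z) := by
  have : (π ∘ₗ π.lTensor D) ∘ₗ eta B D (D ⊗[B] X) = 0 := LinearMap.ext fun y => hπ _
  have h2 : c.del π (c.del π z) =
      lT L E (π ∘ₗ π.lTensor D) (ex (D ⊗[B] X) c.ρ (ex X c.ρ z)) := by
    simp only [del, LinearMap.comp_apply, ex_lT, lT_lT]
  rw [h2, c.coX, map_add, map_add, lT_lT, this, ← rT_lT, lT, map_zero, LinearMap.zero_apply,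
    zero_add]
  rfl

end Cmd

section

variable [Module D X] [IsScalarTower B D X]

variable (B D X) in
/-- the action `D ⊗ X → X` -/
def rr : D ⊗[B] X →ₗ[B] X := TensorProduct.lift (Algebra.lsmul B B X (A := D)).toLinearMap

@[simp] theorem rr_tmul (u : D) (x : X) : rr B D X (u ⊗ₜ x) = u • x := rfl

variable (B D X) in
/-- `a ⊗ u ⊗ x ↦ u ⊗ a x` -/
def k1 : D ⊗[B] (D ⊗[B] X) →ₗ[B] D ⊗[B] X :=
  (rr B D X).lTensor D ∘ₗ (TensorProduct.leftComm B D D X).toLinearMap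

@[simp] theorem k1_tmul (a u : D) (x : X) :
    k1 B D X (a ⊗ₜ (u ⊗ₜ[B] x)) = u ⊗ₜ[B] (a • x) := by simp [k1]

theorem k1_eta : k1 B D X ∘ₗ eta B D (D ⊗[B] X) = LinearMap.id := by
  ext u x
  simp

theorem mul2_eta : mul2 B D X ∘ₗ eta B D (D ⊗[B] X) = LinearMap.id := by
  ext u x
  simp

variable (B D X) in
/-- a split resolution of `D` -/
structure Sp where
  π : D ⊗[B] X →ₗ[B] X
  σ : X →ₗ[B] D ⊗[B] X
  a : X →ₗ[B] D
  o : D →ₗ[B] X
  σπ : σ ∘ₗ π = LinearMap.id - eta B D X ∘ₗ rr B D X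
  πσ : π ∘ₗ σ = LinearMap.id - o ∘ₗ a
  πu : π ∘ₗ k1 B D X = rr B D X ∘ₗ π.lTensor D
  ou : rr B D X ∘ₗ o.lTensor D = o ∘ₗ LinearMap.mul' B D
  ao : a ∘ₗ o = LinearMap.id

namespace Cmd

variable {d : E →ₗ[L] E} (c : Cmd B D d) (S : Sp B D X)

/-- the contraction -/
def con : E ⊗[B] X →ₗ[L] E ⊗[B] X :=
  act D L E X ∘ₗ lT L E (k1 B D X) ∘ₗ ex (D ⊗[B] X) c.ρ ∘ₗ lT L E S.σ

/-- the homotopy -/
def hty : E ⊗[B] X →ₗ[L] E ⊗[B] X :=
  act D L E X ∘ₗ lT L E (k1 B D X ∘ₗ (S.σ ∘ₗ S.π).lTensor D) ∘ₗ ex2 X c.H + rT B X c.H0 +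
    lT L E (S.π ∘ₗ mul2 B D X ∘ₗ (k1 B D X).lTensor D) ∘ₗ ex2 (D ⊗[B] X) c.H ∘ₗ lT L E S.σ

variable (L E) in
/-- the augmentation -/
def aug : E ⊗[B] X →ₗ[L] E := eps0 B D L E ∘ₗ lT L E S.a

/-- the coaugmentation -/
def coa : E →ₗ[L] E ⊗[B] X := lT L E S.o ∘ₗ c.ρ

theorem con_d (z : E ⊗[B] X) : c.con S (rT B X d z) = rT B X d (c.con S z) := by
  simp only [con, LinearMap.comp_apply, ← rT_lT, ex_rT c.ρd, rT_act c.du]

theorem coa_d (e : E) : c.coa S (d e) = rT B X d (c.coa S e) := by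
  simp only [coa, LinearMap.comp_apply, c.ρd, rT_lT]

include c in
theorem aug_d (z : E ⊗[B] X) : aug L E S (rT B X d z) = d (aug L E S z) := by
  induction z using TensorProduct.induction_on with
  | zero => simp
  | tmul a b => simp [aug, c.du]
  | add a b ha hb => simp only [map_add, ha, hb]

theorem aug_coa (e : E) : aug L E S (c.coa S e) = e + (d (c.H0 e) + c.H0 (d e)) := by
  simp only [aug, coa, LinearMap.comp_apply, lT_lT, S.ao, lT_id]
  exact sub_eq_iff_eq_add'.1 (c.cu e)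

theorem con_del (z : E ⊗[B] X) : c.del S.π (c.con S z) + c.con S (c.del S.π z) =
    z - c.coa S (aug L E S z) + (rT B X d (c.hty S z) + c.hty S (rT B X d z)) := by
  have e1 : (k1 B D X ∘ₗ (S.σ ∘ₗ S.π).lTensor D) ∘ₗ eta B D (D ⊗[B] X) =
      LinearMap.id - eta B D X ∘ₗ rr B D X :=
    (LinearMap.ext fun y => LinearMap.congr_fun k1_eta (S.σ (S.π y))).trans S.σπ
  have e2 : (S.π ∘ₗ mul2 B D X ∘ₗ (k1 B D X).lTensor D) ∘ₗ eta B D (D ⊗[B] (D ⊗[B] X)) =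
      rr B D X ∘ₗ S.π.lTensor D :=
    Eq.trans (b := S.π ∘ₗ k1 B D X)
      (LinearMap.ext fun y => congrArg S.π (LinearMap.congr_fun mul2_eta (k1 B D X y))) S.πu
  have hA : c.con S (c.del S.π z) = act D L E X (lT L E (k1 B D X ∘ₗ (S.σ ∘ₗ S.π).lTensor D)
      (ex (D ⊗[B] X) c.ρ (ex X c.ρ z))) := by
    simp only [con, del, LinearMap.comp_apply, lT_lT, ex_lT]
  have hB : c.del S.π (c.con S z) = lT L E (S.π ∘ₗ mul2 B D X ∘ₗ (k1 B D X).lTensor D)
      (ex _ c.ρ (ex (D ⊗[B] X) c.ρ (lT L E S.σ z))) := by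
    simp only [con, del, LinearMap.comp_apply, c.ρact, ex_lT _ (k1 B D X), lT_lT]
  have h3 : lT L E (rr B D X ∘ₗ S.π.lTensor D) (ex (D ⊗[B] X) c.ρ (lT L E S.σ z)) =
      lT L E (rr B D X) (ex X c.ρ z) - c.coa S (aug L E S z) := by
    rw [← lT_lT, ← ex_lT, lT_lT, S.πσ, lT_sub, lT_id, map_sub, map_sub, ← lT_lT, ex_lT, lT_lT,
      S.ou, ← lT_lT, ← c.ρeps]
    rfl
  rw [hA, hB, c.coX, c.coX, map_add, map_add, map_add, map_add, map_add, map_add, lT_lT, lT_lT,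
    e1, e2, h3, lT_sub, lT_id, map_sub, ← lT_lT (rr B D X) (eta B D X), act_eta, c.cuX]
  simp only [hty, LinearMap.comp_apply, LinearMap.add_apply, map_add, rT_lT, rT_act c.du]
  abel

end Cmd

end

end Vale.Agent.P287T.Sx
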