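import Vale.Agent.P287T.Sx.St
import Vale.Agent.P287T.Sx.Co

/-!
# Block STRICT: two inner interfaces
-/

set_option linter.all false

open TensorProduct MvPolynomial Matrix

noncomputable section

namespace Vale.Agent.P287T.Sx

attribute [local instance] MvPolynomial.algebraMvPolynomial

variable {B D : Type} [CommRing B] [Algebra ℂ B] [CommRing D] [Algebra ℂ D] [Algebra B D]
  [IsScalarTower ℂ B D]

/-- The normalised Amitsur object `Q = ⨁ (D / B)^{⊗ n}` with the gradings `f c` in which the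
`n`-th summand has charge `c n`. -/
structure Am (Γ : Gr B D) where
  Q : Type
  [ag : AddCommGroup Q]
  [mc : Module ℂ Q]
  [mb : Module B Q]
  [tw : IsScalarTower ℂ B Q]
  f : ℤ → Eu Q
  lb : ∀ c, Lb Γ.eB (f c)
  ch : ∀ γ : ℤ × ℤ, γ.1 ≠ 0 → (f 0).H γ ≤ ⊥
  N : Q →ₗ[B] Q
  hN : ∀ (c : ℤ) q, (f c).ε q = (f 0).ε q + c • N q
  spN : ∀ q, q ∈ Submodule.span B {q | ∃ n : ℕ, N q = n • q}
  π : D ⊗[B] Q →ₗ[B] Q
  π1 : ∀ q, π (1 ⊗ₜ q) = 0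
  dπ : ∀ c, Deg (Eu.ten Γ.lbBD (lb c)) (f c) (c, 0) π
  aug : Q →ₗ[B] B
  augN : ∀ q, aug (N q) = 0
  daug : ∀ c, Deg (f c) Γ.eB 0 aug
  S : Sp B D (D ⊗[B] Q)
  Sπ : ∀ (u a : D) q, S.π (u ⊗ₜ (a ⊗ₜ q)) = a ⊗ₜ π (u ⊗ₜ q)
  Sa : ∀ (a : D) q, S.a (a ⊗ₜ q) = aug q • a
  dσ : ∀ c, Deg (Eu.ten Γ.lbBD (lb c)) (Eu.ten Γ.lbBD (Lb.ten Γ.lbBD (lb c) Γ.lbBD)) (-c, 0) S.σ
  dob : ∀ c, Deg Γ.eD (Eu.ten Γ.lbBD (lb c)) 0 S.o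

attribute [instance] Am.ag Am.mc Am.mb Am.tw

/-- **AM** -/
def StAm : Prop :=
  ∀ (B D : Type) [CommRing B] [Algebra ℂ B] [CommRing D] [Algebra ℂ D] [Algebra B D]
    [IsScalarTower ℂ B D] (Γ : Gr B D), Nonempty (Am Γ)

/-- **CM** -/
def StCm : Prop :=
  ∀ (B D : Type) [CommRing B] [Algebra ℂ B] [CommRing D] [Algebra ℂ D] [Algebra B D]
    [IsScalarTower ℂ B D] (ι : Type) [Fintype ι] [DecidableEq ι] (Γ : Gr B D) (W : Px ℂ)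
    (p : ι → ℤ) (d : Matrix ι ι (Px D)), Inp Γ W p d →
    ∃ c : Cmd B D (L := Px B) (E := ι → Px D) (d.mulVecLin.restrictScalars (Px B)),
      Deg (Γ.eE p) (Eu.ten (Γ.lbE p) Γ.lbBD) 0 c.ρ ∧
      Deg (Γ.eE p) (Eu.ten (Γ.lbE p) Γ.lb2) (-3, 0) c.H ∧ Deg (Γ.eE p) (Γ.eE p) (-3, 0) c.H0

end Vale.Agent.P287T.Sx
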