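import Vale.Agent.P287T.Sx.Jb
import Vale.Agent.P287T.Sx.If

/-!
# The total object and its comparison with the family
-/

set_option linter.all false

open TensorProduct Polynomial

noncomputable section

namespace Vale.Agent.P287T.Sx

variable {B D L A E : Type} [CommRing B] [Algebra ℂ B] [CommRing D] [Algebra ℂ D] [Algebra B D]
  [IsScalarTower ℂ B D] [CommRing L] [Algebra ℂ L] [CommRing A] [Algebra ℂ A] [Algebra B L]
  [Algebra B A] [Algebra D A] [Algebra L A] [IsScalarTower B D A] [IsScalarTower B L A]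
  [IsScalarTower ℂ L A] [IsScalarTower ℂ A A] [Algebra.IsPushout B D L A] [AddCommGroup E]
  [Module ℂ E] [Module B E] [Module D E] [Module L E] [Module A E] [IsScalarTower ℂ B E]
  [IsScalarTower ℂ D E] [IsScalarTower ℂ L E] [IsScalarTower ℂ A E] [IsScalarTower B D E]
  [IsScalarTower B L E] [IsScalarTower L A E] [IsScalarTower D A E] [SMulCommClass D L E]

/-- the abstract data -/
structure Ab (Γ : Gr B D) (R : Am Γ) (w : L) (d : E →ₗ[L] E) (b : Eu L) (eA : Eu A)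
    (eE : Eu E) where
  hE : Lb Γ.eB eE
  hL : Lb b eE
  hA : Lb b eA
  hAE : Lb eA eE
  alg : Deg Γ.eD eA 0 (algebraMap D A)
  lowA : Low eA 0
  genA : Gen L eA 0
  c0 : ℤ
  c1 : ℤ
  lowE : Low eE c0
  genE : Gen L eE c1
  P : E →ₗ[L] E
  par : Par eE P
  dg : Deg eE eE (3, 0) d
  dd : ∀ v, d (d v) = w • v
  hw : w ∈ b.H (6, 0)
  c : Cmd B D d
  hc : c.Hg hE Γ.lbBD
  ex : ∀ (k : ℤ) (F : Module.End L (E ⊗[B] R.Q)), k < 0 →
    Deg (Eu.ten hE (R.lb 0)) (Eu.ten hE (R.lb 0)) (3 * k, 0) F → rT B R.Q d * F = F * rT B R.Q d →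
    ∃ x, F = rT B R.Q d * x + x * rT B R.Q d ∧ ∀ (c : ℤ) (γ : ℤ × ℤ),
      Deg (Eu.ten hE (R.lb c)) (Eu.ten hE (R.lb c)) γ F →
      Deg (Eu.ten hE (R.lb c)) (Eu.ten hE (R.lb c)) (γ - (3, 0)) x

variable {Γ : Gr B D} {R : Am Γ} {w : L} {d : E →ₗ[L] E} {b : Eu L} {eA : Eu A} {eE : Eu E}

variable (L E R) in
/-- the projection `E ⊗ Q → E` -/
def prj : E ⊗[B] R.Q →ₗ[L] E := (AlgebraTensorModule.rid B L E).toLinearMap ∘ₗ lT L E R.aug

theorem prj_tmul (e : E) (q : R.Q) : prj L E R (e ⊗ₜ q) = R.aug q • e := by simp [prj]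

theorem Am.nb : Nb (R.f 0) (R.f 3) R.N := ⟨R.hN 3, R.spN⟩

theorem sgn_zero {V : Type} [AddCommGroup V] (v : V) :
    ((Int.negOnePow ((0, 0) : ℤ × ℤ).1 : ℤˣ) : ℤ) • v = v := one_smul _ _

theorem sgn_three {V : Type} [AddCommGroup V] (v : V) :
    ((Int.negOnePow ((3, 0) : ℤ × ℤ).1 : ℤˣ) : ℤ) • v = -v := neg_one_smul _ _

theorem low3 {S : Type} [Ring S] {U : S[X]} {W : S} (q0 : U.coeff 0 * U.coeff 0 = W)
    (q1 : U.coeff 0 * U.coeff 1 + U.coeff 1 * U.coeff 0 = 0)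
    (q2 : U.coeff 0 * U.coeff 2 + (U.coeff 1 * U.coeff 1 + U.coeff 2 * U.coeff 0) = 0) :
    ∀ k < 3, (U * U - C W).coeff k = 0 := fun k hk => by
  rw [coeff_sub, coeff_mul, sub_eq_zero]
  interval_cases k
  · simpa using q0
  · simpa [Finset.Nat.antidiagonal_succ] using q1
  · simpa [Finset.Nat.antidiagonal_succ, coeff_C] using q2

namespace Ab

variable (h : Ab Γ R w d b eA eE)

/-- the gradings of the total object -/
abbrev eT (c : ℤ) : Eu (E ⊗[B] R.Q) := Eu.ten h.hE (R.lb c)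

theorem lbT (c : ℤ) : Lb b (h.eT c) := Lb.ten h.hE (R.lb c) h.hL

section

variable {X : Type} [AddCommGroup X] [Module ℂ X] [Module B X] [IsScalarTower ℂ B X] {f : Eu X}
  (hf : Lb Γ.eB f) (ch : ∀ γ : ℤ × ℤ, γ.1 ≠ 0 → f.H γ ≤ ⊥)

include hf ch

theorem parX : Par (Eu.ten h.hE hf) (rT B X h.P) :=
  h.par.ten h.hE hf (par_of_ch ch) (rT B X h.P).toAddMonoidHom fun _ _ => rfl

theorem P_P (z : E ⊗[B] X) : rT B X h.P (rT B X h.P z) = z :=
  Par.sq (P := (rT B X h.P).toAddMonoidHom) (h.parX hf ch) z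

theorem P_c {φ : Module.End L (E ⊗[B] X)} (hφ : Deg (Eu.ten h.hE hf) (Eu.ten h.hE hf) (0, 0) φ)
    (z : E ⊗[B] X) : rT B X h.P (φ z) = φ (rT B X h.P z) :=
  (Par.comm (P := (rT B X h.P).toAddMonoidHom) (φ := φ.toAddMonoidHom) (h.parX hf ch)
    (h.parX hf ch) (map_add _) hφ z).trans (sgn_zero _)

theorem P_d (z : E ⊗[B] X) : rT B X h.P (rT B X d z) = -rT B X d (rT B X h.P z) :=
  (Par.comm (P := (rT B X h.P).toAddMonoidHom) (φ := (rT B X d).toAddMonoidHom) (h.parX hf ch)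
    (h.parX hf ch) (map_add _) (deg_rT h.hE hf h.dg) z).trans (sgn_three _)

end

theorem a0_mem : rT B R.Q d ∈ GG L (h.eT 0) (h.eT 3) 0 1 :=
  ⟨deg_rT h.hE _ h.dg, deg_rT h.hE _ h.dg⟩

theorem a1_mem : rT B R.Q h.P * h.c.del R.π ∈ GG L (h.eT 0) (h.eT 3) 1 0 :=
  ⟨(deg_rT h.hE _ h.par.deg).comp (h.hc.del _ (R.dπ 0)) rfl,
    (deg_rT h.hE _ h.par.deg).comp (h.hc.del _ (R.dπ 3)) rfl⟩

include h in
theorem rT_dd {X : Type} [AddCommGroup X] [Module B X] (z : E ⊗[B] X) :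
    rT B X d (rT B X d z) = w • z := by
  induction z using TensorProduct.induction_on with
  | zero => simp
  | tmul a b => simp [h.dd, smul_tmul']
  | add a b ha hb => simp only [map_add, ha, hb, smul_add]

theorem conv1 : ∃ b0 ∈ Fl (GG L (h.eT 0) (h.eT 3)) 1 2,
    ∀ v, (rT B R.Q d + rT B R.Q h.P * h.c.del R.π + b0)
      ((rT B R.Q d + rT B R.Q h.P * h.c.del R.π + b0) v) = w • v := by
  have hG : Big (GG L (h.eT 0) (h.eT 3)) _ :=
    GG.big (h.genE.ten h.hE (R.lb 0) (gen_of_ch R.ch)) (h.lowE.ten h.hE (R.lb 0) (low_of_ch R.ch))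
  have a2 : -h.c.kap R.π ∈ GG L (h.eT 0) (h.eT 3) 2 (-1) :=
    neg_mem (s := GG L (h.eT 0) (h.eT 3) 2 (-1))
      ⟨(h.hc.kap _ (R.dπ 0)).cast (by decide), (h.hc.kap _ (R.dπ 3)).cast (by decide)⟩
  obtain ⟨U, hU⟩ : ∃ U : (Module.End L (E ⊗[B] R.Q))[X], U = monomial 0 (rT B R.Q d) +
    monomial 1 (rT B R.Q h.P * h.c.del R.π) + monomial 2 (-h.c.kap R.π) := ⟨_, rfl⟩
  have u0 : U.coeff 0 = rT B R.Q d := by simp [hU, coeff_monomial]
  have u1 : U.coeff 1 = rT B R.Q h.P * h.c.del R.π := by simp [hU, coeff_monomial]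
  have u2 : U.coeff 2 = -h.c.kap R.π := by simp [hU, coeff_monomial]
  have tU : Tot (GG L (h.eT 0) (h.eT 3)) 1 U :=
    hU ▸ ((tot_monomial (n := 0) h.a0_mem).add (tot_monomial (n := 1) h.a1_mem)).add
      (tot_monomial (n := 2) a2)
  have tW : Tot (GG L (h.eT 0) (h.eT 3)) 2 (C (w • (1 : Module.End L (E ⊗[B] R.Q)))) :=
    tot_monomial (n := 0) ⟨fun δ v hv => (h.lbT 0).smul h.hw hv,
      fun δ v hv => (h.lbT 3).smul h.hw hv⟩
  obtain ⟨U', d1, d2, d3⟩ := conv (W := w • (1 : Module.End L (E ⊗[B] R.Q))) hG hG.idl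
    (fun x => by rw [smul_mul_assoc, mul_smul_comm, one_mul, mul_one]) tU
    (fun k hk F hF e => by
      rw [u0] at e ⊢
      obtain ⟨x, x1, x2⟩ := h.ex (2 - k) F (by omega) hF.1 e
      exact ⟨x, ⟨(x2 0 _ hF.1).cast (Prod.ext (by simp only [Prod.fst_sub]; ring) rfl),
        (x2 3 _ hF.2).cast (Prod.ext (by simp only [Prod.fst_sub]; ring) rfl)⟩, x1⟩)
    ((tot_mul hG.mul tU tU).sub tW) (low3 (by rw [u0]; exact LinearMap.ext h.rT_dd)
      (by
        rw [u0, u1]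
        refine LinearMap.ext fun z => ?_
        simp only [LinearMap.add_apply, Module.End.mul_apply, h.c.del_d, h.P_d (R.lb 0) R.ch,
          add_neg_cancel, LinearMap.zero_apply])
      (by
        rw [u0, u1, u2]
        refine LinearMap.ext fun z => ?_
        simp only [LinearMap.add_apply, Module.End.mul_apply, LinearMap.neg_apply, map_neg,
          ← h.P_c (R.lb 0) R.ch (h.hc.del _ (R.dπ 0)), h.P_P (R.lb 0) R.ch,
          h.c.del_del R.π R.π1, LinearMap.zero_apply]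
        abel))
  obtain ⟨b0, b1, b2⟩ := (tU.add d1).split
  rw [coeff_add, coeff_add, d2 0 (by omega), d2 1 (by omega), add_zero, add_zero, u0, u1] at b2
  refine ⟨b0, b1, fun v => ?_⟩
  rw [← b2, ← Module.End.mul_apply, ← map_mul, d3, tot_C]
  rfl

theorem deg_prj (c : ℤ) : Deg (h.eT c) eE 0 (prj L E R) :=
  deg2 _ _ _ fun _ _ _ _ hv hx => by
    rw [prj_tmul]
    exact Eu.cast (h.hE.smul (R.daug c _ _ hx) hv) (by abel)

theorem prj_rT (φ : E →ₗ[L] E) (z : E ⊗[B] R.Q) : prj L E R (rT B R.Q φ z) = φ (prj L E R z) := by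
  induction z using TensorProduct.induction_on with
  | zero => simp
  | tmul a b =>
    rw [AlgebraTensorModule.rTensor_tmul, prj_tmul, prj_tmul, LinearMap.map_smul_of_tower]
  | add a b ha hb => simp only [map_add, ha, hb]

theorem prj_N (z : E ⊗[B] R.Q) : prj L E R (lT L E R.N z) = 0 := by
  induction z using TensorProduct.induction_on with
  | zero => simp
  | tmul a b => rw [AlgebraTensorModule.lTensor_tmul, prj_tmul, R.augN, zero_smul]
  | add a b ha hb => simp only [map_add, ha, hb, add_zero]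

/-- the gradings after base change -/
abbrev eM (c : ℤ) : Eu (A ⊗[L] (E ⊗[B] R.Q)) := Eu.ten h.hA (h.lbT c)

/-- the gradings of the split resolution -/
abbrev eS (c : ℤ) : Eu (E ⊗[B] (D ⊗[B] R.Q)) := Eu.ten h.hE (Γ.lbBD.t (R.lb c))

theorem deg_J (c : ℤ) : Deg (h.eS c) (h.eM c) 0 (Jb B D L A E R.Q) :=
  deg3r _ _ _ _ fun _ _ _ _ _ _ hv hu hx => by
    rw [Jb_tmul]
    exact Eu.cast (Eu.tmul_mem h.hA (h.lbT c) (h.alg _ _ hu) (Eu.tmul_mem h.hE (R.lb c) hv hx))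
      (by abel)

theorem deg_cj (c : ℤ) {γ : ℤ × ℤ} {φ : Module.End L (E ⊗[B] (D ⊗[B] R.Q))}
    (hφ : Deg (h.eS c) (h.eS c) γ φ) :
    Deg (h.eM c) (h.eM c) γ ((Jb B D L A E R.Q).conj φ) :=
  (h.deg_J c).comp (hφ.comp (Deg.symm (f := (Jb B D L A E R.Q).toAddEquiv) (h.deg_J c)) rfl)
    (by abel)

variable (L A E R) in
/-- the augmentation after base change -/
def eps : A ⊗[L] (E ⊗[B] R.Q) →ₗ[L] E := ((prj L E R).liftBaseChange A).restrictScalars L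

theorem eps_tmul (a : A) (z : E ⊗[B] R.Q) : eps L A E R (a ⊗ₜ z) = a • prj L E R z :=
  LinearMap.liftBaseChange_tmul _ _ _ _

theorem eps_J (z : E ⊗[B] (D ⊗[B] R.Q)) :
    eps L A E R (Jb B D L A E R.Q z) = Cmd.aug L E R.S z :=
  LinearMap.congr_fun (ext3 (f := eps L A E R ∘ₗ (Jb B D L A E R.Q).toLinearMap)
    (g := Cmd.aug L E R.S) fun e y x => by
      simp only [LinearMap.comp_apply, LinearEquiv.coe_coe, Jb_tmul, eps_tmul, prj_tmul, Cmd.aug,
        AlgebraTensorModule.lTensor_tmul, R.Sa, eps0_tmul, algebraMap_smul, smul_assoc]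
      exact smul_comm _ _ _) z

theorem cj_J (φ : Module.End L (E ⊗[B] (D ⊗[B] R.Q))) (z : E ⊗[B] (D ⊗[B] R.Q)) :
    (Jb B D L A E R.Q).conj φ (Jb B D L A E R.Q z) = Jb B D L A E R.Q (φ z) := by
  rw [LinearEquiv.conj_apply_apply, LinearEquiv.symm_apply_apply]

theorem deg_Sπ (c : ℤ) :
    Deg (Eu.ten Γ.lbBD (Γ.lbBD.t (R.lb c))) (Eu.ten Γ.lbBD (R.lb c)) (c, 0) R.S.π :=
  deg3r _ _ _ _ fun _ _ _ _ _ _ hv hu hx => by
    rw [R.Sπ]
    exact Eu.cast (Eu.tmul_mem Γ.lbBD (R.lb c) hu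
      (R.dπ c _ _ (Eu.tmul_mem Γ.lbBD (R.lb c) hv hx))) (by abel)

theorem lbS (c : ℤ) : Lb Γ.eD (Eu.ten Γ.lbBD (R.lb c)) := Lb.ten _ _ Γ.lbD

/-- the data of the perturbation lemma after base change -/
def hpl {b0 : Module.End L (E ⊗[B] R.Q)} (hb : b0 ∈ Fl (GG L (h.eT 0) (h.eT 3)) 1 2)
    (sq : ∀ v, (rT B R.Q d + rT B R.Q h.P * h.c.del R.π + b0)
      ((rT B R.Q d + rT B R.Q h.P * h.c.del R.π + b0) v) = w • v) :
    Hpl (GG L (h.eM 0) (h.eM 3)) w (lT L A (rT B R.Q d)) (lT L A (rT B R.Q h.P * h.c.del R.π))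
      (lT L A b0) d (eps L A E R) (fun m => (Wn w (h.eM 3) m).toAddSubgroup)
      (fun m => (Wn w eE m).toAddSubgroup) where
  N := _
  s := (Jb B D L A E R.Q).conj (rT B _ h.P * h.c.con R.S)
  t := (Jb B D L A E R.Q).conj (h.c.hty R.S)
  ρ := (Jb B D L A E R.Q).toLinearMap ∘ₗ h.c.coa R.S
  H0 := h.c.H0
  big := GG.big (h.genA.ten h.hA (h.lbT 0) (h.genE.ten h.hE (R.lb 0) (gen_of_ch R.ch)))
    (h.lowA.ten h.hA (h.lbT 0) (h.lowE.ten h.hE (R.lb 0) (low_of_ch R.ch)))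
  one := GG.one
  h0 := GG.lT h.hA (h.lbT 0) (h.lbT 3) h.a0_mem
  h1 := GG.lT h.hA (h.lbT 0) (h.lbT 3) h.a1_mem
  hb := GG.fl_lT h.hA (h.lbT 0) (h.lbT 3) hb
  hs := ⟨h.deg_cj 0 ((deg_rT h.hE _ h.par.deg).comp (h.hc.con _ (lbS 0) R.S (R.dσ 0)) (by decide)),
    h.deg_cj 3 ((deg_rT h.hE _ h.par.deg).comp (h.hc.con _ (lbS 3) R.S (R.dσ 3)) (by decide))⟩
  ht := ⟨h.deg_cj 0 ((h.hc.hty _ (lbS 0) R.S (deg_Sπ 0) (R.dσ 0)).cast (by decide)),
    h.deg_cj 3 ((h.hc.hty _ (lbS 3) R.S (deg_Sπ 3) (R.dσ 3)).cast (by decide))⟩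
  sq v := by
    rw [← map_add, ← map_add]
    induction v using TensorProduct.induction_on with
    | zero => simp only [map_zero, smul_zero]
    | tmul a b => rw [AlgebraTensorModule.lTensor_tmul, AlgebraTensorModule.lTensor_tmul, sq,
        tmul_smul]
    | add a b ha hb => simp only [map_add (lT L A _), ha, hb, smul_add]
  dd := h.dd
  s0 := LinearMap.ext fun v => by
    obtain ⟨z, rfl⟩ := (Jb B D L A E R.Q).surjective v
    simp only [LinearMap.add_apply, Module.End.mul_apply, cj_J, ← Jb_rT, h.c.con_d,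
      h.P_d (Γ.lbBD.t (R.lb 0)) (ch_ten _ _ Γ.chD R.ch), map_neg, add_neg_cancel,
      LinearMap.zero_apply]
  s1 := LinearMap.ext fun v => by
    obtain ⟨z, rfl⟩ := (Jb B D L A E R.Q).surjective v
    have e : ∀ y, lT L A (rT B R.Q h.P * h.c.del R.π) (Jb B D L A E R.Q y) =
        Jb B D L A E R.Q (rT B _ h.P (h.c.del R.S.π y)) := fun y => by
      rw [Jb_rT, Jb_del h.c R.Sπ, lT_lT]
      rfl
    simp only [LinearMap.add_apply, LinearMap.sub_apply, Module.End.mul_apply, cj_J, e, ← Jb_rT,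
      Module.End.one_apply, LinearMap.comp_apply, LinearEquiv.coe_coe, eps_J,
      ← h.P_c (Γ.lbBD.t (R.lb 0)) (ch_ten _ _ Γ.chD R.ch) (h.hc.del _ (deg_Sπ 0)),
      ← h.P_c (Γ.lbBD.t (R.lb 0)) (ch_ten _ _ Γ.chD R.ch) (h.hc.con _ (lbS 0) R.S (R.dσ 0)),
      h.P_P (Γ.lbBD.t (R.lb 0)) (ch_ten _ _ Γ.chD R.ch), ← map_add, ← map_sub, h.c.con_del]
  εd v := by
    obtain ⟨z, rfl⟩ := (Jb B D L A E R.Q).surjective v
    rw [← Jb_rT, eps_J, eps_J, h.c.aug_d]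
  ρd v := by simp only [LinearMap.comp_apply, LinearEquiv.coe_coe, h.c.coa_d, Jb_rT]
  ερ v := by simp only [LinearMap.comp_apply, LinearEquiv.coe_coe, eps_J, h.c.aug_coa]
  kill := ((R.nb.ten h.hE (R.lb 0) (R.lb 3)).ten h.hA (h.lbT 0) (h.lbT 3)).kill fun v => by
    induction v using TensorProduct.induction_on with
    | zero => simp only [map_zero]
    | tmul a b => rw [AlgebraTensorModule.lTensor_tmul, eps_tmul, prj_N, smul_zero]
    | add a b ha hb => simp only [map_add, ha, hb, add_zero]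
  fl r p φ hφ m v hv := Wn.map (GG.fl hφ) (by simp only; omega) hv
  wF m v := Wn.smul v
  ρF m v hv := Wn.map (φ := (Jb B D L A E R.Q).toLinearMap ∘ₗ h.c.coa R.S)
    ((h.deg_J 3).comp (h.hc.coa _ R.S (R.dob 3)) rfl) (by simp) hv
  εF m v hv := Wn.map (γ := 0) (deg2 h.hA (h.lbT 3) (eps L A E R) fun _ _ _ _ hu hx => by
    rw [eps_tmul]
    exact Eu.cast (h.hAE.smul hu (h.deg_prj 3 _ _ hx)) (by abel)) (by simp) hv
  HF m v hv := Wn.map h.hc.H0 (by simp only; omega) hv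

theorem bc_eq (φ : Module.End L (E ⊗[B] R.Q)) (z : A ⊗[L] (E ⊗[B] R.Q)) :
    φ.baseChange A z = lT L A φ z := by
  induction z using TensorProduct.induction_on with
  | zero => simp only [map_zero]
  | tmul a b => rfl
  | add a b ha hb => simp only [map_add, ha, hb]

/-- the total differential and the comparison -/
theorem main : ∃ DT : Module.End L (E ⊗[B] R.Q), Deg (h.eT 3) (h.eT 3) (3, 0) DT ∧
    (∀ v, DT (DT v) = w • v) ∧ (∀ v, prj L E R (DT v) = d (prj L E R v)) ∧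
    (∀ (m : ℤ) z, DT.baseChange A z ∈ (Wn w (h.eT 3) (m + 1)).baseChange A →
      (∃ c, (prj L E R).liftBaseChange A z - d c ∈ Wn w eE m) →
      ∃ y, z - DT.baseChange A y ∈ (Wn w (h.eT 3) m).baseChange A) ∧
    ∀ (m : ℤ) x, d x ∈ Wn w eE (m + 1) →
      ∃ z c, DT.baseChange A z ∈ (Wn w (h.eT 3) (m + 1)).baseChange A ∧
        x - (prj L E R).liftBaseChange A z - d c ∈ Wn w eE m := by
  obtain ⟨b0, hb, sq⟩ := h.conv1
  have ab : rT B R.Q h.P * h.c.del R.π + b0 ∈ Fl (GG L (h.eT 0) (h.eT 3)) 1 1 :=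
    add_mem (mem_Fl h.a1_mem le_rfl (by simp)) (Fl_mono (by omega) hb)
  refine ⟨_, ?_, sq, fun v => ?_, fun m z hz hc => ?_, fun m x hx => ?_⟩
  · rw [add_assoc]
    exact h.a0_mem.2.add (GG.fl ab)
  · rw [add_assoc, LinearMap.add_apply, map_add, prj_rT,
      (R.nb.ten h.hE (R.lb 0) (R.lb 3)).kill prj_N _ _ ab, add_zero]
  · obtain ⟨c, hc⟩ := hc
    simp only [mem_bc (h.lbT 3) h.hA h.lowA h.genA, bc_eq, map_add] at hz ⊢
    exact (h.hpl hb sq).inj m z hz c hc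
  · simp only [mem_bc (h.lbT 3) h.hA h.lowA h.genA, bc_eq, map_add]
    exact (h.hpl hb sq).sur m x hx

end Ab

end Vale.Agent.P287T.Sx
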