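import Vale.Agent.P287T.Sx.Ex
import Vale.Agent.P287T.Sx.If

/-!
# Block STRICT: the comodule attached to a descent datum
-/

set_option linter.all false

open TensorProduct MvPolynomial Matrix

noncomputable section

namespace Vale.Agent.P287T.Sx.Ci

attribute [local instance] MvPolynomial.algebraMvPolynomial

variable {B D : Type} [CommRing B] [CommRing D] [Algebra B D] {X : Type} [CommRing X]
  [Algebra B X] {ι : Type} [Fintype ι] [DecidableEq ι]

/-- change of coefficients in a vector -/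
def mv {R S : Type} [CommRing R] [CommRing S] (f : R →+* S) (v : ι → Px R) : ι → Px S :=
  fun i => MvPolynomial.map f (v i)

theorem mv_add {R S : Type} [CommRing R] [CommRing S] (f : R →+* S) (v w : ι → Px R) :
    mv f (v + w) = mv f v + mv f w := funext fun i => map_add _ _ _

theorem mv_zero {R S : Type} [CommRing R] [CommRing S] (f : R →+* S) :
    mv f (0 : ι → Px R) = 0 := funext fun i => map_zero _

theorem mv_smul {R S : Type} [CommRing R] [CommRing S] (f : R →+* S) (a : Px R) (v : ι → Px R) :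
    mv f (a • v) = MvPolynomial.map f a • mv f v := funext fun i => map_mul _ _ _

theorem mv_mulVec {R S : Type} [CommRing R] [CommRing S] (f : R →+* S) (Y : Matrix ι ι (Px R))
    (v : ι → Px R) : mv f (Y *ᵥ v) = mm f Y *ᵥ mv f v :=
  funext fun i => RingHom.map_mulVec _ _ _ _

theorem mv_mv {R S T : Type} [CommRing R] [CommRing S] [CommRing T] (f : R →+* S) (g : S →+* T)
    (v : ι → Px R) : mv g (mv f v) = mv (g.comp f) v := funext fun i => map_map _ _ _

theorem mv_id {R : Type} [CommRing R] (v : ι → Px R) : mv (RingHom.id R) v = v :=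
  funext fun i => map_id _

theorem mv_bsmul {R S : Type} [CommRing R] [CommRing S] [Algebra B R] [Algebra B S] {f : R →+* S}
    (hf : f.comp (algebraMap B R) = algebraMap B S) (a : Px B) (v : ι → Px R) :
    mv f (a • v) = a • mv f v := by
  rw [← algebraMap_smul (Px R), mv_smul, algebraMap_def, MvPolynomial.map_map, hf, ← algebraMap_def,
    algebraMap_smul]

variable (B D X) in
/-- the first factor -/
abbrev l0 : D →+* D ⊗[B] X := Algebra.TensorProduct.includeLeftRingHom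

theorem mv_csmul {R S : Type} [CommRing R] [CommRing S] (f : R →+* S) (a : R) (v : ι → Px R) :
    mv f (a • v) = f a • mv f v := funext fun i => by
  simp only [mv, Pi.smul_apply, ← C_mul', map_mul, map_C]

variable (B D X ι) in
/-- `D[x]^ι ⊗ X → (D ⊗ X)[x]^ι` -/
def Ph0 : (ι → Px D) ⊗[B] X →ₗ[Px B] (ι → Px (D ⊗[B] X)) :=
  AlgebraTensorModule.lift
    { toFun := fun v =>
        { toFun := fun x => (1 ⊗ₜ[B] x : D ⊗[B] X) • mv (l0 B D X) v
          map_add' := fun a b => by rw [tmul_add, add_smul]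
          map_smul' := fun c a => by rw [tmul_smul, RingHom.id_apply, smul_assoc] }
      map_add' := fun a b => LinearMap.ext fun x => by
        simp only [mv_add, smul_add, LinearMap.coe_mk, AddHom.coe_mk, LinearMap.add_apply]
      map_smul' := fun c a => LinearMap.ext fun x => by
        simp only [LinearMap.coe_mk, AddHom.coe_mk, LinearMap.smul_apply, RingHom.id_apply]
        rw [mv_bsmul rfl, smul_comm] }

theorem Ph0_tmul (v : ι → Px D) (x : X) :
    Ph0 B D X ι (v ⊗ₜ x) = (1 ⊗ₜ[B] x : D ⊗[B] X) • mv (l0 B D X) v := rfl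

theorem coeff_Ph0 (t : (ι → Px D) ⊗[B] X) (i : ι) (μ : Ex.Mn) :
    coeff μ (Ph0 B D X ι t i) = Ex.K B X i μ t := by
  induction t using TensorProduct.induction_on with
  | zero => simp
  | tmul v x =>
    rw [Ph0_tmul, Ex.K_tmul, Pi.smul_apply, coeff_smul, mv, coeff_map, smul_eq_mul]
    exact (Algebra.TensorProduct.tmul_mul_tmul _ _ _ _).trans (by rw [one_mul, mul_one])
  | add a b h h' => rw [map_add, map_add, Pi.add_apply, coeff_add, h, h']

theorem Ph0_J (i : ι) (μ : Ex.Mn) (n : D ⊗[B] X) :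
    Ph0 B D X ι (Ex.J B X i μ n) = Pi.single i (monomial μ n) := by
  ext l ν
  rw [coeff_Ph0, Ex.K_J]
  by_cases h : i = l
  · subst h
    simp [coeff_monomial]
  · simp [h]

theorem sum_J (w : ι → Px (D ⊗[B] X)) :
    Ph0 B D X ι (∑ i, ∑ μ ∈ (w i).support, Ex.J B X i μ (coeff μ (w i))) = w := by
  simp only [map_sum, Ph0_J]
  conv_rhs => rw [← Finset.univ_sum_single w]
  refine Finset.sum_congr rfl fun i _ => ?_
  conv_rhs => rw [(w i).as_sum]
  exact (map_sum (LinearMap.single (D ⊗[B] X) (fun _ : ι => Px (D ⊗[B] X)) i) _ _).symm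

theorem Ph0_inj : Function.Injective (Ph0 B D X ι) := fun a b h =>
  Ex.eq_of_K fun i μ => by rw [← coeff_Ph0, ← coeff_Ph0, h]

variable (B D X ι) in
/-- `D[x]^ι ⊗ X ≃ (D ⊗ X)[x]^ι` -/
def Ph : (ι → Px D) ⊗[B] X ≃ₗ[Px B] (ι → Px (D ⊗[B] X)) :=
  LinearEquiv.ofBijective (Ph0 B D X ι) ⟨Ph0_inj, fun w => ⟨_, sum_J w⟩⟩

theorem Ph_tmul (v : ι → Px D) (x : X) :
    Ph B D X ι (v ⊗ₜ x) = (1 ⊗ₜ[B] x : D ⊗[B] X) • mv (l0 B D X) v := rfl

theorem Ph_symm (w : ι → Px (D ⊗[B] X)) : (Ph B D X ι).symm w =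
    ∑ i, ∑ μ ∈ (w i).support, Ex.J B X i μ (coeff μ (w i)) :=
  (LinearEquiv.symm_apply_eq _).2 (sum_J w).symm

variable (B) in
/-- a matrix as a map that is linear over `B[x]` -/
abbrev dL (d : Matrix ι ι (Px D)) : (ι → Px D) →ₗ[Px B] (ι → Px D) :=
  d.mulVecLin.restrictScalars (Px B)

theorem Ph_rT (d : Matrix ι ι (Px D)) (t : (ι → Px D) ⊗[B] X) :
    Ph B D X ι (rT B X (dL B d) t) = mm (l0 B D X) d *ᵥ Ph B D X ι t := by
  induction t using TensorProduct.induction_on with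
  | zero => simp
  | tmul v x =>
    rw [AlgebraTensorModule.rTensor_tmul, Ph_tmul, Ph_tmul, mulVec_smul, ← mv_mulVec]
    rfl
  | add a b h h' => rw [map_add, map_add, map_add, mulVec_add, h, h']

theorem Ph_lT {Y : Type} [CommRing Y] [Algebra B Y] (f : X →ₗ[B] Y) (φ : D ⊗[B] X →+* D ⊗[B] Y)
    (r : D ⊗[B] Y) (h0 : φ.comp (l0 B D X) = l0 B D Y)
    (h1 : ∀ x, (1 : D) ⊗ₜ[B] f x = r * φ (1 ⊗ₜ x)) (t : (ι → Px D) ⊗[B] X) :
    Ph B D Y ι (lT (Px B) _ f t) = r • mv φ (Ph B D X ι t) := by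
  induction t using TensorProduct.induction_on with
  | zero => rw [map_zero, map_zero, map_zero, mv_zero, smul_zero]
  | tmul v x =>
    rw [AlgebraTensorModule.lTensor_tmul, Ph_tmul, Ph_tmul, mv_csmul, mv_mv, h0, h1, mul_smul]
  | add a b h h' => rw [map_add, map_add, map_add, mv_add, smul_add, h, h']

/-- the map given by a matrix over `(D ⊗ X)[x]` -/
def mE (φ : D →ₐ[B] X) (Y : Matrix ι ι (Px (D ⊗[B] X))) :
    (ι → Px D) →ₗ[Px B] (ι → Px D) ⊗[B] X :=
  (Ph B D X ι).symm.toLinearMap ∘ₗ Y.mulVecLin.restrictScalars (Px B) ∘ₗ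
    { toFun := mv (Algebra.TensorProduct.includeRight.comp φ : D →ₐ[B] D ⊗[B] X)
      map_add' := mv_add _
      map_smul' := mv_bsmul (AlgHom.comp_algebraMap _) }

theorem Ph_mE (φ : D →ₐ[B] X) (Y : Matrix ι ι (Px (D ⊗[B] X))) (e : ι → Px D) :
    Ph B D X ι (mE φ Y e) =
      Y *ᵥ mv (Algebra.TensorProduct.includeRight.comp φ : D →ₐ[B] D ⊗[B] X) e :=
  (Ph B D X ι).apply_symm_apply _

theorem Ph_rho (g : Matrix ι ι (Px (D ⊗[B] D))) (e : ι → Px D) :
    Ph B D D ι (mE (AlgHom.id B D) g e) = g *ᵥ mv (i1 B D) e := Ph_mE _ _ _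

theorem Ph_H (h : Matrix ι ι (Px (D ⊗[B] (D ⊗[B] D)))) (e : ι → Px D) :
    Ph B D _ ι (mE Algebra.TensorProduct.includeRight h e) =
      h *ᵥ mv ((j12 B D).comp (i1 B D)) e := Ph_mE _ _ _

theorem Ph_ex (g : Matrix ι ι (Px (D ⊗[B] D))) (t : (ι → Px D) ⊗[B] D) :
    Ph B D _ ι (ex D (mE (AlgHom.id B D) g) t) =
      mm (j01 B D) g *ᵥ mv (j12 B D) (Ph B D D ι t) := by
  induction t using TensorProduct.induction_on with
  | zero => rw [map_zero, map_zero, map_zero, mv_zero, mulVec_zero]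
  | tmul v x =>
    rw [ex_tmul, Ph_lT _ (j01 B D) (1 ⊗ₜ (1 ⊗ₜ x)) (RingHom.ext fun _ => rfl) fun y => by
      simp [j01], Ph_rho, mv_mulVec, Ph_tmul, mv_csmul, mulVec_smul, mv_mv, mv_mv]
    rfl
  | add a b h h' => rw [map_add, map_add, map_add, mv_add, mulVec_add, h, h']

theorem eps0_eq (t : (ι → Px D) ⊗[B] D) :
    eps0 B D (Px B) _ t = mv (mu B D) (Ph B D D ι t) := by
  induction t using TensorProduct.induction_on with
  | zero => rw [map_zero, map_zero, mv_zero]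
  | tmul v x =>
    rw [eps0_tmul, Ph_tmul, mv_csmul, mv_mv, show (mu B D).comp (l0 B D D) = RingHom.id D from
      RingHom.ext fun a => by simp [mu], mv_id]
    simp [mu]
  | add a b h h' => rw [map_add, map_add, mv_add, h, h']

/-- the comodule attached to a descent datum -/
def cmI (d : Matrix ι ι (Px D)) (g : Matrix ι ι (Px (D ⊗[B] D)))
    (h : Matrix ι ι (Px (D ⊗[B] (D ⊗[B] D)))) (h0 : Matrix ι ι (Px D))
    (e1 : mm (i0 B D) d * g = g * mm (i1 B D) d)
    (e2 : mm (j01 B D) g * mm (j12 B D) g - mm (j02 B D) g =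
      mm ((j01 B D).comp (i0 B D)) d * h + h * mm ((j12 B D).comp (i1 B D)) d)
    (e3 : mm (mu B D) g - 1 = d * h0 + h0 * d) : Cmd B D (dL B d) where
  ρ := mE (AlgHom.id B D) g
  H := mE Algebra.TensorProduct.includeRight h
  H0 := dL B h0
  du u e := mulVec_smul _ _ _
  ρd e := (Ph B D D ι).injective (by
    rw [Ph_rT, Ph_rho, Ph_rho, mulVec_mulVec]
    exact (congrArg _ (mv_mulVec _ _ _)).trans ((mulVec_mulVec _ _ _).trans (by rw [← e1]; rfl)))
  ρu u e := (Ph B D D ι).injective (by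
    rw [Ph_lT _ (RingHom.id _) (1 ⊗ₜ u) rfl fun y => by simp, Ph_rho, Ph_rho, mv_csmul, mv_id,
      mulVec_smul]
    rfl)
  co e := (Ph B D _ ι).injective (by
    have := congrArg (· *ᵥ mv ((j12 B D).comp (i1 B D)) e) e2
    simp only [sub_mulVec, add_mulVec, ← mulVec_mulVec] at this
    rw [map_sub, map_add, Ph_ex, Ph_lT _ (j02 B D) 1 (RingHom.ext fun _ => rfl) fun y => by
      simp [j02], Ph_rT, Ph_rho, Ph_H, Ph_H, one_smul, mv_mulVec, mv_mulVec, mv_mv, mv_mv]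
    exact this.trans (congrArg _ (congrArg _ (mv_mulVec _ _ _).symm)))
  cu e := by
    have := congrArg (· *ᵥ e) e3
    simp only [sub_mulVec, add_mulVec, ← mulVec_mulVec, one_mulVec] at this
    rw [eps0_eq, Ph_rho, mv_mulVec, mv_mv, show (mu B D).comp (i1 B D) = RingHom.id D from
      RingHom.ext fun a => by simp [mu, i1], mv_id]
    exact this

section

variable [Algebra ℂ B] [Algebra ℂ D] [IsScalarTower ℂ B D] [Algebra ℂ X] [IsScalarTower ℂ B X]
  (Γ : Gr B D) (p : ι → ℤ) {f : Eu X} (hf : Lb Γ.eB f)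

theorem lb_ring (hX : Lb f f) : Lb (Eu.ten Γ.lbBD hf) (Eu.ten Γ.lbBD hf) := fun r v => by
  induction r using TensorProduct.induction_on with
  | zero => simp
  | add a b h h' => simp only [add_smul, map_add, h, h']; abel
  | tmul a x =>
    induction v using TensorProduct.induction_on with
    | zero => simp
    | add a b h h' => simp only [smul_add, map_add, h, h']; abel
    | tmul b y =>
      have h1 := Γ.lbD a b
      have h2 := hX x y
      simp only [smul_eq_mul] at h1 h2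
      simp only [smul_eq_mul, Algebra.TensorProduct.tmul_mul_tmul, Eu.ten_tmul, h1, h2, add_mul,
        mul_add, add_tmul, tmul_add]
      abel

theorem mx_mem {R : Type} [CommRing R] [Algebra ℂ R] {e : Eu R} {j : ℤ} {Y : Matrix ι ι (Px R)}
    (hY : MX (e.H 0) p p j Y) (i l : ι) : Y i l ∈ (e.mv wx).H (j + p l - p i, 0) :=
  Eu.mem_mv.2 fun μ => by
    by_cases h : coeff μ (Y i l) = 0
    · rw [h]
      exact Submodule.zero_mem _
    · rw [Ex.weight_wx, (hY i l μ).2 h, sub_self]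
      exact (hY i l μ).1

theorem deg_mulVec {R : Type} [CommRing R] [Algebra ℂ R] {e : Eu R} (he : Lb e e) {j : ℤ}
    {Y : Matrix ι ι (Px R)} (hY : MX (e.H 0) p p j Y) :
    Deg ((e.mv wx).pi fun i => (p i, 0)) ((e.mv wx).pi fun i => (p i, 0)) (j, 0) Y.mulVec :=
  fun δ v hv => Eu.mem_pi.2 fun i => Submodule.sum_mem _ fun l _ => by
    have := (he.mv wx).mul (mx_mem p hY i l) (Eu.mem_pi.1 hv l)
    rwa [show (j + p l - p i, (0 : ℤ)) + (δ - (p l, 0)) = (j, 0) + δ - (p i, 0) by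
      ext <;> simp <;> ring] at this

theorem deg_dL {j : ℤ} {Y : Matrix ι ι (Px D)} (hY : MX (Γ.eD.H 0) p p j Y) :
    Deg (Γ.eE p) (Γ.eE p) (j, 0) (dL B Y) := deg_mulVec p Γ.lbD hY

theorem deg_symm : Deg (((Eu.ten Γ.lbBD hf).mv wx).pi fun i => (p i, 0)) (Eu.ten (Γ.lbE p) hf) 0
    (Ph B D X ι).symm := fun δ w hw => by
  rw [Ph_symm]
  refine Submodule.sum_mem _ fun i _ => Submodule.sum_mem _ fun μ _ => ?_
  have := Ex.deg_J Γ p hf i μ _ _ (Eu.mem_mv.1 (Eu.mem_pi.1 hw i) μ)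
  rwa [Ex.weight_wx, show (2 * (μ.degree : ℤ) + p i, (0 : ℤ)) +
    (δ - (p i, 0) - (2 * (μ.degree : ℤ), 0)) = 0 + δ by ext <;> simp <;> ring] at this

theorem deg_mE (hX : Lb f f) {φ : D →ₐ[B] X} (hφ : Deg Γ.eD f 0 φ) {j : ℤ}
    {Y : Matrix ι ι (Px (D ⊗[B] X))} (hY : MX ((Eu.ten Γ.lbBD hf).H 0) p p j Y) :
    Deg (Γ.eE p) (Eu.ten (Γ.lbE p) hf) (j, 0) (mE φ Y) := fun δ v hv => by
  have h1 : Deg Γ.eD (Eu.ten Γ.lbBD hf) 0
      ((Algebra.TensorProduct.includeRight.comp φ : D →ₐ[B] D ⊗[B] X) : D →+* D ⊗[B] X) :=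
    fun η a ha => by
      have := Eu.tmul_mem Γ.lbBD hf Γ.lbD.one (hφ η a ha)
      rwa [zero_add] at this
  have := deg_symm Γ p hf _ _ (deg_mulVec p (lb_ring Γ hf hX) hY δ _
    (Eu.mem_pi.2 fun i => by simpa using h1.mv wx _ _ (Eu.mem_pi.1 hv i)))
  rwa [zero_add] at this

theorem deg_rho {g : Matrix ι ι (Px (D ⊗[B] D))} (hg : MX (Γ.e2.H 0) p p 0 g) :
    Deg (Γ.eE p) (Eu.ten (Γ.lbE p) Γ.lbBD) 0 (mE (AlgHom.id B D) g) :=
  deg_mE Γ p Γ.lbBD Γ.lbD (Deg.id _) hg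

theorem deg_H {h : Matrix ι ι (Px (D ⊗[B] (D ⊗[B] D)))} (hh : MX (Γ.e3.H 0) p p (-3) h) :
    Deg (Γ.eE p) (Eu.ten (Γ.lbE p) Γ.lb2) (-3, 0) (mE Algebra.TensorProduct.includeRight h) :=
  deg_mE Γ p Γ.lb2 (lb_ring Γ Γ.lbBD Γ.lbD) (fun η a ha => by
    have := Eu.tmul_mem Γ.lbBD Γ.lbBD Γ.lbD.one ha
    exact this) hh

/-- the homogeneous comodule attached to the input -/
theorem exists_cm {W : Px ℂ} {d : Matrix ι ι (Px D)} (h : Inp Γ W p d) :
    ∃ c : Cmd B D (dL B d), Deg (Γ.eE p) (Eu.ten (Γ.lbE p) Γ.lbBD) 0 c.ρ ∧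
      Deg (Γ.eE p) (Eu.ten (Γ.lbE p) Γ.lb2) (-3, 0) c.H ∧ Deg (Γ.eE p) (Γ.eE p) (-3, 0) c.H0 := by
  obtain ⟨g, h, h0, a1, a2, a3, e1, e2, e3⟩ := h.dat
  exact ⟨cmI d g h h0 e1 e2 e3, deg_rho Γ p a1, deg_H Γ p a2, deg_dL Γ p a3⟩

end

end Vale.Agent.P287T.Sx.Ci

namespace Vale.Agent.P287T.Sx

/-- **CM** -/
theorem stCm : StCm := fun _ _ _ _ _ _ _ _ _ _ _ Γ _ p _ h => Ci.exists_cm Γ p h

end Vale.Agent.P287T.Sx
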