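import Mathlib.Algebra.Polynomial.Eval.Defs
import Mathlib.Algebra.Polynomial.Coeff
import Mathlib.RingTheory.Nilpotent.Basic
import Mathlib.Tactic.NoncommRing
import Mathlib.Tactic.Abel
import Mathlib.Tactic.IntervalCases
import Mathlib.Algebra.Polynomial.Degree.Support
import Mathlib.Algebra.Ring.GeomSum

/-!
# Convolutions of complexes up to homotopy: the ring theoretic part
-/

open Polynomial

namespace Vale.Agent.P287T.Sx

variable {E : Type*} [Ring E]

/-- `G k m` are the elements of Čech degree `k` and of cohomological degree `m`. -/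
structure Big (G : ℤ → ℤ → AddSubgroup E) (N : ℕ) : Prop where
  mul : ∀ {k m k' m' : ℤ} {x y : E}, x ∈ G k m → y ∈ G k' m' → x * y ∈ G (k + k') (m + m')
  van : ∀ {k m : ℤ} {x : E}, x ∈ G k m → m < -N → x = 0

/-- `H` is a family of ideals for the elements of nonnegative Čech degree. -/
structure Idl (G H : ℤ → ℤ → AddSubgroup E) : Prop where
  le : ∀ k m, H k m ≤ G k m
  left : ∀ {k k' : ℕ} {m m' : ℤ} {x y : E}, x ∈ G k m → y ∈ H k' m' → x * y ∈ H (k + k') (m + m')
  right : ∀ {k k' : ℕ} {m m' : ℤ} {x y : E}, x ∈ H k m → y ∈ G k' m' → x * y ∈ H (k + k') (m + m')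

theorem Big.idl {G : ℤ → ℤ → AddSubgroup E} {N : ℕ} (h : Big G N) : Idl G G :=
  ⟨fun _ _ => le_rfl, h.mul, h.mul⟩

/-- polynomials of total degree `r` -/
def Tot (G : ℤ → ℤ → AddSubgroup E) (r : ℤ) (A : E[X]) : Prop := ∀ k : ℕ, A.coeff k ∈ G k (r - k)

/-- exactness in negative degrees, for total degree two -/
def Exa (H : ℤ → ℤ → AddSubgroup E) (a : E) : Prop :=
  ∀ k : ℕ, 3 ≤ k → ∀ F ∈ H k (2 - k), a * F = F * a → ∃ x ∈ H k (1 - k), F = a * x + x * a

variable {G H : ℤ → ℤ → AddSubgroup E} {N : ℕ}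

theorem Tot.add {r : ℤ} {A B : E[X]} (a : Tot G r A) (b : Tot G r B) : Tot G r (A + B) :=
  fun k => by rw [coeff_add]; exact add_mem (a k) (b k)

theorem Tot.sub {r : ℤ} {A B : E[X]} (a : Tot G r A) (b : Tot G r B) : Tot G r (A - B) :=
  fun k => by rw [coeff_sub]; exact sub_mem (a k) (b k)

theorem Tot.zero (r : ℤ) : Tot G r (0 : E[X]) := fun k => by rw [coeff_zero]; exact zero_mem _

theorem Tot.mono {r : ℤ} {A : E[X]} (h : ∀ k m, H k m ≤ G k m) (a : Tot H r A) : Tot G r A :=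
  fun k => h _ _ (a k)

theorem tot_monomial {r : ℤ} {n : ℕ} {x : E} (h : x ∈ G n (r - n)) : Tot G r (monomial n x) :=
  fun k => by
    rw [coeff_monomial]
    split_ifs with e
    exacts [e ▸ h, zero_mem _]

theorem tot_mul {G' G'' : ℤ → ℤ → AddSubgroup E}
    (h : ∀ {k k' : ℕ} {m m' : ℤ} {x y : E}, x ∈ G k m → y ∈ G' k' m' → x * y ∈ G'' (k + k') (m + m'))
    {r r' : ℤ} {A B : E[X]} (a : Tot G r A) (b : Tot G' r' B) : Tot G'' (r + r') (A * B) := by
  intro k
  rw [coeff_mul]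
  refine sum_mem fun c hc => ?_
  have e := Finset.mem_antidiagonal.1 hc
  have := h (a c.1) (b c.2)
  rwa [show (c.1 : ℤ) + c.2 = k by omega, show r - c.1 + (r' - c.2) = r + r' - k by omega] at this

theorem coeff_low {A F : E[X]} {n : ℕ} (h : ∀ k < n, F.coeff k = 0) :
    (A * F).coeff n = A.coeff 0 * F.coeff n ∧ (F * A).coeff n = F.coeff n * A.coeff 0 := by
  constructor
  · rw [coeff_mul, Finset.sum_eq_single (0, n)]
    · intro c hc hn
      have e := Finset.mem_antidiagonal.1 hc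
      rw [h c.2 (by by_contra; exact hn (Prod.ext (by omega) (by omega))), mul_zero]
    · simp
  · rw [coeff_mul, Finset.sum_eq_single (n, 0)]
    · intro c hc hn
      have e := Finset.mem_antidiagonal.1 hc
      rw [h c.1 (by by_contra; exact hn (Prod.ext (by omega) (by omega))), zero_mul]
    · simp

theorem coeff_lt {A F : E[X]} {n k : ℕ} (h : ∀ k < n, F.coeff k = 0) (hk : k < n) :
    (A * F).coeff k = 0 ∧ (F * A).coeff k = 0 := by
  have := coeff_low (A := A) (n := k) fun j hj => h j (hj.trans hk)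
  rw [this.1, this.2, h k hk, mul_zero, zero_mul]
  exact ⟨rfl, rfl⟩

/-- one step of the obstruction calculus -/
theorem conv_step (hH : Idl G H) {W : E} (hW : ∀ x, W * x = x * W) {A : E[X]} (hA : Tot G 1 A)
    (hx : Exa H (A.coeff 0)) (hF : Tot H 2 (A * A - C W)) {n : ℕ} (hn : 3 ≤ n)
    (h0 : ∀ k < n, (A * A - C W).coeff k = 0) :
    ∃ D : E[X], Tot H 1 D ∧ (∀ k < 3, D.coeff k = 0) ∧ Tot H 2 ((A + D) * (A + D) - C W) ∧
      ∀ k < n + 1, ((A + D) * (A + D) - C W).coeff k = 0 := by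
  have hc : A * (A * A - C W) = (A * A - C W) * A := by
    have : A * C W = C W * A := by
      ext k
      rw [coeff_mul_C, coeff_C_mul, hW]
    rw [mul_sub, sub_mul, this, mul_assoc]
  obtain ⟨x, x1, x2⟩ := hx n hn _ (hF n) (by
    rw [← (coeff_low h0).1, ← (coeff_low h0).2, hc])
  have d1 : Tot H 1 (monomial n (-x)) := tot_monomial (neg_mem x1)
  have d0 : ∀ k < n, (monomial n (-x)).coeff k = 0 := fun k hk => by
    rw [coeff_monomial, if_neg hk.ne']
  have e : (A + monomial n (-x)) * (A + monomial n (-x)) - C W = (A * A - C W) +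
      (A * monomial n (-x) + monomial n (-x) * A + monomial n (-x) * monomial n (-x)) := by
    noncomm_ring
  refine ⟨monomial n (-x), d1, fun k hk => d0 k (by omega), ?_, fun k hk => ?_⟩
  · rw [e]
    exact hF.add (((tot_mul hH.left hA d1).add (tot_mul hH.right d1 hA)).add
      (tot_mul hH.left (d1.mono hH.le) d1))
  · rw [e, coeff_add, coeff_add, coeff_add]
    rcases Nat.lt_succ_iff_lt_or_eq.1 hk with hk | rfl
    · rw [h0 k hk, (coeff_lt d0 hk).1, (coeff_lt d0 hk).2, (coeff_lt d0 hk).1]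
      simp
    · rw [(coeff_low d0).1, (coeff_low d0).2, (coeff_low d0).1, d0 0 (by omega), x2,
        coeff_monomial_same]
      noncomm_ring

/-- **Convolution.** -/
theorem conv (hG : Big G N) (hH : Idl G H) {W : E} (hW : ∀ x, W * x = x * W) {A : E[X]}
    (hA : Tot G 1 A) (hx : Exa H (A.coeff 0)) (hF : Tot H 2 (A * A - C W))
    (h0 : ∀ k < 3, (A * A - C W).coeff k = 0) :
    ∃ D : E[X], Tot H 1 D ∧ (∀ k < 3, D.coeff k = 0) ∧ (A + D) * (A + D) = C W := by
  have key : ∀ n : ℕ, ∃ D : E[X], Tot H 1 D ∧ (∀ k < 3, D.coeff k = 0) ∧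
      Tot H 2 ((A + D) * (A + D) - C W) ∧
      ∀ k < n + 3, ((A + D) * (A + D) - C W).coeff k = 0 := by
    intro n
    induction n with
    | zero => exact ⟨0, Tot.zero 1, fun _ _ => coeff_zero _, by rwa [add_zero], by
        rwa [add_zero, zero_add]⟩
    | succ n ih =>
      obtain ⟨D, d1, d2, d3, d4⟩ := ih
      obtain ⟨D', e1, e2, e3, e4⟩ := conv_step hH hW (hA.add (d1.mono hH.le))
        (by rwa [coeff_add, d2 0 (by omega), add_zero]) d3 (by omega) d4
      exact ⟨D + D', d1.add e1, fun k hk => by rw [coeff_add, d2 k hk, e2 k hk, add_zero],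
        by rwa [← add_assoc], by rwa [← add_assoc]⟩
  obtain ⟨D, d1, d2, d3, d4⟩ := key N
  refine ⟨D, d1, d2, sub_eq_zero.1 (Polynomial.ext fun k => ?_)⟩
  rw [coeff_zero]
  by_cases hk : k < N + 3
  · exact d4 k hk
  · exact hG.van (hH.le _ _ (d3 k)) (by omega)

/-- the sum of the coefficients -/
noncomputable def tot : E[X] →+* E := eval₂RingHom' (RingHom.id E) 1 fun _ => Commute.one_right _

theorem tot_C (a : E) : tot (C a) = a := eval₂_C _ _

theorem tot_X : tot (X : E[X]) = 1 := eval₂_X _ _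

theorem tot_monomial' (n : ℕ) (a : E) : tot (monomial n a) = a := by
  rw [← C_mul_X_pow_eq_monomial, map_mul, map_pow, tot_C, tot_X, one_pow, mul_one]

theorem tot_eq (A : E[X]) : tot A = ∑ k ∈ A.support, A.coeff k := by
  conv_lhs => rw [A.as_sum_support, map_sum]
  exact Finset.sum_congr rfl fun k _ => tot_monomial' _ _

/-- sums of elements of total degree `r` and of Čech degree at least `p` -/
def Fl (G : ℤ → ℤ → AddSubgroup E) (r p : ℤ) : AddSubgroup E :=
  AddSubgroup.closure {x | ∃ k, p ≤ k ∧ x ∈ G k (r - k)}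

theorem mem_Fl {r p k m : ℤ} {x : E} (h : x ∈ G k m) (hk : p ≤ k) (hm : k + m = r) :
    x ∈ Fl G r p := AddSubgroup.subset_closure ⟨k, hk, by rwa [show r - k = m by omega]⟩

theorem Fl_mono {r p p' : ℤ} (h : p ≤ p') : Fl G r p' ≤ Fl G r p :=
  AddSubgroup.closure_mono fun _ ⟨k, a, b⟩ => ⟨k, h.trans a, b⟩

theorem Fl_ind {r p : ℤ} {S : AddSubgroup E} (h : ∀ k, p ≤ k → G k (r - k) ≤ S) : Fl G r p ≤ S :=
  (AddSubgroup.closure_le _).2 fun _ ⟨k, a, b⟩ => h k a b

theorem Big.fl_mul (hG : Big G N) {r p r' p' : ℤ} {x y : E} (hx : x ∈ Fl G r p)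
    (hy : y ∈ Fl G r' p') : x * y ∈ Fl G (r + r') (p + p') := by
  refine Fl_ind (S := (Fl G (r + r') (p + p')).comap (AddMonoidHom.mulRight y))
    (fun k hk u hu => ?_) hx
  exact Fl_ind (S := (Fl G (r + r') (p + p')).comap (AddMonoidHom.mulLeft u))
    (fun k' hk' v hv => mem_Fl (hG.mul hu hv) (by omega) (by omega)) hy

theorem Big.fl_van (hG : Big G N) {r p : ℤ} {x : E} (hx : x ∈ Fl G r p) (h : r + N < p) :
    x = 0 := Fl_ind (S := ⊥) (fun k hk u hu => hG.van hu (by omega)) hx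

theorem Tot.fl {r : ℤ} {A : E[X]} (h : Tot G r A) {n : ℕ} (h0 : ∀ k < n, A.coeff k = 0) :
    tot A ∈ Fl G r n := by
  rw [tot_eq]
  refine sum_mem fun k hk => mem_Fl (h k) ?_ (by omega)
  by_contra b
  exact mem_support_iff.1 hk (h0 k (by omega))

theorem Tot.split {A : E[X]} (h : Tot G 1 A) :
    ∃ b ∈ Fl G 1 2, tot A = A.coeff 0 + A.coeff 1 + b := by
  refine ⟨tot (A - monomial 0 (A.coeff 0) - monomial 1 (A.coeff 1)),
    ((h.sub (tot_monomial (h 0))).sub (tot_monomial (h 1))).fl (n := 2) fun k hk => ?_, ?_⟩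
  · rw [coeff_sub, coeff_sub, coeff_monomial, coeff_monomial]
    interval_cases k <;> simp
  · rw [map_sub, map_sub, tot_monomial', tot_monomial']
    abel

/-- **Contraction.** -/
theorem cvContr (hG : Big G N) (h1 : (1 : E) ∈ G 0 0) {W : E} (hW : ∀ x, W * x = x * W) {A : E[X]}
    (hA : Tot G 1 A) (hAA : A * A = C W) {s t : E} (hs : s ∈ G (-1) 0) (ht : t ∈ G 0 (-1))
    (s0 : A.coeff 0 * s + s * A.coeff 0 = 0)
    (s1 : A.coeff 1 * s + s * A.coeff 1 = 1 + (A.coeff 0 * t + t * A.coeff 0)) :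
    ∃ h ∈ Fl G (-1) (-1), tot A * h + h * tot A = 1 := by
  obtain ⟨b, hb, e⟩ := hA.split
  have dd : tot A * tot A = W := by rw [← map_mul, hAA, tot_C]
  have a1 : A.coeff 1 ∈ Fl G 1 1 := mem_Fl (hA 1) (by simp) (by simp)
  have s' : s ∈ Fl G (-1) (-1) := mem_Fl hs le_rfl (by simp)
  have t' : t ∈ Fl G (-1) 0 := mem_Fl ht le_rfl (by simp)
  obtain ⟨n, hn⟩ : ∃ n, n = (A.coeff 1 + b) * t + t * (A.coeff 1 + b) - (b * s + s * b) :=
    ⟨_, rfl⟩
  have ab : A.coeff 1 + b ∈ Fl G 1 1 := add_mem a1 (Fl_mono (by omega) hb)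
  have n1 : n ∈ Fl G 0 1 := by
    have q1 := hG.fl_mul ab t'
    have q2 := hG.fl_mul t' ab
    have q3 := hG.fl_mul hb s'
    have q4 := hG.fl_mul s' hb
    norm_num at q1 q2 q3 q4
    exact hn ▸ sub_mem (add_mem q1 q2) (add_mem q3 q4)
  have th : tot A * (s - t) + (s - t) * tot A = 1 - n := by
    rw [e, hn]
    have : (A.coeff 0 + A.coeff 1 + b) * (s - t) + (s - t) * (A.coeff 0 + A.coeff 1 + b) =
      (A.coeff 0 * s + s * A.coeff 0) + (A.coeff 1 * s + s * A.coeff 1) -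
        (A.coeff 0 * t + t * A.coeff 0) -
        ((A.coeff 1 + b) * t + t * (A.coeff 1 + b) - (b * s + s * b)) := by noncomm_ring
    rw [this, s0, s1]
    abel
  have np : ∀ j : ℕ, n ^ j ∈ Fl G 0 j := fun j => by
    induction j with
    | zero => rw [pow_zero]; exact mem_Fl h1 le_rfl rfl
    | succ j ih => rw [pow_succ]; exact_mod_cast hG.fl_mul ih n1
  have cn : Commute (tot A) n := by
    have : tot A * (1 - n) = (1 - n) * tot A := by
      rw [← th, mul_add, add_mul, ← mul_assoc, dd, mul_assoc (s - t), dd, hW, mul_assoc, add_comm]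
    rw [mul_sub, sub_mul, mul_one, one_mul] at this
    exact sub_right_injective this
  obtain ⟨u, hu⟩ : ∃ u, u = ∑ j ∈ Finset.range (N + 1), n ^ j := ⟨_, rfl⟩
  have u1 : (1 - n) * u = 1 := by
    rw [hu, mul_neg_geom_sum, hG.fl_van (np (N + 1)) (by push_cast; omega), sub_zero]
  have u0 : u ∈ Fl G 0 0 := hu ▸ sum_mem fun j _ => Fl_mono (by omega) (np j)
  have cu : Commute (tot A) u := hu ▸ Commute.sum_right _ _ _ fun j _ => cn.pow_right j
  refine ⟨(s - t) * u, by simpa using hG.fl_mul (sub_mem s' (Fl_mono (by omega) t')) u0, ?_⟩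
  rw [mul_assoc (s - t), ← cu.eq, ← mul_assoc, ← mul_assoc, ← add_mul, th, u1]

end Vale.Agent.P287T.Sx
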