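import Mathlib.LinearAlgebra.Eigenspace.Basic
import Mathlib.RingTheory.MvPolynomial.WeightedHomogeneous
import Mathlib.RingTheory.TensorProduct.Basic
import Mathlib.Analysis.Complex.Basic
import Mathlib.Algebra.DirectSum.Module
import Mathlib.LinearAlgebra.Quotient.Basic

/-!
# Bigradings given by Euler operators
-/

set_option linter.all false

open TensorProduct MvPolynomial

noncomputable section

namespace Vale.Agent.P287T.Sx

/-- the eigenvalue attached to a bidegree (charge, degree in `y`) -/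
def ev (γ : ℤ × ℤ) : ℂ := γ.1 + γ.2 * Complex.I

theorem ev_add (γ δ : ℤ × ℤ) : ev (γ + δ) = ev γ + ev δ := by
  simp only [ev, Prod.fst_add, Prod.snd_add, Int.cast_add]; ring

theorem ev_zero : ev 0 = 0 := by simp [ev]

theorem ev_inj {γ δ : ℤ × ℤ} (h : ev γ = ev δ) : γ = δ := by
  have h1 := congrArg Complex.re h
  have h2 := congrArg Complex.im h
  simp [ev] at h1 h2
  exact Prod.ext h1 h2

/-- a bigrading of `V`: a diagonalisable operator with eigenvalues in the Gaussian integers -/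
structure Eu (V : Type) [AddCommGroup V] [Module ℂ V] where
  ε : V →ₗ[ℂ] V
  diag : ∀ v, v ∈ Submodule.span ℂ {w | ∃ γ, ε w = ev γ • w}

section

variable {V V' V'' : Type} [AddCommGroup V] [Module ℂ V] [AddCommGroup V'] [Module ℂ V']
  [AddCommGroup V''] [Module ℂ V'']

/-- homogeneous elements -/
def Eu.H (e : Eu V) (γ : ℤ × ℤ) : Submodule ℂ V where
  carrier := {v | e.ε v = ev γ • v}
  zero_mem' := by simp
  add_mem' := fun {a b} ha hb => by
    simp only [Set.mem_setOf_eq] at *
    rw [map_add, ha, hb, smul_add]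
  smul_mem' := fun c v hv => by
    simp only [Set.mem_setOf_eq] at *
    rw [map_smul, hv, smul_comm]

theorem Eu.mem_H {e : Eu V} {γ : ℤ × ℤ} {v : V} : v ∈ e.H γ ↔ e.ε v = ev γ • v := Iff.rfl

/-- induction over homogeneous elements -/
theorem Eu.ind (e : Eu V) {P : V → Prop} (h0 : P 0) (hh : ∀ γ v, v ∈ e.H γ → P v)
    (ha : ∀ a b, P a → P b → P (a + b)) (v : V) : P v := by
  have key : ∀ v, v ∈ Submodule.span ℂ {w | ∃ γ, e.ε w = ev γ • w} → ∀ c : ℂ, P (c • v) := by
    intro v hv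
    induction hv using Submodule.span_induction with
    | mem x hx => exact fun c => hx.elim fun γ h => hh γ _ ((e.H γ).smul_mem c h)
    | zero => intro c; rwa [smul_zero]
    | add x y _ _ hx hy => intro c; rw [smul_add]; exact ha _ _ (hx c) (hy c)
    | smul a x _ hx => intro c; rw [smul_smul]; exact hx _
  simpa using key v (e.diag v) 1

/-- components of an element of a stable subspace -/
theorem Eu.comp_mem (e : Eu V) {p : Submodule ℂ V} (hp : ∀ v ∈ p, e.ε v ∈ p)
    (s : Finset (ℤ × ℤ)) (w : ℤ × ℤ → V) (hw : ∀ γ, w γ ∈ e.H γ) (h : ∑ γ ∈ s, w γ ∈ p) :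
    ∀ γ ∈ s, w γ ∈ p := by
  classical
  induction s using Finset.induction_on generalizing w with
  | empty => simp
  | insert δ t hδ ih =>
    rw [Finset.sum_insert hδ] at h
    have h1 : ∑ γ ∈ t, (ev γ - ev δ) • w γ ∈ p := by
      have := p.sub_mem (hp _ h) (p.smul_mem (ev δ) h)
      rw [map_add, map_sum, hw δ, smul_add, add_sub_add_left_eq_sub, Finset.smul_sum,
        ← Finset.sum_sub_distrib] at this
      convert this using 2 with γ
      rw [hw γ, sub_smul]
    have h2 : ∀ γ ∈ t, w γ ∈ p := fun γ hγ => by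
      have := ih (fun γ => (ev γ - ev δ) • w γ) (fun γ => (e.H γ).smul_mem _ (hw γ)) h1 γ hγ
      have hne : ev γ - ev δ ≠ 0 := sub_ne_zero.2 fun h => hδ (ev_inj h ▸ hγ)
      exact (p.smul_mem_iff hne).1 this
    intro γ hγ
    rcases Finset.mem_insert.1 hγ with rfl | hγ
    · have := p.sub_mem h (p.sum_mem h2)
      rwa [add_sub_cancel_right] at this
    · exact h2 γ hγ

theorem Eu.exists_sum (e : Eu V) (v : V) :
    ∃ w : (ℤ × ℤ) →₀ V, (∀ γ, w γ ∈ e.H γ) ∧ v = w.sum fun _ x => x := by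
  classical
  induction v using e.ind with
  | h0 => exact ⟨0, fun γ => (e.H γ).zero_mem, by simp⟩
  | hh γ v hv =>
    refine ⟨Finsupp.single γ v, fun δ => ?_, by simp⟩
    rw [Finsupp.single_apply]
    split_ifs with h
    · exact h ▸ hv
    · exact (e.H δ).zero_mem
  | ha a b ha hb =>
    obtain ⟨w, h1, rfl⟩ := ha
    obtain ⟨w', h1', rfl⟩ := hb
    exact ⟨w + w', fun γ => (e.H γ).add_mem (h1 γ) (h1' γ),
      (Finsupp.sum_add_index' (fun _ => rfl) fun _ _ _ => rfl).symm⟩

theorem Eu.uniq (e : Eu V) {w w' : (ℤ × ℤ) →₀ V} (h : ∀ γ, w γ ∈ e.H γ) (h' : ∀ γ, w' γ ∈ e.H γ)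
    (hs : (w.sum fun _ x => x) = w'.sum fun _ x => x) : w = w' := by
  classical
  rw [← sub_eq_zero]
  ext γ
  by_contra hne
  have := e.comp_mem (p := ⊥) (fun v hv => by rw [(Submodule.mem_bot ℂ).1 hv, map_zero]; rfl)
    (w - w').support (w - w') (fun γ => (e.H γ).sub_mem (h γ) (h' γ)) (by
      have := Finsupp.sum_sub_index (f := w) (g := w') (h := fun _ x => x) fun _ _ _ => rfl
      rw [hs, sub_self] at this
      exact this) γ (Finsupp.mem_support_iff.2 hne)
  exact hne this

/-- the homogeneous components -/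
def Eu.dec (e : Eu V) : V →ₗ[ℂ] ((ℤ × ℤ) →₀ V) where
  toFun v := (e.exists_sum v).choose
  map_add' a b := e.uniq (e.exists_sum _).choose_spec.1
    (fun γ => (e.H γ).add_mem ((e.exists_sum a).choose_spec.1 γ) ((e.exists_sum b).choose_spec.1 γ))
    (by rw [Finsupp.sum_add_index' (fun _ => rfl) fun _ _ _ => rfl,
      ← (e.exists_sum _).choose_spec.2, ← (e.exists_sum _).choose_spec.2,
      ← (e.exists_sum _).choose_spec.2])
  map_smul' c a := e.uniq (e.exists_sum _).choose_spec.1
    (fun γ => (e.H γ).smul_mem c ((e.exists_sum a).choose_spec.1 γ))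
    (by rw [RingHom.id_apply, Finsupp.sum_smul_index' (fun _ => rfl), ← Finsupp.smul_sum,
      ← (e.exists_sum _).choose_spec.2, ← (e.exists_sum _).choose_spec.2])

/-- the projection to the part of bidegree `γ` -/
def Eu.pr (e : Eu V) (γ : ℤ × ℤ) : V →ₗ[ℂ] V := Finsupp.lapply γ ∘ₗ e.dec

theorem Eu.pr_mem (e : Eu V) (γ : ℤ × ℤ) (v : V) : e.pr γ v ∈ e.H γ :=
  (e.exists_sum v).choose_spec.1 γ

theorem Eu.sum_pr (e : Eu V) (v : V) : ∑ γ ∈ (e.dec v).support, e.pr γ v = v :=
  (e.exists_sum v).choose_spec.2.symm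

theorem Eu.dec_of_mem (e : Eu V) {γ : ℤ × ℤ} {v : V} (hv : v ∈ e.H γ) :
    e.dec v = Finsupp.single γ v := by
  classical
  refine e.uniq (e.pr_mem · v) (fun δ => ?_) (by
    rw [Finsupp.sum_single_index rfl]; exact e.sum_pr v)
  rw [Finsupp.single_apply]
  split_ifs with h
  · exact h ▸ hv
  · exact (e.H δ).zero_mem

theorem Eu.pr_self (e : Eu V) {γ : ℤ × ℤ} {v : V} (hv : v ∈ e.H γ) : e.pr γ v = v := by
  show e.dec v γ = v
  rw [e.dec_of_mem hv, Finsupp.single_eq_same]

theorem Eu.pr_ne (e : Eu V) {γ δ : ℤ × ℤ} {v : V} (hv : v ∈ e.H γ) (h : δ ≠ γ) :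
    e.pr δ v = 0 := by
  show e.dec v δ = 0
  rw [e.dec_of_mem hv, Finsupp.single_eq_of_ne h]

theorem Eu.eq_zero (e : Eu V) {γ δ : ℤ × ℤ} {v : V} (hv : v ∈ e.H γ) (hv' : v ∈ e.H δ)
    (h : δ ≠ γ) : v = 0 := (e.pr_self hv').symm.trans (e.pr_ne hv h)

theorem Eu.pr_mem_of (e : Eu V) {p : Submodule ℂ V} (hp : ∀ v ∈ p, e.ε v ∈ p) (γ : ℤ × ℤ) {v : V}
    (hv : v ∈ p) : e.pr γ v ∈ p := by
  by_cases h : γ ∈ (e.dec v).support
  · exact e.comp_mem hp _ (e.pr · v) (e.pr_mem · v) (by rwa [e.sum_pr]) γ h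
  · have : e.pr γ v = 0 := Finsupp.notMem_support_iff.1 h
    rw [this]
    exact p.zero_mem

/-- `f` is homogeneous of bidegree `γ` -/
def Deg (e : Eu V) (e' : Eu V') (γ : ℤ × ℤ) (f : V → V') : Prop :=
  ∀ δ v, v ∈ e.H δ → f v ∈ e'.H (γ + δ)

theorem Deg.comp {e : Eu V} {e' : Eu V'} {e'' : Eu V''} {γ γ' γ'' : ℤ × ℤ} {f : V → V'}
    {g : V' → V''} (hg : Deg e' e'' γ' g) (hf : Deg e e' γ f) (h : γ'' = γ' + γ) :
    Deg e e'' γ'' fun v => g (f v) := fun δ v hv => by
  rw [h, add_assoc]; exact hg _ _ (hf _ _ hv)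

theorem Deg.id (e : Eu V) : Deg e e 0 fun v => v := fun δ v hv => by rwa [zero_add]

theorem deg_iff {e : Eu V} {e' : Eu V'} {γ : ℤ × ℤ} (f : V →ₗ[ℂ] V') :
    Deg e e' γ f ↔ ∀ v, e'.ε (f v) = f (e.ε v) + ev γ • f v := by
  refine ⟨fun h v => ?_, fun h δ v hv => ?_⟩
  · induction v using e.ind with
    | h0 => simp
    | hh δ v hv => rw [h δ v hv, hv, map_smul, ev_add, add_smul, add_comm]
    | ha a b ha hb => simp only [map_add, ha, hb, smul_add]; abel
  · rw [Eu.mem_H, h, hv, map_smul, ev_add, add_smul, add_comm]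

theorem Deg.pr {e : Eu V} {e' : Eu V'} {γ : ℤ × ℤ} {f : V →ₗ[ℂ] V'} (h : Deg e e' γ f)
    (δ : ℤ × ℤ) (v : V) : e'.pr (γ + δ) (f v) = f (e.pr δ v) := by
  induction v using e.ind with
  | h0 => simp
  | hh δ' v hv =>
    by_cases hd : δ = δ'
    · subst hd
      rw [e'.pr_self (h _ _ hv), e.pr_self hv]
    · rw [e'.pr_ne (h _ _ hv) (fun h => hd (add_left_cancel h)), e.pr_ne hv hd, map_zero]
  | ha a b ha hb => simp only [map_add, ha, hb]

/-- the grading shifted by `γ` -/
def Eu.sh (e : Eu V) (γ : ℤ × ℤ) : Eu V where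
  ε := e.ε + ev γ • LinearMap.id
  diag v := by
    refine Submodule.span_mono ?_ (e.diag v)
    rintro w ⟨δ, h⟩
    exact ⟨δ + γ, by simp [h, ev_add, add_smul]⟩

theorem Eu.mem_sh {e : Eu V} {γ δ : ℤ × ℤ} {v : V} : v ∈ (e.sh γ).H δ ↔ v ∈ e.H (δ - γ) := by
  have : ev δ = ev (δ - γ) + ev γ := by rw [← ev_add, sub_add_cancel]
  simp [Eu.mem_H, Eu.sh, this, add_smul]

/-- the grading of a product -/
def Eu.prod (e : Eu V) (e' : Eu V') : Eu (V × V') where
  ε := e.ε.prodMap e'.ε
  diag v := by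
    have : v = (v.1, 0) + (0, v.2) := by simp
    rw [this]
    refine Submodule.add_mem _ ?_ ?_
    · induction v.1 using e.ind with
      | h0 => exact Submodule.zero_mem _
      | hh γ a h => exact Submodule.subset_span ⟨γ, by simp [Eu.mem_H.1 h]⟩
      | ha a b ha hb => simpa using Submodule.add_mem _ ha hb
    · induction v.2 using e'.ind with
      | h0 => exact Submodule.zero_mem _
      | hh γ a h => exact Submodule.subset_span ⟨γ, by simp [Eu.mem_H.1 h]⟩
      | ha a b ha hb => simpa using Submodule.add_mem _ ha hb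

theorem Eu.mem_prod {e : Eu V} {e' : Eu V'} {γ : ℤ × ℤ} {v : V × V'} :
    v ∈ (e.prod e').H γ ↔ v.1 ∈ e.H γ ∧ v.2 ∈ e'.H γ := by
  simp [Eu.mem_H, Eu.prod, Prod.ext_iff]

/-- the grading of a finite power, with generators in the bidegrees `p i` -/
def Eu.pi {ι : Type} [Finite ι] (e : Eu V) (p : ι → ℤ × ℤ) : Eu (ι → V) where
  ε := LinearMap.pi fun i => (e.sh (p i)).ε ∘ₗ LinearMap.proj i
  diag v := by
    classical
    have := Fintype.ofFinite ι
    rw [← Finset.univ_sum_single v]
    refine Submodule.sum_mem _ fun i _ => ?_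
    induction v i using (e.sh (p i)).ind with
    | h0 => rw [Pi.single_zero]; exact Submodule.zero_mem _
    | hh γ a h =>
      refine Submodule.subset_span ⟨γ, funext fun j => ?_⟩
      by_cases hj : j = i
      · subst hj
        simpa using Eu.mem_H.1 h
      · simp [hj]
    | ha a b ha hb => rw [Pi.single_add]; exact Submodule.add_mem _ ha hb

theorem Eu.mem_pi {ι : Type} [Finite ι] {e : Eu V} {p : ι → ℤ × ℤ} {γ : ℤ × ℤ} {v : ι → V} :
    v ∈ (e.pi p).H γ ↔ ∀ i, v i ∈ e.H (γ - p i) := by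
  simp only [← Eu.mem_sh]
  exact funext_iff

end

section

variable {B : Type} [CommRing B] [Algebra ℂ B] {V X : Type} [AddCommGroup V] [Module ℂ V]
  [Module B V] [IsScalarTower ℂ B V] [AddCommGroup X] [Module ℂ X] [Module B X]
  [IsScalarTower ℂ B X]

/-- the grading `e` is compatible with the grading `a` of the ring -/
def Lb (a : Eu B) (e : Eu V) : Prop := ∀ (r : B) (v : V), e.ε (r • v) = a.ε r • v + r • e.ε v

theorem Lb.smul {a : Eu B} {e : Eu V} (h : Lb a e) {γ δ : ℤ × ℤ} {r : B} {v : V}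
    (hr : r ∈ a.H γ) (hv : v ∈ e.H δ) : r • v ∈ e.H (γ + δ) := by
  rw [Eu.mem_H, h, hr, hv, ev_add, add_smul, smul_assoc, smul_comm r]

theorem lb_of {a : Eu B} {e : Eu V}
    (h : ∀ γ δ (r : B) (v : V), r ∈ a.H γ → v ∈ e.H δ → r • v ∈ e.H (γ + δ)) : Lb a e := by
  intro r v
  induction r using a.ind with
  | h0 => simp
  | hh γ r hr =>
    induction v using e.ind with
    | h0 => simp
    | hh δ v hv => rw [h γ δ r v hr hv, hr, hv, ev_add, add_smul, smul_assoc, smul_comm r]
    | ha a b ha hb => simp only [smul_add, map_add, ha, hb]; abel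
  | ha a b ha hb => simp only [add_smul, map_add, ha, hb]; abel

theorem Lb.sh {a : Eu B} {e : Eu V} (h : Lb a e) (γ : ℤ × ℤ) : Lb a (e.sh γ) := fun r v => by
  simp [Eu.sh, h r v, smul_comm r, add_assoc]

theorem Lb.prod {a : Eu B} {e : Eu V} {f : Eu X} (h : Lb a e) (h' : Lb a f) : Lb a (e.prod f) :=
  fun r v => Prod.ext (h r v.1) (h' r v.2)

theorem Lb.pi {ι : Type} [Finite ι] {a : Eu B} {e : Eu V} (h : Lb a e) (p : ι → ℤ × ℤ) :
    Lb a (e.pi p) := fun r v => funext fun i => h.sh (p i) r (v i)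

/-- the span of a set of homogeneous elements is stable -/
theorem Lb.span {a : Eu B} {e : Eu V} (h : Lb a e) {S : Set V} (hS : ∀ v ∈ S, ∃ γ, v ∈ e.H γ)
    {v : V} (hv : v ∈ Submodule.span B S) : e.ε v ∈ Submodule.span B S := by
  induction hv using Submodule.span_induction with
  | mem x hx =>
    obtain ⟨γ, h⟩ := hS x hx
    rw [h, ← algebraMap_smul B]
    exact Submodule.smul_mem _ _ (Submodule.subset_span hx)
  | zero => rw [map_zero]; exact Submodule.zero_mem _
  | add x y _ _ hx hy => rw [map_add]; exact Submodule.add_mem _ hx hy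
  | smul r x hx' hx =>
    rw [h]; exact Submodule.add_mem _ (Submodule.smul_mem _ _ hx') (Submodule.smul_mem _ _ hx)

/-- the grading of a quotient -/
def Eu.quot (e : Eu V) (p : Submodule B V) (hp : ∀ v ∈ p, e.ε v ∈ p) : Eu (V ⧸ p) where
  ε :=
    { toFun := QuotientAddGroup.map p.toAddSubgroup p.toAddSubgroup e.ε.toAddMonoidHom hp
      map_add' := map_add _
      map_smul' := fun c v => by
        induction v using Submodule.Quotient.induction_on with
        | H v => exact congrArg (Submodule.Quotient.mk (p := p)) (e.ε.map_smul c v) }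
  diag v := by
    induction v using Submodule.Quotient.induction_on with
    | H v =>
      induction v using e.ind with
      | h0 => exact Submodule.zero_mem _
      | hh γ a h =>
        exact Submodule.subset_span ⟨γ, congrArg (Submodule.Quotient.mk (p := p)) (Eu.mem_H.1 h)⟩
      | ha a b ha hb => exact Submodule.add_mem _ ha hb

theorem Eu.quot_mk (e : Eu V) (p : Submodule B V) (hp : ∀ v ∈ p, e.ε v ∈ p) (v : V) :
    (e.quot p hp).ε (Submodule.Quotient.mk v) = Submodule.Quotient.mk (e.ε v) := rfl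

theorem Lb.quot {a : Eu B} {e : Eu V} (h : Lb a e) (p : Submodule B V)
    (hp : ∀ v ∈ p, e.ε v ∈ p) : Lb a (e.quot p hp) := fun r v => by
  induction v using Submodule.Quotient.induction_on with
  | H v => exact congrArg (Submodule.Quotient.mk (p := p)) (h r v)

/-- the operator on a tensor product -/
def tenE {a : Eu B} {e : Eu V} {f : Eu X} (he : Lb a e) (hf : Lb a f) :
    V ⊗[B] X →+ V ⊗[B] X :=
  liftAddHom (AddMonoidHom.mk' (fun v => AddMonoidHom.mk'
    (fun x => e.ε v ⊗ₜ[B] x + v ⊗ₜ[B] f.ε x) fun x y => by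
      simp only [map_add, tmul_add]; abel) fun v w => by
    ext x
    simp only [map_add, add_tmul, AddMonoidHom.mk'_apply, AddMonoidHom.add_apply]
    abel) fun r v x => by
    simp only [AddMonoidHom.mk'_apply, he r v, hf r x, add_tmul, tmul_add, smul_tmul]
    abel

theorem tenE_tmul {a : Eu B} {e : Eu V} {f : Eu X} (he : Lb a e) (hf : Lb a f) (v : V) (x : X) :
    tenE he hf (v ⊗ₜ x) = e.ε v ⊗ₜ[B] x + v ⊗ₜ[B] f.ε x := rfl

theorem tenE_hom {a : Eu B} {e : Eu V} {f : Eu X} (he : Lb a e) (hf : Lb a f) {γ δ : ℤ × ℤ}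
    {v : V} {x : X} (hv : v ∈ e.H γ) (hx : x ∈ f.H δ) :
    tenE he hf (v ⊗ₜ x) = ev (γ + δ) • v ⊗ₜ[B] x := by
  rw [tenE_tmul, Eu.mem_H.1 hv, Eu.mem_H.1 hx, ev_add, add_smul, ← smul_tmul', tmul_smul]

/-- the grading of a tensor product -/
def Eu.ten {a : Eu B} {e : Eu V} {f : Eu X} (he : Lb a e) (hf : Lb a f) : Eu (V ⊗[B] X) where
  ε :=
    { toFun := tenE he hf
      map_add' := map_add _
      map_smul' := fun c z => by
        induction z using TensorProduct.induction_on with
        | zero => simp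
        | tmul v x =>
          rw [RingHom.id_apply, smul_tmul', tenE_tmul, tenE_tmul, map_smul, smul_add, smul_tmul',
            smul_tmul']
        | add x y hx hy => simp only [smul_add, map_add, hx, hy] }
  diag z := by
    induction z using TensorProduct.induction_on with
    | zero => exact Submodule.zero_mem _
    | tmul v x =>
      induction v using e.ind with
      | h0 => rw [zero_tmul]; exact Submodule.zero_mem _
      | hh γ v hv =>
        induction x using f.ind with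
        | h0 => rw [tmul_zero]; exact Submodule.zero_mem _
        | hh δ x hx => exact Submodule.subset_span ⟨γ + δ, tenE_hom he hf hv hx⟩
        | ha a b ha hb => rw [tmul_add]; exact Submodule.add_mem _ ha hb
      | ha a b ha hb => rw [add_tmul]; exact Submodule.add_mem _ ha hb
    | add x y hx hy => exact Submodule.add_mem _ hx hy

theorem Eu.ten_tmul {a : Eu B} {e : Eu V} {f : Eu X} (he : Lb a e) (hf : Lb a f) (v : V) (x : X) :
    (Eu.ten he hf).ε (v ⊗ₜ x) = e.ε v ⊗ₜ[B] x + v ⊗ₜ[B] f.ε x := rfl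

theorem Eu.tmul_mem {a : Eu B} {e : Eu V} {f : Eu X} (he : Lb a e) (hf : Lb a f) {γ δ : ℤ × ℤ}
    {v : V} {x : X} (hv : v ∈ e.H γ) (hx : x ∈ f.H δ) : v ⊗ₜ[B] x ∈ (Eu.ten he hf).H (γ + δ) :=
  tenE_hom he hf hv hx

/-- compatibility with a ring that acts on the left factor -/
theorem Lb.ten {a : Eu B} {e : Eu V} {f : Eu X} (he : Lb a e) (hf : Lb a f) {L : Type}
    [CommRing L] [Algebra ℂ L] [Module L V] [IsScalarTower ℂ L V] [SMulCommClass B L V]
    {b : Eu L} (h : Lb b e) : Lb b (Eu.ten he hf) := fun r z => by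
  induction z using TensorProduct.induction_on with
  | zero => simp
  | tmul v x => simp only [smul_tmul', Eu.ten_tmul, h r v, add_tmul, smul_add]; abel
  | add x y hx hy => simp only [smul_add, map_add, hx, hy]; abel

/-- criterion for the homogeneity of a map on a tensor product -/
theorem deg_ten {a : Eu B} {e : Eu V} {f : Eu X} (he : Lb a e) (hf : Lb a f) {Y : Type}
    [AddCommGroup Y] [Module ℂ Y] {g : Eu Y} {γ : ℤ × ℤ} (φ : V ⊗[B] X →ₗ[ℂ] Y)
    (h : ∀ δ δ' v x, v ∈ e.H δ → x ∈ f.H δ' → φ (v ⊗ₜ x) ∈ g.H (γ + (δ + δ'))) :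
    Deg (Eu.ten he hf) g γ φ := by
  refine (deg_iff φ).2 fun z => ?_
  induction z using TensorProduct.induction_on with
  | zero => simp
  | tmul v x =>
    induction v using e.ind with
    | h0 => simp
    | hh δ v hv =>
      induction x using f.ind with
      | h0 => simp
      | hh δ' x hx =>
        rw [h _ _ _ _ hv hx, Eu.tmul_mem he hf hv hx, map_smul, ev_add γ, add_smul, add_comm]
      | ha a b ha hb => simp only [tmul_add, map_add, ha, hb, smul_add]; abel
    | ha a b ha hb => simp only [add_tmul, map_add, ha, hb, smul_add]; abel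
  | add x y hx hy => simp only [smul_add, map_add, hx, hy]; abel

end

end Vale.Agent.P287T.Sx
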