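import Vale.Agent.P287T.Sx.Ex0
import Mathlib.Data.Finsupp.Weight

/-!
# Block STRICT, step EX
-/

set_option linter.all false

open TensorProduct MvPolynomial Matrix

noncomputable section

namespace Vale.Agent.P287T.Sx.Ex

attribute [local instance] MvPolynomial.algebraMvPolynomial

variable {B D : Type} [CommRing B] [Algebra ℂ B] [CommRing D] [Algebra ℂ D] [Algebra B D]
  [IsScalarTower ℂ B D] {Q : Type} [AddCommGroup Q] [Module ℂ Q] [Module B Q]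
  [IsScalarTower ℂ B Q] {ι : Type} [Fintype ι] [DecidableEq ι] (Γ : Gr B D) (p : ι → ℤ)
  {f : Eu Q} (hf : Lb Γ.eB f)

theorem weight_wx (μ : Mn) : Finsupp.weight wx μ = (2 * (μ.degree : ℤ), 0) := by
  induction μ using Finsupp.induction_linear with
  | zero => rw [map_zero, map_zero]; rfl
  | add a b h h' => rw [map_add, map_add, h, h', Prod.mk_add_mk]; push_cast; congr 1; ring
  | single i n => simp [Finsupp.weight_single, wx, mul_comm]

theorem deg_J (i : ι) (μ : Mn) : Deg (Eu.ten Γ.lbBD hf) (Eu.ten (Γ.lbE p) hf)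
    (2 * (μ.degree : ℤ) + p i, 0) (J B Q i μ) :=
  deg_ten Γ.lbBD hf ((J B Q i μ).restrictScalars ℂ) fun δ δ' c q hc hq => by
    have h : (Pi.single i (monomial μ c) : ι → Px D) ∈
        (Γ.eE p).H (δ + (2 * (μ.degree : ℤ) + p i, 0)) := Eu.mem_pi.2 fun l => by
      by_cases e : l = i
      · subst e
        rw [Pi.single_eq_same]
        have := Eu.monomial_mem (w := wx) hc μ
        rwa [weight_wx, show δ + (2 * (μ.degree : ℤ), 0) =
          δ + (2 * (μ.degree : ℤ) + p l, 0) - (p l, 0) by ext <;> simp <;> ring] at this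
      · rw [Pi.single_eq_of_ne e]
        exact Submodule.zero_mem _
    have := Eu.tmul_mem (Γ.lbE p) hf h hq
    rwa [add_comm δ, add_assoc] at this

theorem deg_K (i : ι) (μ : Mn) : Deg (Eu.ten (Γ.lbE p) hf) (Eu.ten Γ.lbBD hf)
    (-(2 * (μ.degree : ℤ) + p i), 0) (K B Q i μ) :=
  deg_ten (Γ.lbE p) hf ((K B Q i μ).restrictScalars ℂ) fun δ δ' v q hv hq => by
    have := Eu.tmul_mem Γ.lbBD hf (Eu.mem_mv.1 (Eu.mem_pi.1 hv i) μ) hq
    rwa [weight_wx, show δ - (p i, 0) - (2 * (μ.degree : ℤ), 0) + δ' =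
      (-(2 * (μ.degree : ℤ) + p i), 0) + (δ + δ') by ext <;> simp <;> ring] at this

theorem lbN : Lb Γ.eD (Eu.ten Γ.lbBD hf) := Lb.ten Γ.lbBD hf Γ.lbD

theorem lbT : Lb Γ.eX (Eu.ten (Γ.lbE p) hf) := Lb.ten (Γ.lbE p) hf ((Γ.lbD.mv wx).pi _)

theorem deg_rho {g : Module.End B (D ⊗[B] Q)} {γ : ℤ × ℤ}
    (hg : Deg (Eu.ten Γ.lbBD hf) (Eu.ten Γ.lbBD hf) γ g) {r : D ⊗[B] D} (hr : r ∈ Γ.e2.H 0) :
    Deg (Eu.ten Γ.lbBD hf) (Eu.ten Γ.lbBD hf) γ (rho g r) := fun η n hn => by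
  have := deg_ten Γ.lbBD Γ.lbBD (g := Eu.ten Γ.lbBD hf) (γ := γ + η)
    ((LinearMap.applyₗ n ∘ₗ rho g).restrictScalars ℂ) (fun δ δ' a b ha hb => by
      have := (lbN Γ hf).smul ha (hg _ _ ((lbN Γ hf).smul hb hn))
      rwa [show δ + (γ + (δ' + η)) = γ + η + (δ + δ') by abel] at this) 0 r hr
  rwa [add_zero] at this

theorem deg_T {G : (ι → Px D) ⊗[B] Q →ₗ[Px B] (ι → Px D) ⊗[B] Q} {γ : ℤ × ℤ}
    (h : ∀ l δ n, n ∈ (Eu.ten Γ.lbBD hf).H δ →
      G (J B Q l 0 n) ∈ (Eu.ten (Γ.lbE p) hf).H (γ + (δ + (p l, 0)))) :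
    Deg (Eu.ten (Γ.lbE p) hf) (Eu.ten (Γ.lbE p) hf) γ G := by
  refine (deg_iff ((G.restrictScalars B).restrictScalars ℂ)).2 fun t => ?_
  induction t using ind with
  | h0 => simp
  | ha a b h h' => simp only [map_add, h, h', smul_add]; abel
  | hJ l μ n =>
    induction n using (Eu.ten Γ.lbBD hf).ind with
    | h0 => simp
    | ha a b h h' => simp only [map_add, h, h', smul_add]; abel
    | hh δ n hn =>
      have h1 := (lbT Γ p hf).smul (Eu.monomial_mem (w := wx) Γ.lbD.one μ) (h l δ n hn)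
      rw [← monB, ← map_smul, ← J_eq, weight_wx, show 0 + (2 * (μ.degree : ℤ), (0 : ℤ)) +
        (γ + (δ + (p l, 0))) = γ + ((2 * (μ.degree : ℤ) + p l, 0) + δ) by
          ext <;> simp <;> ring] at h1
      rw [deg_J Γ p hf l μ δ n hn, map_smul, LinearMap.restrictScalars_apply,
        LinearMap.restrictScalars_apply, h1, ev_add γ, add_smul, add_comm]

theorem deg_act {g : Module.End B (D ⊗[B] Q)} {γ : ℤ × ℤ}
    (hg : Deg (Eu.ten Γ.lbBD hf) (Eu.ten Γ.lbBD hf) γ g) {j : ℤ}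
    {Y : Matrix ι ι (Px (D ⊗[B] D))} (hY : MX (Γ.e2.H 0) p p j Y) :
    Deg (Eu.ten (Γ.lbE p) hf) (Eu.ten (Γ.lbE p) hf) (γ + (j, 0)) (act g Y) := by
  refine deg_T Γ p hf fun l δ n hn => ?_
  rw [act_J]
  refine Submodule.sum_mem _ fun i _ => ?_
  rw [(Y i l).as_sum, map_sum, LinearMap.sum_apply]
  refine Submodule.sum_mem _ fun μ hμ => ?_
  have := deg_J Γ p hf i μ _ _ (deg_rho Γ hf hg (hY i l μ).1 δ n hn)
  rwa [Psi_mon, show γ + (j, 0) + (δ + (p l, 0)) = (2 * (μ.degree : ℤ) + p i, 0) + (γ + δ) by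
    rw [(hY i l μ).2 (mem_support_iff.1 hμ)]; ext <;> simp <;> ring]

/-- the coefficients of an endomorphism -/
def cf (F : (ι → Px D) ⊗[B] Q →ₗ[Px B] (ι → Px D) ⊗[B] Q) (c : ι × ι × Mn) :
    Module.End B (D ⊗[B] Q) :=
  (K B Q c.1 c.2.2).restrictScalars B ∘ₗ F.restrictScalars B ∘ₗ (J B Q c.2.1 0).restrictScalars B

theorem deg_cf {F : (ι → Px D) ⊗[B] Q →ₗ[Px B] (ι → Px D) ⊗[B] Q} {γ : ℤ × ℤ}
    (hF : Deg (Eu.ten (Γ.lbE p) hf) (Eu.ten (Γ.lbE p) hf) γ F) (c : ι × ι × Mn) :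
    Deg (Eu.ten Γ.lbBD hf) (Eu.ten Γ.lbBD hf)
      (γ + (p c.2.1 - p c.1 - 2 * (c.2.2.degree : ℤ), 0)) (cf F c) :=
  (deg_K Γ p hf c.1 c.2.2).comp (hF.comp (deg_J Γ p hf c.2.1 0) rfl) (by ext <;> simp <;> ring)

theorem chN (h0 : ∀ γ : ℤ × ℤ, γ.1 ≠ 0 → f.H γ ≤ ⊥) {γ : ℤ × ℤ} (hγ : γ.1 ≠ 0)
    {n : D ⊗[B] Q} (hn : n ∈ (Eu.ten Γ.lbBD hf).H γ) : n = 0 := by
  rw [← (Eu.ten Γ.lbBD hf).pr_self hn]
  clear hn
  induction n using TensorProduct.induction_on with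
  | zero => rw [map_zero]
  | add a b h h' => rw [map_add, h, h', add_zero]
  | tmul c q =>
    induction c using Γ.eD.ind with
    | h0 => rw [zero_tmul, map_zero]
    | ha a b h h' => rw [add_tmul, map_add, h, h', add_zero]
    | hh δ c hc =>
      induction q using f.ind with
      | h0 => rw [tmul_zero, map_zero]
      | ha a b h h' => rw [tmul_add, map_add, h, h', add_zero]
      | hh δ' q hq =>
        by_cases e : δ.1 = 0
        · by_cases e' : δ'.1 = 0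
          · refine Eu.pr_ne _ (Eu.tmul_mem Γ.lbBD hf hc hq) fun b => hγ ?_
            rw [b, Prod.fst_add, e, e', add_zero]
          · rw [show q = 0 from h0 _ e' hq, tmul_zero, map_zero]
        · rw [show c = 0 from Γ.chD _ e hc, zero_tmul, map_zero]

theorem cf_zero (h0 : ∀ γ : ℤ × ℤ, γ.1 ≠ 0 → f.H γ ≤ ⊥)
    {F : (ι → Px D) ⊗[B] Q →ₗ[Px B] (ι → Px D) ⊗[B] Q} {j : ℤ}
    (hF : Deg (Eu.ten (Γ.lbE p) hf) (Eu.ten (Γ.lbE p) hf) (j, 0) F) (c : ι × ι × Mn)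
    (hc : 2 * (c.2.2.degree : ℤ) ≠ j + p c.2.1 - p c.1) (n : D ⊗[B] Q) : cf F c n = 0 := by
  induction n using (Eu.ten Γ.lbBD hf).ind with
  | h0 => rw [map_zero]
  | ha a b h h' => rw [map_add, h, h', add_zero]
  | hh δ n hn =>
    by_cases e : δ.1 = 0
    · refine chN Γ hf h0 ?_ (deg_cf Γ p hf hF c δ n hn)
      simp only [Prod.fst_add, e]
      omega
    · rw [chN Γ hf h0 e hn, map_zero]

theorem fin_idx (j : ℤ) :
    {c : ι × ι × Mn | 2 * (c.2.2.degree : ℤ) = j + p c.2.1 - p c.1}.Finite := by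
  refine (Set.finite_univ.prod (Set.finite_univ.prod (Set.finite_iUnion fun c : ι × ι =>
    Finsupp.finite_of_degree_le (σ := Fin 6) (j + p c.2 - p c.1).toNat))).subset fun c hc => ?_
  refine ⟨trivial, trivial, Set.mem_iUnion.2 ⟨(c.1, c.2.1), ?_⟩⟩
  have : 2 * (c.2.2.degree : ℤ) = j + p c.2.1 - p c.1 := hc
  show c.2.2.degree ≤ (j + p c.2.1 - p c.1).toNat
  omega

theorem mx_bs {R : Type} [CommRing R] [Algebra ℂ R] {R₀ : Submodule ℂ R} (h1 : (1 : R) ∈ R₀)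
    {j : ℤ} {c : ι × ι × Mn} (hc : 2 * (c.2.2.degree : ℤ) = j + p c.2.1 - p c.1) :
    MX R₀ p p j (bs R c) := fun i l μ => by
  rw [coeff_bs]
  split_ifs with e
  · subst e
    exact ⟨h1, fun _ => hc⟩
  · exact ⟨R₀.zero_mem, fun b => absurd rfl b⟩

/-- a homogeneous endomorphism is the sum of its coefficients -/
theorem sum_cf (h0 : ∀ γ : ℤ × ℤ, γ.1 ≠ 0 → f.H γ ≤ ⊥)
    {F : (ι → Px D) ⊗[B] Q →ₗ[Px B] (ι → Px D) ⊗[B] Q} {j : ℤ}
    (hF : Deg (Eu.ten (Γ.lbE p) hf) (Eu.ten (Γ.lbE p) hf) (j, 0) F) :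
    F = ∑ c ∈ (fin_idx p j).toFinset, act (cf F c) (bs _ c) := by
  classical
  refine hom_ext' fun i l μ n => ?_
  rw [LinearMap.sum_apply, map_sum]
  simp only [K_act, coeff_bs, apply_ite (rho _), rho_one, map_zero, ite_apply,
    LinearMap.zero_apply, DFunLike.ite_apply, Finset.sum_ite_eq']
  split_ifs with e
  · rfl
  · exact cf_zero Γ p hf h0 hF (i, l, μ) (fun b => e ((Set.Finite.mem_toFinset _).2 b)) n

end Vale.Agent.P287T.Sx.Ex

namespace Vale.Agent.P287T.Sx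

open Ex

attribute [local instance] MvPolynomial.algebraMvPolynomial

/-- **EX** -/
theorem stEx : StEx := by
  intro B D _ _ _ _ _ _ ι _ _ Γ p d hN Q _ _ _ _ f hf h0 k F hk hF hd
  obtain ⟨s, s', s1, s2⟩ := hN k hk
  have e := sum_cf Γ p hf h0 hF
  have o : (1 : D ⊗[B] D) ∈ Γ.e2.H 0 := by
    have := Eu.tmul_mem Γ.lbBD Γ.lbBD Γ.lbD.one Γ.lbD.one
    rwa [add_zero] at this
  refine ⟨∑ c ∈ (fin_idx p (3 * k)).toFinset, act (cf F c) (s (bs _ c)), ?_,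
    fun f' hf' γ hγ δ v hv => ?_⟩
  · have z := rel (fin_idx p (3 * k)).toFinset (cf F)
      (fun c => mm (i0 B D) d * bs _ c - bs _ c * mm (i1 B D) d) (by
        refine LinearMap.ext fun t => ?_
        have := LinearMap.congr_fun hd t
        rw [e, Finset.mul_sum, Finset.sum_mul, LinearMap.sum_apply, LinearMap.sum_apply] at this
        simp only [act_sub, ← dQ_act, ← act_dQ, LinearMap.sum_apply, LinearMap.sub_apply,
          Finset.sum_sub_distrib, this, sub_self, LinearMap.zero_apply]) s'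
    rw [Finset.mul_sum, Finset.sum_mul, ← Finset.sum_add_distrib, ← add_zero (Finset.sum _ _), ← z,
      ← Finset.sum_add_distrib]
    refine e.trans (Finset.sum_congr rfl fun c hc => ?_)
    rw [dQ_act, act_dQ, ← act_add, ← act_add,
      ← s2 _ (mx_bs p Submodule.mem_top ((fin_idx p _).mem_toFinset.1 hc))]
  · rw [LinearMap.sum_apply]
    refine Submodule.sum_mem _ fun c hc => ?_
    have hc' : 2 * (c.2.2.degree : ℤ) = 3 * k + p c.2.1 - p c.1 :=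
      (fin_idx p _).mem_toFinset.1 hc
    have := deg_act Γ p hf' (deg_cf Γ p hf' hγ c) (s1 _ (mx_bs p o hc')) δ v hv
    rwa [show γ + (p c.2.1 - p c.1 - 2 * (c.2.2.degree : ℤ), 0) + (3 * k - 3, 0) = γ - (3, 0) by
      rw [hc']; ext <;> simp <;> ring] at this

end Vale.Agent.P287T.Sx
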