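import Vale.Agent.P287T.Sx.St
import Mathlib.LinearAlgebra.DirectSum.Finsupp
import Mathlib.RingTheory.MvPolynomial.Basic

/-!
# Block STRICT, step EX: matrices over `(D ⊗ D)[x]` act on `D[x]^ι ⊗ Q`
-/

set_option linter.all false

open TensorProduct MvPolynomial Matrix

noncomputable section

namespace Vale.Agent.P287T.Sx.Ex

attribute [local instance] MvPolynomial.algebraMvPolynomial

variable (B : Type) {D : Type} [CommRing B] [CommRing D] [Algebra B D] (Q : Type) [AddCommGroup Q]
  [Module B Q] {ι : Type} [Fintype ι] [DecidableEq ι]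

/-- exponents -/
abbrev Mn : Type := Fin 6 →₀ ℕ

/-- the inclusion of a coefficient -/
def J (i : ι) (μ : Mn) : D ⊗[B] Q →ₗ[D] (ι → Px D) ⊗[B] Q :=
  AlgebraTensorModule.rTensor B Q (LinearMap.single D (fun _ : ι => Px D) i ∘ₗ monomial μ)

/-- the projection to a coefficient -/
def K (i : ι) (μ : Mn) : (ι → Px D) ⊗[B] Q →ₗ[D] D ⊗[B] Q :=
  AlgebraTensorModule.rTensor B Q (lcoeff D μ ∘ₗ LinearMap.proj i)

/-- all the coefficients -/
def Th (i : ι) : (ι → Px D) ⊗[B] Q →ₗ[D] (Mn →₀ D ⊗[B] Q) :=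
  (finsuppLeft B D D Q Mn).toLinearMap ∘ₗ AlgebraTensorModule.rTensor B Q
    ((basisMonomials (Fin 6) D).repr.toLinearMap ∘ₗ LinearMap.proj i)

variable {B Q}

theorem J_tmul (i : ι) (μ : Mn) (c : D) (q : Q) :
    J B Q i μ (c ⊗ₜ q) = (Pi.single i (monomial μ c) : ι → Px D) ⊗ₜ q := rfl

theorem K_tmul (i : ι) (μ : Mn) (v : ι → Px D) (q : Q) :
    K B Q i μ (v ⊗ₜ q) = coeff μ (v i) ⊗ₜ q := rfl

theorem K_J (i l : ι) (μ ν : Mn) (n : D ⊗[B] Q) :
    K B Q i μ (J B Q l ν n) = if l = i ∧ ν = μ then n else 0 := by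
  induction n using TensorProduct.induction_on with
  | zero => simp
  | tmul c q =>
    rw [J_tmul, K_tmul]
    by_cases h : l = i
    · subst h
      rw [Pi.single_eq_same, coeff_monomial]
      split_ifs with h1 h2 h2 <;> simp_all
    · rw [Pi.single_eq_of_ne' h, coeff_zero, zero_tmul, if_neg fun e => h e.1]
  | add a b ha hb => rw [map_add, map_add, ha, hb]; split_ifs <;> simp

theorem Th_apply (i : ι) (t : (ι → Px D) ⊗[B] Q) (μ : Mn) : Th B Q i t μ = K B Q i μ t := by
  induction t using TensorProduct.induction_on with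
  | zero => simp
  | tmul v q => exact finsuppLeft_apply_tmul_apply _ _ _
  | add a b ha hb => rw [map_add, map_add, Finsupp.add_apply, ha, hb]

theorem Th_J (i l : ι) (ν : Mn) (n : D ⊗[B] Q) :
    Th B Q i (J B Q l ν n) = if l = i then Finsupp.single ν n else 0 := by
  ext μ
  rw [Th_apply, K_J]
  by_cases h : l = i <;> simp [h, Finsupp.single_apply]

theorem ind {P : (ι → Px D) ⊗[B] Q → Prop} (h0 : P 0) (ha : ∀ a b, P a → P b → P (a + b))
    (hJ : ∀ l μ n, P (J B Q l μ n)) (t : (ι → Px D) ⊗[B] Q) : P t := by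
  induction t using TensorProduct.induction_on with
  | zero => exact h0
  | add a b h h' => exact ha a b h h'
  | tmul v q =>
    rw [← Finset.univ_sum_single v, sum_tmul]
    refine Finset.sum_induction _ P ha h0 fun i _ => ?_
    induction v i using MvPolynomial.induction_on' with
    | monomial μ c => exact hJ i μ (c ⊗ₜ q)
    | add a b h h' => rw [Pi.single_add, add_tmul]; exact ha _ _ h h'

theorem mon_J (l : ι) (μ ν : Mn) (c : D) (n : D ⊗[B] Q) :
    (monomial μ c : Px D) • J B Q l ν n = J B Q l (μ + ν) (c • n) := by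
  induction n using TensorProduct.induction_on with
  | zero => simp
  | tmul a q =>
    rw [smul_tmul', J_tmul, J_tmul, smul_tmul', ← Pi.single_smul, smul_eq_mul, monomial_mul,
      smul_eq_mul]
  | add a b ha hb => rw [smul_add, map_add, map_add, smul_add, ha, hb]

theorem monB (μ : Mn) (t : (ι → Px D) ⊗[B] Q) :
    (monomial μ 1 : Px B) • t = (monomial μ 1 : Px D) • t := by
  rw [← algebraMap_smul (Px D), algebraMap_def, map_monomial, map_one]

theorem J_eq (l : ι) (μ : Mn) (n : D ⊗[B] Q) :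
    J B Q l μ n = (monomial μ 1 : Px B) • J B Q l 0 n := by
  rw [monB, mon_J, add_zero, one_smul]

theorem hom_ext {F G : (ι → Px D) ⊗[B] Q →ₗ[Px B] (ι → Px D) ⊗[B] Q}
    (h : ∀ l n, F (J B Q l 0 n) = G (J B Q l 0 n)) : F = G := by
  refine LinearMap.ext fun t => ?_
  induction t using ind with
  | h0 => rw [map_zero, map_zero]
  | ha a b h h' => rw [map_add, map_add, h, h']
  | hJ l μ n => rw [J_eq, map_smul, map_smul, h]

/-- extension of maps given on the constant coefficients -/
def ex0 (G : ι → (D ⊗[B] Q →ₗ[B] (ι → Px D) ⊗[B] Q)) :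
    (ι → Px D) ⊗[B] Q →ₗ[B] (ι → Px D) ⊗[B] Q :=
  ∑ l, Finsupp.lsum B (fun μ => Algebra.lsmul B B _ (monomial μ 1 : Px D) ∘ₗ G l) ∘ₗ
    (Th B Q l).restrictScalars B

theorem ex0_J (G : ι → (D ⊗[B] Q →ₗ[B] (ι → Px D) ⊗[B] Q)) (l : ι) (μ : Mn) (n : D ⊗[B] Q) :
    ex0 G (J B Q l μ n) = (monomial μ 1 : Px D) • G l n := by
  rw [ex0, LinearMap.sum_apply, Finset.sum_eq_single l]
  · rw [LinearMap.comp_apply, LinearMap.restrictScalars_apply, Th_J, if_pos rfl,
      Finsupp.lsum_single]
    rfl
  · intro i _ hi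
    rw [LinearMap.comp_apply, LinearMap.restrictScalars_apply, Th_J, if_neg hi.symm, map_zero]
  · simp

/-- extension of maps given on the constant coefficients -/
def ex (G : ι → (D ⊗[B] Q →ₗ[B] (ι → Px D) ⊗[B] Q)) :
    (ι → Px D) ⊗[B] Q →ₗ[Px B] (ι → Px D) ⊗[B] Q where
  toFun := ex0 G
  map_add' := map_add _
  map_smul' a t := by
    rw [RingHom.id_apply]
    induction a using MvPolynomial.induction_on' with
    | add a b h h' => rw [add_smul, add_smul, map_add, h, h']
    | monomial μ b =>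
      have e : ∀ u : (ι → Px D) ⊗[B] Q, (monomial μ b : Px B) • u =
          b • (monomial μ 1 : Px D) • u := fun u => by
        rw [← monB, ← smul_assoc, smul_monomial, smul_eq_mul, mul_one]
      rw [e, e, map_smul]
      congr 1
      induction t using ind with
      | h0 => rw [smul_zero, map_zero, smul_zero]
      | ha a b h h' => rw [smul_add, map_add, map_add, smul_add, h, h']
      | hJ l ν n => rw [mon_J, ex0_J, ex0_J, smul_smul, monomial_mul, one_mul, one_smul]

theorem ex_J (G : ι → (D ⊗[B] Q →ₗ[B] (ι → Px D) ⊗[B] Q)) (l : ι) (n : D ⊗[B] Q) :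
    ex G (J B Q l 0 n) = G l n := (ex0_J G l 0 n).trans (one_smul _ _)

theorem eq_of_K {t t' : (ι → Px D) ⊗[B] Q} (h : ∀ i μ, K B Q i μ t = K B Q i μ t') : t = t' := by
  have e : ∀ u : (ι → Px D) ⊗[B] Q, ex0 (fun l => (J B Q l 0).restrictScalars B) u = u := fun u => by
    induction u using ind with
    | h0 => rw [map_zero]
    | ha a b h h' => rw [map_add, h, h']
    | hJ l μ n => rw [ex0_J, LinearMap.restrictScalars_apply, mon_J, add_zero, one_smul]
  rw [← e t, ← e t', ex0, LinearMap.sum_apply, LinearMap.sum_apply]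
  refine Finset.sum_congr rfl fun l _ => ?_
  rw [LinearMap.comp_apply, LinearMap.comp_apply, LinearMap.restrictScalars_apply,
    LinearMap.restrictScalars_apply, show Th B Q l t = Th B Q l t' from
      Finsupp.ext fun μ => by rw [Th_apply, Th_apply, h]]

/-- the two-sided action -/
def rho (f : Module.End B (D ⊗[B] Q)) : D ⊗[B] D →ₗ[B] Module.End B (D ⊗[B] Q) :=
  TensorProduct.lift (LinearMap.mk₂ B
    (fun a b => Algebra.lsmul B B (D ⊗[B] Q) a * f * Algebra.lsmul B B (D ⊗[B] Q) b)
    (fun _ _ _ => by rw [map_add, add_mul, add_mul])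
    (fun _ _ _ => by rw [map_smul, smul_mul_assoc, smul_mul_assoc])
    (fun _ _ _ => by rw [map_add, mul_add])
    (fun _ _ _ => by rw [map_smul, mul_smul_comm]))

theorem rho_tmul (f : Module.End B (D ⊗[B] Q)) (a b : D) (n : D ⊗[B] Q) :
    rho f (a ⊗ₜ b) n = a • f (b • n) := rfl

theorem rho_one (f : Module.End B (D ⊗[B] Q)) : rho f 1 = f :=
  LinearMap.ext fun n => by rw [Algebra.TensorProduct.one_def, rho_tmul, one_smul, one_smul]

theorem rho_zero (r : D ⊗[B] D) : rho (0 : Module.End B (D ⊗[B] Q)) r = 0 := by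
  induction r using TensorProduct.induction_on with
  | zero => rw [map_zero]
  | tmul a b => exact LinearMap.ext fun n => by rw [rho_tmul]; simp
  | add a b h h' => rw [map_add, h, h', add_zero]

theorem rho_add (f g : Module.End B (D ⊗[B] Q)) (r : D ⊗[B] D) :
    rho (f + g) r = rho f r + rho g r := by
  induction r using TensorProduct.induction_on with
  | zero => simp
  | tmul a b => exact LinearMap.ext fun n => by simp [rho_tmul]
  | add a b h h' => rw [map_add, map_add, map_add, h, h']; abel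

theorem rho_mul (f : Module.End B (D ⊗[B] Q)) (r s : D ⊗[B] D) :
    rho f (r * s) = rho (rho f r) s := by
  induction s using TensorProduct.induction_on with
  | zero => simp
  | add a b h h' => rw [mul_add, map_add, map_add, h, h']
  | tmul a b =>
    induction r using TensorProduct.induction_on with
    | zero => rw [zero_mul, map_zero, rho_zero]
    | add c e h h' => rw [add_mul, map_add, map_add, h, h', rho_add]
    | tmul c e =>
      refine LinearMap.ext fun n => ?_
      rw [Algebra.TensorProduct.tmul_mul_tmul, rho_tmul, rho_tmul, rho_tmul, smul_smul, smul_smul,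
        mul_comm a]

/-- one entry -/
def Psi (i : ι) (f : Module.End B (D ⊗[B] Q)) :
    Px (D ⊗[B] D) →ₗ[B] (D ⊗[B] Q →ₗ[B] (ι → Px D) ⊗[B] Q) :=
  Finsupp.lsum B (fun ν => LinearMap.llcomp B _ _ _ ((J B Q i ν).restrictScalars B) ∘ₗ rho f) ∘ₗ
    (basisMonomials (Fin 6) (D ⊗[B] D)).repr.toLinearMap.restrictScalars B

theorem Psi_mon (i : ι) (f : Module.End B (D ⊗[B] Q)) (ν : Mn) (r : D ⊗[B] D) (n : D ⊗[B] Q) :
    Psi i f (monomial ν r) n = J B Q i ν (rho f r n) := by
  have : (basisMonomials (Fin 6) (D ⊗[B] D)).repr (monomial ν r) = Finsupp.single ν r := rfl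
  rw [Psi, LinearMap.comp_apply, LinearMap.restrictScalars_apply, LinearEquiv.coe_coe, this,
    Finsupp.lsum_single]
  rfl

theorem K_Psi (i k : ι) (μ : Mn) (f : Module.End B (D ⊗[B] Q)) (y : Px (D ⊗[B] D))
    (n : D ⊗[B] Q) : K B Q i μ (Psi k f y n) = if k = i then rho f (coeff μ y) n else 0 := by
  induction y using MvPolynomial.induction_on' with
  | monomial ν r =>
    rw [Psi_mon, K_J, coeff_monomial]
    by_cases h : k = i <;> by_cases h' : ν = μ <;> simp [h, h']
  | add a b h h' =>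
    rw [map_add, LinearMap.add_apply, map_add, h, h', coeff_add, map_add]
    split_ifs <;> simp

theorem Psi_left (i : ι) (f : Module.End B (D ⊗[B] Q)) (a : Px D) (y : Px (D ⊗[B] D))
    (n : D ⊗[B] Q) : Psi i f (MvPolynomial.map (i0 B D) a * y) n = a • Psi i f y n := by
  induction a using MvPolynomial.induction_on' with
  | add a b h h' => rw [map_add, add_mul, map_add, LinearMap.add_apply, h, h', add_smul]
  | monomial μ c =>
    induction y using MvPolynomial.induction_on' with
    | add a b h h' =>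
      rw [mul_add, map_add, map_add, LinearMap.add_apply, LinearMap.add_apply, h, h', smul_add]
    | monomial ν r =>
      rw [map_monomial, monomial_mul, Psi_mon, Psi_mon, mon_J, mul_comm, rho_mul]
      exact congrArg _ ((rho_tmul _ c 1 n).trans (by rw [one_smul]))

theorem Psi_right (i : ι) (f : Module.End B (D ⊗[B] Q)) (μ : Mn) (c : D) (y : Px (D ⊗[B] D))
    (n : D ⊗[B] Q) : Psi i f (y * MvPolynomial.map (i1 B D) (monomial μ c)) n =
      (monomial μ 1 : Px D) • Psi i f y (c • n) := by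
  induction y using MvPolynomial.induction_on' with
  | add a b h h' =>
    rw [add_mul, map_add, map_add, LinearMap.add_apply, LinearMap.add_apply, h, h', smul_add]
  | monomial ν r =>
    rw [map_monomial, monomial_mul, Psi_mon, Psi_mon, mon_J, rho_mul, add_comm]
    exact congrArg _ (rho_tmul _ 1 c n)

/-- the action of a matrix -/
def act (f : Module.End B (D ⊗[B] Q)) (Y : Matrix ι ι (Px (D ⊗[B] D))) :
    (ι → Px D) ⊗[B] Q →ₗ[Px B] (ι → Px D) ⊗[B] Q := ex fun l => ∑ i, Psi i f (Y i l)

theorem act_J (f : Module.End B (D ⊗[B] Q)) (Y : Matrix ι ι (Px (D ⊗[B] D))) (l : ι)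
    (n : D ⊗[B] Q) : act f Y (J B Q l 0 n) = ∑ i, Psi i f (Y i l) n := by
  rw [act, ex_J, LinearMap.sum_apply]

theorem K_act (f : Module.End B (D ⊗[B] Q)) (Y : Matrix ι ι (Px (D ⊗[B] D))) (i l : ι) (μ : Mn)
    (n : D ⊗[B] Q) : K B Q i μ (act f Y (J B Q l 0 n)) = rho f (coeff μ (Y i l)) n := by
  rw [act_J, map_sum]
  simp only [K_Psi, Finset.sum_ite_eq', Finset.mem_univ, if_true]

theorem hom_ext' {F G : (ι → Px D) ⊗[B] Q →ₗ[Px B] (ι → Px D) ⊗[B] Q}
    (h : ∀ i l μ n, K B Q i μ (F (J B Q l 0 n)) = K B Q i μ (G (J B Q l 0 n))) : F = G :=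
  hom_ext fun l n => eq_of_K fun i μ => h i l μ n

theorem act_add (f : Module.End B (D ⊗[B] Q)) (Y Z : Matrix ι ι (Px (D ⊗[B] D))) :
    act f (Y + Z) = act f Y + act f Z := hom_ext' fun i l μ n => by
  rw [LinearMap.add_apply, map_add, K_act, K_act, K_act, Matrix.add_apply, coeff_add, map_add,
    LinearMap.add_apply]

theorem act_sub (f : Module.End B (D ⊗[B] Q)) (Y Z : Matrix ι ι (Px (D ⊗[B] D))) :
    act f (Y - Z) = act f Y - act f Z := hom_ext' fun i l μ n => by
  rw [LinearMap.sub_apply, map_sub, K_act, K_act, K_act, Matrix.sub_apply, coeff_sub, map_sub,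
    LinearMap.sub_apply]

theorem dQ_J (d : Matrix ι ι (Px D)) (l : ι) (ν : Mn) (n : D ⊗[B] Q) :
    dQ B d Q (J B Q l ν n) = ∑ k, d k l • J B Q k ν n := by
  induction n using TensorProduct.induction_on with
  | zero => simp
  | add a b h h' => simp only [map_add, h, h', smul_add, Finset.sum_add_distrib]
  | tmul c q =>
    simp only [J_tmul, smul_tmul', ← sum_tmul]
    refine congrArg (· ⊗ₜ[B] q) (funext fun k => ?_)
    simp [mulVec_single, Finset.sum_apply, Pi.single_apply, mul_comm]

theorem dQ_act (d : Matrix ι ι (Px D)) (f : Module.End B (D ⊗[B] Q))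
    (Y : Matrix ι ι (Px (D ⊗[B] D))) : dQ B d Q * act f Y = act f (mm (i0 B D) d * Y) := by
  refine hom_ext fun l n => ?_
  have e : ∀ i y, dQ B d Q (Psi i f y n) = ∑ k, d k i • Psi k f y n := fun i y => by
    induction y using MvPolynomial.induction_on' with
    | monomial ν r => simp only [Psi_mon, dQ_J]
    | add a b h h' =>
      simp only [map_add, LinearMap.add_apply, h, h', smul_add, Finset.sum_add_distrib]
  rw [Module.End.mul_apply, act_J, act_J, map_sum]
  simp only [e, Matrix.mul_apply, map_sum, LinearMap.sum_apply, mm, Matrix.map_apply, Psi_left]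
  exact Finset.sum_comm

theorem act_dQ (d : Matrix ι ι (Px D)) (f : Module.End B (D ⊗[B] Q))
    (Y : Matrix ι ι (Px (D ⊗[B] D))) : act f Y * dQ B d Q = act f (Y * mm (i1 B D) d) := by
  refine hom_ext fun l n => ?_
  have e : ∀ k (a : Px D), act f Y (a • J B Q k 0 n) =
      ∑ i, Psi i f (Y i k * MvPolynomial.map (i1 B D) a) n := fun k a => by
    induction a using MvPolynomial.induction_on' with
    | monomial μ c =>
      rw [mon_J, add_zero, J_eq, map_smul, act_J, monB, Finset.smul_sum]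
      simp only [Psi_right]
    | add a b h h' =>
      simp only [add_smul, map_add, h, h', mul_add, LinearMap.add_apply, Finset.sum_add_distrib]
  rw [Module.End.mul_apply, dQ_J, act_J, map_sum]
  simp only [e, Matrix.mul_apply, map_sum, LinearMap.sum_apply, mm, Matrix.map_apply]
  exact Finset.sum_comm

/-- the elementary matrices -/
def bs (R : Type) [CommRing R] (c : ι × ι × Mn) : Matrix ι ι (Px R) :=
  Matrix.single c.1 c.2.1 (monomial c.2.2 1)

theorem coeff_bs (R : Type) [CommRing R] (c : ι × ι × Mn) (i l : ι) (μ : Mn) :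
    coeff μ (bs R c i l) = if c = (i, l, μ) then 1 else 0 := by
  obtain ⟨a, b, ν⟩ := c
  rw [bs, Matrix.single_apply]
  by_cases h : a = i ∧ b = l
  · rw [if_pos h, coeff_monomial]
    simp [h]
  · rw [if_neg h, coeff_zero, if_neg fun e => h ⟨congrArg (·.1) e, congrArg (·.2.1) e⟩]

theorem expand {R : Type} [CommRing R] (Y : Matrix ι ι (Px R)) (S : Finset (ι × ι × Mn))
    (h : ∀ i l μ, coeff μ (Y i l) ≠ 0 → (i, l, μ) ∈ S) :
    Y = ∑ c ∈ S, coeff c.2.2 (Y c.1 c.2.1) • bs R c := by
  ext i l μ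
  simp only [Matrix.sum_apply, Matrix.smul_apply, coeff_sum, coeff_smul, coeff_bs, smul_eq_mul,
    mul_ite, mul_one, mul_zero, Finset.sum_ite_eq']
  split_ifs with e
  exacts [rfl, by_contra fun b => e (h _ _ _ b)]

/-- relations are preserved by linear maps on matrices -/
theorem rel {α : Type} (S : Finset α) (f : α → Module.End B (D ⊗[B] Q))
    (Y : α → Matrix ι ι (Px (D ⊗[B] D))) (h : ∑ b ∈ S, act (f b) (Y b) = 0)
    (s : Matrix ι ι (Px (D ⊗[B] D)) →ₗ[D ⊗[B] D] Matrix ι ι (Px (D ⊗[B] D))) :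
    ∑ b ∈ S, act (f b) (s (Y b)) = 0 := by
  classical
  let T : Finset (ι × ι × Mn) := Finset.univ ×ˢ Finset.univ ×ˢ
    S.biUnion fun b => Finset.univ.biUnion fun c : ι × ι => (Y b c.1 c.2).support
  have z : ∀ c : ι × ι × Mn, ∑ b ∈ S, rho (f b) (coeff c.2.2 (Y b c.1 c.2.1)) = 0 := fun c =>
    LinearMap.ext fun n => by
      have := congrArg (fun F => K B Q c.1 c.2.2 (F (J B Q c.2.1 0 n))) h
      simpa only [LinearMap.sum_apply, map_sum, K_act, LinearMap.zero_apply, map_zero] using this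
  have a : ∀ (r : D ⊗[B] D) (g : α → Module.End B (D ⊗[B] Q)),
      ∑ b ∈ S, rho (g b) r = rho (∑ b ∈ S, g b) r := fun r g =>
    (map_sum (AddMonoidHom.mk' (fun u => rho u r) fun u v => rho_add u v r) g S).symm
  refine hom_ext' fun i l μ n => ?_
  have e : ∀ b ∈ S, K B Q i μ (act (f b) (s (Y b)) (J B Q l 0 n)) =
      ∑ c ∈ T, rho (rho (f b) (coeff c.2.2 (Y b c.1 c.2.1))) (coeff μ (s (bs _ c) i l)) n := by
    intro b hb
    rw [K_act]
    conv_lhs => rw [expand (Y b) T fun i l μ e => by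
      simp only [T, Finset.mem_product, Finset.mem_univ, true_and, Finset.mem_biUnion]
      exact ⟨b, hb, (i, l), mem_support_iff.2 e⟩]
    simp only [map_sum, map_smul, Matrix.sum_apply, Matrix.smul_apply, coeff_sum, coeff_smul,
      smul_eq_mul, rho_mul, LinearMap.sum_apply]
  rw [LinearMap.sum_apply, map_sum, Finset.sum_congr rfl e, Finset.sum_comm, LinearMap.zero_apply,
    map_zero]
  refine Finset.sum_eq_zero fun c _ => ?_
  rw [← LinearMap.sum_apply, a, z, rho_zero, LinearMap.zero_apply]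

end Vale.Agent.P287T.Sx.Ex
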