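import Vale.Agent.P287T.Sx.Cv
import Mathlib.Algebra.Module.LinearMap.End
import Mathlib.Algebra.Module.Submodule.LinearMap

/-!
# The perturbation lemma
-/

set_option linter.all false

namespace Vale.Agent.P287T.Sx

variable {L M E : Type} [CommRing L] [AddCommGroup M] [Module L M] [AddCommGroup E] [Module L E]

/-- the data of the perturbation lemma -/
structure Hpl (G : ℤ → ℤ → AddSubgroup (Module.End L M)) (w : L) (a0 a1 b : Module.End L M)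
    (d : E →ₗ[L] E) (ε : M →ₗ[L] E) (F : ℤ → AddSubgroup M) (F' : ℤ → AddSubgroup E) where
  N : ℕ
  s : Module.End L M
  t : Module.End L M
  ρ : E →ₗ[L] M
  H0 : E →ₗ[L] E
  big : Big G N
  one : 1 ∈ G 0 0
  h0 : a0 ∈ G 0 1
  h1 : a1 ∈ G 1 0
  hb : b ∈ Fl G 1 2
  hs : s ∈ G (-1) 0
  ht : t ∈ G 0 (-1)
  sq : ∀ v, (a0 + a1 + b) ((a0 + a1 + b) v) = w • v
  dd : ∀ v, d (d v) = w • v
  s0 : a0 * s + s * a0 = 0
  s1 : a1 * s + s * a1 = 1 - ρ ∘ₗ ε + (a0 * t + t * a0)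
  εd : ∀ v, ε (a0 v) = d (ε v)
  ρd : ∀ v, ρ (d v) = a0 (ρ v)
  ερ : ∀ v, ε (ρ v) = v + (d (H0 v) + H0 (d v))
  kill : ∀ r φ, φ ∈ Fl G r 1 → ∀ v, ε (φ v) = 0
  fl : ∀ r p φ, φ ∈ Fl G r p → ∀ m, ∀ v ∈ F m, φ v ∈ F (m + r)
  wF : ∀ m v, w • v ∈ F m
  ρF : ∀ m, ∀ v ∈ F' m, ρ v ∈ F m
  εF : ∀ m, ∀ v ∈ F m, ε v ∈ F' m
  HF : ∀ m, ∀ v ∈ F' (m + 1), H0 v ∈ F' m

namespace Hpl

variable {G : ℤ → ℤ → AddSubgroup (Module.End L M)} {w : L} {a0 a1 b : Module.End L M}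
  {d : E →ₗ[L] E} {ε : M →ₗ[L] E} {F : ℤ → AddSubgroup M} {F' : ℤ → AddSubgroup E}
  (h : Hpl G w a0 a1 b d ε F F')

include h

theorem ab : a1 + b ∈ Fl G 1 1 :=
  add_mem (mem_Fl h.h1 le_rfl (by simp)) (Fl_mono (by omega) h.hb)

theorem st : h.s - h.t ∈ Fl G (-1) (-1) :=
  sub_mem (mem_Fl h.hs le_rfl (by simp)) (mem_Fl h.ht (by omega) (by simp))

theorem εD (v : M) : ε ((a0 + a1 + b) v) = d (ε v) := by
  rw [add_assoc, LinearMap.add_apply, map_add, h.εd, h.kill _ _ h.ab, add_zero]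

theorem key : ∃ n u : Module.End L M, n ∈ Fl G 0 1 ∧ u ∈ Fl G 0 0 ∧ (1 - n) * u = 1 ∧
    (a0 + a1 + b) * (h.s - h.t) + (h.s - h.t) * (a0 + a1 + b) = 1 - h.ρ ∘ₗ ε - n ∧
    ∀ v, ε (u v) = 0 → (a0 + a1 + b) (u v) = u ((a0 + a1 + b) v) := by
  have hG := h.big
  have s' : h.s ∈ Fl G (-1) (-1) := mem_Fl h.hs le_rfl (by simp)
  have t' : h.t ∈ Fl G (-1) 0 := mem_Fl h.ht le_rfl (by simp)
  obtain ⟨n, hn⟩ : ∃ n, n = (a1 + b) * h.t + h.t * (a1 + b) - (b * h.s + h.s * b) := ⟨_, rfl⟩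
  have n1 : n ∈ Fl G 0 1 := by
    have q1 := hG.fl_mul h.ab t'
    have q2 := hG.fl_mul t' h.ab
    have q3 := hG.fl_mul h.hb s'
    have q4 := hG.fl_mul s' h.hb
    norm_num at q1 q2 q3 q4
    exact hn ▸ sub_mem (add_mem q1 q2) (add_mem q3 q4)
  have th : (a0 + a1 + b) * (h.s - h.t) + (h.s - h.t) * (a0 + a1 + b) = 1 - h.ρ ∘ₗ ε - n := by
    have : (a0 + a1 + b) * (h.s - h.t) + (h.s - h.t) * (a0 + a1 + b) =
      (a0 * h.s + h.s * a0) + (a1 * h.s + h.s * a1) - (a0 * h.t + h.t * a0) -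
        ((a1 + b) * h.t + h.t * (a1 + b) - (b * h.s + h.s * b)) := by noncomm_ring
    rw [hn, this, h.s0, h.s1]
    abel
  have np : ∀ j : ℕ, n ^ j ∈ Fl G 0 j := fun j => by
    induction j with
    | zero => rw [pow_zero]; exact mem_Fl h.one le_rfl rfl
    | succ j ih => rw [pow_succ]; exact_mod_cast hG.fl_mul ih n1
  obtain ⟨u, hu⟩ : ∃ u, u = ∑ j ∈ Finset.range (h.N + 1), n ^ j := ⟨_, rfl⟩
  have z : n ^ (h.N + 1) = 0 := hG.fl_van (np (h.N + 1)) (by push_cast; omega)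
  have u1 : (1 - n) * u = 1 := by rw [hu, mul_neg_geom_sum, z, sub_zero]
  have u2 : u * (1 - n) = 1 := by rw [hu, geom_sum_mul_neg, z, sub_zero]
  refine ⟨n, u, n1, hu ▸ sum_mem fun j _ => Fl_mono (by omega) (np j), u1, th, fun v hv => ?_⟩
  have e1 : ∀ x, x - h.ρ (ε x) - n x =
      (a0 + a1 + b) ((h.s - h.t) x) + (h.s - h.t) ((a0 + a1 + b) x) := fun x =>
    (LinearMap.congr_fun th x).symm
  have e2 := e1 ((a0 + a1 + b) (u v))
  have e3 := congrArg (a0 + a1 + b) (e1 (u v))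
  rw [h.εD, hv, map_zero, map_zero, sub_zero, h.sq, map_smul] at e2
  rw [hv, map_zero, sub_zero, map_add, h.sq, add_comm (w • _), ← e2] at e3
  have e4 : u v - n (u v) = v := LinearMap.congr_fun u1 v
  rw [e4] at e3
  rw [e3]
  exact (LinearMap.congr_fun u2 _).symm

theorem inj (m : ℤ) (z : M) (hz : (a0 + a1 + b) z ∈ F (m + 1)) (c : E) (hc : ε z - d c ∈ F' m) :
    ∃ y, z - (a0 + a1 + b) y ∈ F m := by
  obtain ⟨n, u, n1, u0, u1, th, cu⟩ := h.key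
  have D1 : a0 + a1 + b ∈ Fl G 1 0 := by
    rw [add_assoc]
    exact add_mem (mem_Fl h.h0 le_rfl (by simp)) (Fl_mono (by omega) h.ab)
  have e1 : ∀ x, x - h.ρ (ε x) - n x =
      (a0 + a1 + b) ((h.s - h.t) x) + (h.s - h.t) ((a0 + a1 + b) x) := fun x =>
    (LinearMap.congr_fun th x).symm
  have dn : ∀ x ∈ F (m + 1), (h.s - h.t) x ∈ F m := fun x hx => by
    simpa using h.fl _ _ _ h.st _ _ hx
  obtain ⟨v, hv⟩ : ∃ v, v = n z - (a1 + b) (h.ρ c) := ⟨_, rfl⟩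
  obtain ⟨f, hf⟩ : ∃ f, f = h.ρ (ε z - d c) + (h.s - h.t) ((a0 + a1 + b) z) := ⟨_, rfl⟩
  have f1 : f ∈ F m := hf ▸ add_mem (h.ρF _ _ hc) (dn _ hz)
  have e2 : z - (a0 + a1 + b) ((h.s - h.t) z + h.ρ c) = v + f := by
    rw [map_add, eq_sub_of_add_eq (e1 z).symm, hv, hf, map_sub h.ρ, h.ρd]
    simp only [LinearMap.add_apply]
    abel
  have v0 : ε (u v) = 0 := by
    rw [hv, map_sub, map_sub]
    exact sub_eq_zero.2 ((h.kill _ (u * n) (by simpa using h.big.fl_mul u0 n1) z).trans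
      (h.kill _ (u * (a1 + b)) (by simpa using h.big.fl_mul u0 h.ab) _).symm)
  have v1 : (a0 + a1 + b) v ∈ F (m + 1) := by
    rw [← add_sub_cancel_right v f, ← e2, map_sub, map_sub, h.sq]
    exact sub_mem (sub_mem hz (h.wF _ _)) (h.fl _ _ _ D1 _ _ f1)
  have e3 := e1 (u v)
  have e4 : u v - n (u v) = v := LinearMap.congr_fun u1 v
  rw [v0, map_zero, sub_zero, e4, cu v v0] at e3
  refine ⟨(h.s - h.t) z + h.ρ c + (h.s - h.t) (u v), ?_⟩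
  rw [map_add, ← sub_sub, e2, eq_sub_of_add_eq e3.symm, add_sub_sub_cancel]
  exact add_mem f1 (dn _ (by simpa using h.fl _ _ _ u0 _ _ v1))

theorem sur (m : ℤ) (x : E) (hx : d x ∈ F' (m + 1)) :
    ∃ z c, (a0 + a1 + b) z ∈ F (m + 1) ∧ x - ε z - d c ∈ F' m := by
  obtain ⟨n, u, n1, u0, u1, th, cu⟩ := h.key
  have hG := h.big
  have e1 : ∀ x, x - h.ρ (ε x) - n x =
      (a0 + a1 + b) ((h.s - h.t) x) + (h.s - h.t) ((a0 + a1 + b) x) := fun x =>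
    (LinearMap.congr_fun th x).symm
  have y1 : ∀ v, (a0 + a1 + b) (h.ρ v) = h.ρ (d v) + (a1 + b) (h.ρ v) := fun v => by
    rw [h.ρd, add_assoc, LinearMap.add_apply]
  have y2 : (a0 + a1 + b) ((a1 + b) (h.ρ x)) = -(a1 + b) (h.ρ (d x)) := by
    have := h.sq (h.ρ x)
    rw [y1, map_add, y1, h.dd, map_smul, add_assoc, add_eq_left] at this
    exact eq_neg_of_add_eq_zero_right this
  have v0 : ε (u ((a1 + b) (h.ρ x))) = 0 :=
    h.kill _ (u * (a1 + b)) (by simpa using hG.fl_mul u0 h.ab) _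
  have e3 := e1 (u ((a1 + b) (h.ρ x)))
  have e4 : ∀ v, u v - n (u v) = v := LinearMap.congr_fun u1
  rw [v0, map_zero, sub_zero, e4, cu _ v0, y2] at e3
  have q : (h.s - h.t) * (u * (a1 + b)) ∈ Fl G 0 0 := by
    simpa using hG.fl_mul h.st (hG.fl_mul u0 h.ab)
  have s' : h.s ∈ Fl G (-1) (-1) := mem_Fl h.hs le_rfl (by simp)
  have t' : h.t ∈ Fl G (-1) 0 := mem_Fl h.ht le_rfl (by simp)
  have k1 : ε ((h.s - h.t) (u ((a1 + b) (h.ρ x)))) = ε (h.s (a1 (h.ρ x))) := by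
    have q1 : ε (h.t (u ((a1 + b) (h.ρ x)))) = 0 :=
      h.kill _ (h.t * (u * (a1 + b))) (by simpa using hG.fl_mul t' (hG.fl_mul u0 h.ab)) _
    have q2 : ε (h.s (n (u ((a1 + b) (h.ρ x))))) = 0 :=
      h.kill _ (h.s * (n * (u * (a1 + b))))
        (by simpa using hG.fl_mul s' (hG.fl_mul n1 (hG.fl_mul u0 h.ab))) _
    have q3 : ε (h.s (b (h.ρ x))) = 0 := h.kill _ (h.s * b) (by simpa using hG.fl_mul s' h.hb) _
    rw [LinearMap.sub_apply, map_sub, q1, sub_zero, eq_add_of_sub_eq (e4 _), map_add, map_add, q2,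
      add_zero, LinearMap.add_apply, map_add, map_add, q3, add_zero]
  have k2 := congrArg ε (LinearMap.congr_fun h.s1 (h.ρ x))
  simp only [LinearMap.add_apply, LinearMap.sub_apply, Module.End.mul_apply, Module.End.one_apply,
    LinearMap.comp_apply, map_add, map_sub, h.εd, ← h.ρd,
    h.kill _ _ (mem_Fl h.h1 le_rfl rfl), zero_add] at k2
  have c1 : ε (h.ρ (d (h.H0 x))) = d (ε (h.ρ (h.H0 x))) := by rw [h.ρd, h.εd]
  refine ⟨h.ρ x - (h.s - h.t) (u ((a1 + b) (h.ρ x))),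
    ε (h.t (h.ρ x)) - h.H0 x - ε (h.ρ (h.H0 x)), ?_, ?_⟩
  · rw [map_sub, y1, eq_sub_of_add_eq e3.symm, add_comm (h.ρ _), add_sub_sub_cancel, map_neg,
      map_neg]
    exact add_mem (h.ρF _ _ hx) (neg_mem (by simpa using h.fl _ _ _ q _ _ (h.ρF _ _ hx)))
  · have : x - ε (h.ρ x - (h.s - h.t) (u ((a1 + b) (h.ρ x)))) -
        d (ε (h.t (h.ρ x)) - h.H0 x - ε (h.ρ (h.H0 x))) =
        ε (h.t (h.ρ (d x))) - h.H0 (d x) - ε (h.ρ (h.H0 (d x))) := by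
      rw [map_sub, k1, k2, h.ερ x]
      simp only [map_add, map_sub, c1]
      rw [h.ερ x]
      abel
    rw [this]
    exact sub_mem (sub_mem (h.εF _ _ (by simpa using h.fl _ _ _ t' _ _ (h.ρF _ _ hx)))
      (h.HF _ _ hx)) (h.εF _ _ (h.ρF _ _ (h.HF _ _ hx)))

end Hpl

end Vale.Agent.P287T.Sx
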