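import Vale.Agent.P287T.Sx.Wn
import Vale.Agent.P287T.Sx.Hp
import Mathlib.RingTheory.IsTensorProduct

/-!
# Bigraded rings of endomorphisms and base change
-/

set_option linter.all false

open TensorProduct

noncomputable section

namespace Vale.Agent.P287T.Sx

section

variable {V V' : Type} [AddCommGroup V] [Module ℂ V] [AddCommGroup V'] [Module ℂ V']
  {e : Eu V} {e' : Eu V'} {γ : ℤ × ℤ}

theorem Deg.pr' {f : V →+ V'} (h : Deg e e' γ f) (δ : ℤ × ℤ) (v : V) :
    e'.pr (γ + δ) (f v) = f (e.pr δ v) := by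
  induction v using e.ind with
  | h0 => simp
  | hh η v hv =>
    by_cases q : δ = η
    · rw [q, e.pr_self hv, e'.pr_self (h _ _ hv)]
    · rw [e.pr_ne hv q, e'.pr_ne (h _ _ hv) fun r => q (add_left_cancel r), map_zero]
  | ha a b ha hb => simp only [map_add, ha, hb]

theorem Deg.symm {f : V ≃+ V'} (h : Deg e e' 0 f) : Deg e' e 0 f.symm := fun δ v hv => by
  have := Deg.pr' (f := f.toAddMonoidHom) h δ (f.symm v)
  rw [zero_add] at this ⊢
  have q : f.toAddMonoidHom (f.symm v) = v := f.apply_symm_apply v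
  rw [q, e'.pr_self hv] at this
  rw [this, AddEquiv.toAddMonoidHom_eq_coe, AddMonoidHom.coe_coe, f.symm_apply_apply]
  exact e.pr_mem _ _

theorem Par.deg {P : V → V} (h : Par e P) : Deg e e 0 P := fun δ v hv => by
  rw [h _ _ hv, zero_add]
  exact zsmul_mem hv _

variable {L : Type} [CommRing L] [Module L V] [Module L V']

/-- endomorphisms of Čech degree `k` and cohomological degree `m` -/
def GG (L : Type) [CommRing L] [Module L V] (e1 e2 : Eu V) (k m : ℤ) :
    AddSubgroup (Module.End L V) where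
  carrier := {φ | Deg e1 e1 (3 * m, 0) φ ∧ Deg e2 e2 (3 * (m + k), 0) φ}
  zero_mem' := ⟨Deg.zero, Deg.zero⟩
  add_mem' := fun h h' => ⟨h.1.add h'.1, h.2.add h'.2⟩
  neg_mem' := fun h => ⟨h.1.neg, h.2.neg⟩

variable {e1 e2 : Eu V}

theorem GG.one : (1 : Module.End L V) ∈ GG L e1 e2 0 0 := ⟨Deg.id e1, Deg.id e2⟩

theorem GG.big {c c' : ℤ} (h : Gen L e1 c) (h' : Low e1 c') : Big (GG L e1 e2) (c - c').toNat :=
  ⟨fun hx hy => ⟨hx.1.comp hy.1 (Prod.ext (by simp only [Prod.fst_add]; ring) rfl),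
    hx.2.comp hy.2 (Prod.ext (by simp only [Prod.fst_add]; ring) rfl)⟩,
    fun hx hm => h.van h' hx.1 (by simp only; omega)⟩

theorem GG.fl {r p : ℤ} {φ : Module.End L V} (h : φ ∈ Fl (GG L e1 e2) r p) :
    Deg e2 e2 (3 * r, 0) φ :=
  (Fl_ind (S := GG L e2 e2 0 r) (fun k _ φ hφ => by
    have := hφ.2
    rw [sub_add_cancel] at this
    exact ⟨this, by rwa [add_zero]⟩) h).1

/-- the number operator -/
structure Nb (e1 e2 : Eu V) (N : V →ₗ[L] V) : Prop where
  eq : ∀ v, e2.ε v = e1.ε v + (3 : ℤ) • N v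
  sp : ∀ v, v ∈ Submodule.span L {v | ∃ n : ℕ, N v = n • v}

theorem Nb.kill [Algebra ℂ L] [IsScalarTower ℂ L V] [IsScalarTower ℂ L V'] {N : V →ₗ[L] V}
    (h : Nb e1 e2 N) {ε : V →ₗ[L] V'} (hε : ∀ v, ε (N v) = 0) (r : ℤ) (φ : Module.End L V)
    (hφ : φ ∈ Fl (GG L e1 e2) r 1) (v : V) : ε (φ v) = 0 := by
  refine LinearMap.congr_fun (Fl_ind (S := (LinearMap.ker (LinearMap.llcomp L V V V' ε)).toAddSubgroup)
    (fun k hk φ hφ => LinearMap.ext fun v => ?_) hφ) v
  refine (Submodule.span_le (p := LinearMap.ker (ε ∘ₗ φ))).2 ?_ (h.sp v)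
  rintro v ⟨n, hv⟩
  have h1 := (deg_iff (φ.restrictScalars ℂ)).1 hφ.1 v
  have h2 := (deg_iff (φ.restrictScalars ℂ)).1 hφ.2 v
  simp only [LinearMap.restrictScalars_apply] at h1 h2
  rw [h.eq, h.eq, h1, hv, map_add, add_assoc, add_assoc, add_right_inj] at h2
  have h3 := congrArg ε h2
  simp only [map_add, map_zsmul, map_nsmul, hε, smul_zero, add_zero,
    LinearMap.map_smul_of_tower] at h3
  have h4 : ((3 * (n + k) : ℤ) : ℂ) • ε (φ v) = 0 := by
    have : ((3 * (n + k) : ℤ) : ℂ) = 3 * n + ev (3 * (r - k + k), 0) - ev (3 * (r - k), 0) := by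
      simp only [ev]; push_cast; ring
    rw [this, sub_smul, add_smul, h3, mul_smul, Nat.cast_smul_eq_nsmul, sub_eq_zero]
    exact congrArg (· + _) (Int.cast_smul_eq_zsmul ℂ 3 _)
  exact (smul_eq_zero.1 h4).resolve_left (Int.cast_ne_zero.2 (by omega))

end

variable {B : Type} [CommRing B] [Algebra ℂ B] {a : Eu B}
  {V X : Type} [AddCommGroup V] [Module ℂ V] [Module B V] [IsScalarTower ℂ B V]
  [AddCommGroup X] [Module ℂ X] [Module B X] [IsScalarTower ℂ B X] {eV : Eu V} {f1 f2 : Eu X}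
  (hV : Lb a eV) (h1 : Lb a f1) (h2 : Lb a f2)
  {L : Type} [CommRing L] [Algebra B L] [Module L V] [IsScalarTower B L V]

theorem Nb.ten {N : X →ₗ[B] X} (h : Nb f1 f2 N) :
    Nb (Eu.ten hV h1) (Eu.ten hV h2) (lT L V N) where
  eq z := by
    induction z using TensorProduct.induction_on with
    | zero => simp
    | tmul v x =>
      rw [Eu.ten_tmul, Eu.ten_tmul, h.eq, tmul_add, tmul_smul, add_assoc]
      rfl
    | add x y hx hy => simp only [map_add, hx, hy, smul_add]; abel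
  sp z := by
    induction z using TensorProduct.induction_on with
    | zero => exact zero_mem _
    | tmul v x =>
      induction h.sp x using Submodule.span_induction with
      | mem x hx =>
        obtain ⟨n, hx⟩ := hx
        exact Submodule.subset_span ⟨n, by rw [AlgebraTensorModule.lTensor_tmul, hx, tmul_smul]⟩
      | zero => rw [tmul_zero]; exact zero_mem _
      | add a b _ _ ha hb => rw [tmul_add]; exact add_mem ha hb
      | smul r x _ ih => rw [tmul_smul]; exact Submodule.smul_of_tower_mem _ _ ih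
    | add x y hx hy => exact add_mem hx hy

theorem GG.lT {k m : ℤ} {φ : Module.End B X} (h : φ ∈ GG B f1 f2 k m) :
    lT L V φ ∈ GG L (Eu.ten hV h1) (Eu.ten hV h2) k m :=
  ⟨deg_lT hV h1 h1 h.1, deg_lT hV h2 h2 h.2⟩

theorem GG.fl_lT {r p : ℤ} {φ : Module.End B X} (h : φ ∈ Fl (GG B f1 f2) r p) :
    Sx.lT L V φ ∈ Fl (GG L (Eu.ten hV h1) (Eu.ten hV h2)) r p :=
  Fl_ind (S := (Fl (GG L (Eu.ten hV h1) (Eu.ten hV h2)) r p).comap
    (AlgebraTensorModule.lTensor L V : (X →ₗ[B] X) →ₗ[B] _).toAddMonoidHom)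
    (fun k hk φ hφ => mem_Fl (GG.lT hV h1 h2 hφ) hk (by ring)) h

section

variable (B D L A E X : Type) [CommRing B] [CommRing D] [CommRing L] [CommRing A] [Algebra B D]
  [Algebra B L] [Algebra B A] [Algebra D A] [Algebra L A] [IsScalarTower B D A]
  [IsScalarTower B L A] [Algebra.IsPushout B D L A] [AddCommGroup E] [Module B E] [Module L E]
  [IsScalarTower B L E] [AddCommGroup X] [Module B X]

/-- `e ⊗ u ⊗ x ↦ u ⊗ e ⊗ x` -/
def J0 : E ⊗[B] (D ⊗[B] X) ≃ₗ[B] A ⊗[L] (E ⊗[B] X) :=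
  TensorProduct.leftComm B E D X ≪≫ₗ (Algebra.IsPushout.cancelBaseChangeAux B D L A _).symm

theorem J0_tmul (e : E) (u : D) (x : X) :
    J0 B D L A E X (e ⊗ₜ (u ⊗ₜ x)) = algebraMap D A u ⊗ₜ (e ⊗ₜ x) := by simp [J0]

/-- the base change isomorphism -/
def Jb : E ⊗[B] (D ⊗[B] X) ≃ₗ[L] A ⊗[L] (E ⊗[B] X) :=
  AddEquiv.toLinearEquiv (J0 B D L A E X).toAddEquiv fun l z => by
    show J0 B D L A E X (l • z) = l • J0 B D L A E X z
    induction z using TensorProduct.induction_on with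
    | zero => simp
    | tmul e y =>
      induction y using TensorProduct.induction_on with
      | zero => simp
      | tmul u x => rw [smul_tmul', J0_tmul, J0_tmul, ← smul_tmul', tmul_smul]
      | add a b ha hb => simp only [tmul_add, smul_add, map_add, ha, hb]
    | add a b ha hb => simp only [smul_add, map_add, ha, hb]

variable {B D L A E X}

theorem Jb_tmul (e : E) (u : D) (x : X) :
    Jb B D L A E X (e ⊗ₜ (u ⊗ₜ x)) = algebraMap D A u ⊗ₜ (e ⊗ₜ x) := J0_tmul B D L A E X e u x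

theorem Jb_rT (φ : E →ₗ[L] E) (z : E ⊗[B] (D ⊗[B] X)) :
    Jb B D L A E X (rT B _ φ z) = lT L A (rT B X φ) (Jb B D L A E X z) :=
  LinearMap.congr_fun (ext3 (f := (Jb B D L A E X).toLinearMap ∘ₗ rT B _ φ)
    (g := lT L A (rT B X φ) ∘ₗ (Jb B D L A E X).toLinearMap) fun e y x => by simp [Jb_tmul]) z

variable [Module D E] [IsScalarTower B D E] [SMulCommClass D L E]

theorem Jb_del {d : E →ₗ[L] E} (c : Cmd B D d) {π : D ⊗[B] X →ₗ[B] X}
    {π' : D ⊗[B] (D ⊗[B] X) →ₗ[B] D ⊗[B] X}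
    (h : ∀ (u a : D) q, π' (u ⊗ₜ (a ⊗ₜ q)) = a ⊗ₜ π (u ⊗ₜ q)) (z : E ⊗[B] (D ⊗[B] X)) :
    Jb B D L A E X (c.del π' z) = lT L A (c.del π) (Jb B D L A E X z) :=
  LinearMap.congr_fun (ext3 (f := (Jb B D L A E X).toLinearMap ∘ₗ c.del π')
    (g := lT L A (c.del π) ∘ₗ (Jb B D L A E X).toLinearMap) fun e y x => by
      simp only [LinearMap.comp_apply, LinearEquiv.coe_coe, Jb_tmul,
        AlgebraTensorModule.lTensor_tmul, Cmd.del, ex_tmul, lT_lT]
      induction c.ρ e using TensorProduct.induction_on with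
      | zero => simp
      | tmul a b => simp [h, Jb_tmul]
      | add a b ha hb => simp only [map_add, tmul_add, ha, hb]) z

end

end Vale.Agent.P287T.Sx
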