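import Vale.Agent.P287T.Sx.R4
import Vale.Agent.P287T.Sx.St
import Mathlib.RingTheory.Polynomial.Basic

/-!
# P287 phase 2, block STRICT (c): the resolution over `B[x] / W`
-/

set_option linter.unusedSectionVars false

open TensorProduct MvPolynomial Matrix

noncomputable section

namespace Vale.Agent.P287T.Sx

attribute [local instance] MvPolynomial.algebraMvPolynomial

section eu

variable {Θ V : Type} [CommRing Θ] [Algebra ℂ Θ] [AddCommGroup V] [Module ℂ V] [Module Θ V]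
  [IsScalarTower ℂ Θ V]

/-- the projectors of a bigrading -/
def Eu.pa (e : Eu V) (g : ℤ × ℤ) : V →+ V := (e.pr g).toAddMonoidHom

theorem Eu.of_pa {e : Eu V} {g g' : ℤ × ℤ} {v : V} (h : e.pa g v = v) (hg : g = g') :
    v ∈ e.H g' := by
  rw [← hg, ← h]
  exact e.pr_mem g v

theorem Eu.to_pa {e : Eu V} {g g' : ℤ × ℤ} {v : V} (h : v ∈ e.H g) (hg : g = g') :
    e.pa g' v = v := e.pr_self (hg ▸ h)

theorem Lb.pa_smul {a : Eu Θ} {e : Eu V} (h : Lb a e) (g k : ℤ × ℤ) (r : Θ) (v : V) :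
    e.pa g (r • e.pa k v) = a.pa (g - k) r • e.pa k v := by
  have h1 : Deg a e k ((LinearMap.toSpanSingleton Θ V (e.pr k v)).restrictScalars ℂ) :=
    fun δ r hr => add_comm δ k ▸ h.smul hr (e.pr_mem k v)
  have := h1.pr (g - k) r
  rwa [add_sub_cancel] at this

theorem Lb.gr {e : Eu Θ} (h : Lb e e) : GR e.pa :=
  ⟨e.pr_self h.one, fun _ hg => e.pr_ne h.one hg, fun a => ⟨_, e.sum_pr a⟩, h.pa_smul⟩

/-- the shifted graded module -/
def Lb.gd {a : Eu Θ} {e : Eu V} (h : Lb a e) (s : ℤ × ℤ) : Gd a.pa V where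
  pr g := e.pa (g - s)
  sum v := by
    classical
    refine ⟨(e.dec v).support.image (· + s), ?_⟩
    rw [Finset.sum_image fun a _ b _ h => add_right_cancel h]
    simp only [add_sub_cancel_right]
    exact e.sum_pr v
  hom g k r v := by rw [h.pa_smul, sub_sub_sub_cancel_right]

end eu

theorem GR.dvd {G Λ : Type} [AddCommGroup G] [CommRing Λ] {p : G → Λ →+ Λ} (hp : GR p) {h : G}
    {w : Λ} (hw : p h w = w) (g : G) {a : Λ} (ha : w ∣ a) : w ∣ p g a := by
  obtain ⟨b, rfl⟩ := ha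
  have := hp.mul g h b w
  rw [hw] at this
  rw [mul_comm, this]
  exact dvd_mul_left _ _

theorem wx_weight (μ : Fin 6 →₀ ℕ) : Finsupp.weight wx μ = (2 * (μ.degree : ℤ), 0) := by
  rw [Finsupp.weight_eq_sum, Finsupp.degree_eq_sum]
  simp only [wx, ← Finset.sum_smul]
  ext <;> simp [mul_comm]

theorem r5_sum {ι R : Type} [Fintype ι] [AddCommMonoid R] {P : ι → Prop} [DecidablePred P]
    (f : ι → R) (h : ∀ l, f l ≠ 0 → P l) : ∑ l : {l // P l}, f l = ∑ l, f l := by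
  rw [← Finset.sum_subtype (Finset.univ.filter P) (by simp), Finset.sum_filter_of_ne fun l _ => h l]

theorem cg_of {R S : Type} [CommRing R] [CommRing S] {f : R →+* S} {w : R}
    (h : ∀ a, f a = 0 ↔ w ∣ a) {ι κ : Type} {a b : Matrix κ ι R} (e : a.map f = b.map f) :
    Cg w a b := fun i l => (h _).1 (by
      rw [map_sub]
      exact sub_eq_zero.2 (congrFun (congrFun e i) l))

variable {B D : Type} [CommRing B] [Algebra ℂ B] [CommRing D] [Algebra ℂ D] [Algebra B D]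
  [IsScalarTower ℂ B D] {ι : Type} [Fintype ι] [DecidableEq ι] {Γ : Gr B D} {W : Px ℂ} {p : ι → ℤ}
  {d : Matrix ι ι (Px D)}

theorem MX.mem {κ : Type} {q : κ → ℤ} {j : ℤ} {g : Matrix κ ι (Px D)} (h : MX (Γ.eD.H 0) p q j g)
    (i : κ) (l : ι) : g i l ∈ Γ.eX.H (j + p l - q i, 0) := by
  refine Eu.mem_mv.2 fun μ => ?_
  by_cases h0 : coeff μ (g i l) = 0
  · rw [h0]
    exact Submodule.zero_mem _
  · rw [wx_weight, (h i l μ).2 h0, sub_self]
    exact (h i l μ).1

theorem MX.le {κ : Type} {q : κ → ℤ} {j : ℤ} {g : Matrix κ ι (Px D)} {D₀ : Submodule ℂ D}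
    (h : MX D₀ p q j g) {i : κ} {l : ι} (h0 : g i l ≠ 0) : q i ≤ j + p l := by
  obtain ⟨μ, hμ⟩ := ne_zero_iff.1 h0
  have := (h i l μ).2 hμ
  omega

theorem w_mem {Θ : Type} [CommRing Θ] [Algebra ℂ Θ] {e : Eu Θ} (h : Lb e e)
    (hW : W.IsWeightedHomogeneous (fun _ => (2 : ℤ)) 6) :
    MvPolynomial.map (algebraMap ℂ Θ) W ∈ (e.mv wx).H (6, 0) := by
  refine Eu.mem_mv.2 fun μ => ?_
  rw [coeff_map]
  by_cases h0 : coeff μ W = 0
  · rw [h0, map_zero]
    exact Submodule.zero_mem _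
  · have := hW h0
    rw [Finsupp.weight_eq_sum, ← Finset.sum_smul, ← Finsupp.degree_eq_sum, nsmul_eq_mul,
      mul_comm] at this
    rw [wx_weight, this, sub_self, Algebra.algebraMap_eq_smul_one]
    exact Submodule.smul_mem _ _ h.one

/-- the generators of `E` which survive at the place `r` -/
abbrev Kp (p : ι → ℤ) (m : ℤ) (r : ℕ) : Type := {i // 3 * (m - r) ≤ p i}

/-- the truncated periodic complex -/
def eK (p : ι → ℤ) (m : ℤ) (d : Matrix ι ι (Px D)) (r : ℕ) :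
    Matrix (Kp p m r) (Kp p m (r + 1)) (Px D) := d.submatrix Subtype.val Subtype.val

theorem eK_mulVec (h : Fm Γ W p d) (m : ℤ) (r : ℕ) (v : ι → Px D) (i : Kp p m r) :
    (eK p m d r *ᵥ fun l => v l.1) i = (d *ᵥ v) i.1 :=
  r5_sum (fun l => d i.1 l * v l) fun l hl => by
    have h1 := h.dg.le (left_ne_zero_of_mul hl)
    have h2 := i.2
    push_cast
    omega

theorem exists_outL [Module.Flat B D] [IsNoetherianRing D] (h : Fm Γ W p d) (Q : Qi Γ W p d)
    (m : ℤ) (hm : ∀ i, p i < 3 * m) :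
    ∃ (Λ Λ' : Type) (_ : CommRing Λ) (_ : CommRing Λ') (f : Px B →+* Λ) (f' : Px D →+* Λ'),
      (∀ a, f a = 0 ↔ MvPolynomial.map (algebraMap ℂ B) W ∣ a) ∧
      (∀ a, f' a = 0 ↔ MvPolynomial.map (algebraMap ℂ D) W ∣ a) ∧
      Nonempty (OutL Γ.eL.pa Γ.eX.pa f f' (κ := Kp p m)
        (fun r i => (p i.1 + 3 * r, 0)) (eK p m d)) := by
  set w := MvPolynomial.map (algebraMap ℂ B) W with hw
  set w' := MvPolynomial.map (algebraMap ℂ D) W with hw'
  have ww : algebraMap (Px B) (Px D) w = w' := by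
    rw [hw, hw']
    change MvPolynomial.map (algebraMap B D) _ = _
    rw [MvPolynomial.map_map, ← IsScalarTower.algebraMap_eq]
  let I : Ideal (Px B) := Ideal.span {w}
  let I' : Ideal (Px D) := I.map (algebraMap (Px B) (Px D))
  have k1 : ∀ a, algebraMap (Px B) (Px B ⧸ I) a = 0 ↔ w ∣ a := fun a =>
    Ideal.Quotient.eq_zero_iff_mem.trans Ideal.mem_span_singleton
  have k2 : ∀ a, algebraMap (Px D) (Px D ⧸ I') a = 0 ↔ w' ∣ a := fun a =>
    Ideal.Quotient.eq_zero_iff_mem.trans (by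
      change a ∈ Ideal.map _ (Ideal.span {w}) ↔ _
      rw [Ideal.map_span, Set.image_singleton, ww, Ideal.mem_span_singleton])
  have k3 : ∀ a b, algebraMap (Px D) (Px D ⧸ I') a = algebraMap (Px D) (Px D ⧸ I') b ↔
      w' ∣ a - b := fun a b => by rw [← k2, map_sub, sub_eq_zero]
  have fl : Module.Flat (Px B) (Px D) := Module.Flat.isBaseChange B (Px B) D (Px D)
    (Algebra.IsPushout.out (R := B) (S := Px B) (R' := D) (S' := Px D))
  have fl' : Module.Flat (Px B ⧸ I) (Px D ⧸ I') := Module.Flat.of_linearEquiv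
    (Algebra.TensorProduct.quotIdealMapEquivQuotTensor (Px D) I).toLinearEquiv
  have no : IsNoetherianRing (Px D ⧸ I') :=
    isNoetherianRing_of_surjective (Px D) _ _ Ideal.Quotient.mk_surjective
  have em : IsEmpty (Kp p m 0) := ⟨fun i => by
    have h1 := i.2
    have h2 := hm i.1
    push_cast at h1
    omega⟩
  have g1 := (Γ.lbB.mv wx).gr
  have g2 := (Γ.lbD.mv wx).gr
  have mm : ∀ r : ℕ, m - (r + 1 : ℕ) + 1 = m - r := fun r => by push_cast; ring
  let πL := Q.π.liftBaseChange (Px D)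
  have π1 : ∀ v, πL (1 ⊗ₜ v) = Q.π v := Q.π.liftBaseChange_one_tmul _
  have πD : ∀ z, πL (Q.DT.baseChange (Px D) z) = d *ᵥ πL z := fun z => by
    induction z using TensorProduct.induction_on with
    | zero => simp only [map_zero, mulVec_zero]
    | tmul a v =>
      rw [LinearMap.baseChange_tmul, LinearMap.liftBaseChange_tmul, LinearMap.liftBaseChange_tmul,
        Q.πD, mulVec_smul]
    | add a b ha hb => simp only [map_add, ha, hb, mulVec_add]
  have ext0 : ∀ r (k : Kp p m r → Px D), ∃ k' : ι → Px D, k = fun l => k' l.1 := fun r k =>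
    ⟨fun l => if h : 3 * (m - r) ≤ p l then k ⟨l, h⟩ else 0, funext fun l => by
      beta_reduce
      rw [dif_pos l.2]⟩
  refine ⟨Px B ⧸ I, Px D ⧸ I', inferInstance, inferInstance, _, _, k1, k2,
    res_L g1 g2 (fun g a => ?_) Ideal.Quotient.mk_surjective Ideal.Quotient.mk_surjective
      (fun g a ha => (k1 _).2 (g1.dvd (Eu.to_pa (w_mem Γ.lbB h.hW) rfl) g ((k1 _).1 ha)))
      (fun g a ha => (k2 _).2 (g2.dvd (Eu.to_pa (w_mem Γ.lbD h.hW) rfl) g ((k2 _).1 ha)))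
      (fun r => Q.lb.gd (3 * r, 0)) Q.DT (fun r g v => ?_) (fun r => Q.G (m - r))
      (fun r g v hv => Q.e.pr_mem_of (p := (Q.G (m - r)).restrictScalars ℂ) (Q.hG _) _ hv)
      (fun r v hv => mm r ▸ Q.DG _ v hv) (fun r a v ha => ?_) (fun r a z ha => ?_)
      (fun r i l => Eu.to_pa (h.dg.mem i.1 l.1) (Prod.ext (by push_cast; simp; ring) (by simp)))
      (fun r => ?_) (fun r => LinearMap.funLeft _ _ Subtype.val ∘ₗ πL) (fun r z i => ?_)
      (fun r g v hv i => ?_) (fun r v hv i => ?_) (fun r z c hz hc => ?_) (fun r k hk => ?_)⟩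
  · have := Deg.pr (f := (MvPolynomial.mapAlgHom (σ := Fin 6)
      (IsScalarTower.toAlgHom ℂ B D)).toLinearMap) (Γ.alg.mv wx) g a
    rwa [zero_add] at this
  · have := Deg.pr (f := Q.DT.restrictScalars ℂ) Q.deg (g - (3 * ((r + 1 : ℕ) : ℤ), 0)) v
    rwa [show ((3, 0) : ℤ × ℤ) + (g - (3 * ((r + 1 : ℕ) : ℤ), 0)) = g - (3 * (r : ℤ), 0) from
      Prod.ext (by push_cast; simp; ring) (by simp)] at this
  · obtain ⟨b, rfl⟩ := (k1 _).1 ha
    rw [mul_smul]
    exact Q.WG _ _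
  · obtain ⟨b, rfl⟩ := (k2 _).1 ha
    rw [mul_comm, mul_smul]
    refine Submodule.smul_mem _ _ ?_
    induction z using TensorProduct.induction_on with
    | zero => rw [smul_zero]; exact Submodule.zero_mem _
    | tmul a v =>
      rw [← ww, algebraMap_smul, ← tmul_smul]
      exact Submodule.tmul_mem_baseChange_of_mem _ (Q.WG _ _)
    | add a b ha hb => rw [smul_add]; exact add_mem ha hb
  · ext i l
    have := eK_mulVec h m r (fun k => d k l.1) i
    refine (k2 _).2 (Dvd.intro ((1 : Matrix ι ι (Px D)) i.1 l.1) (Eq.trans ?_ this.symm))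
    exact (congrFun (congrFun h.sq i.1) l.1).symm
  · refine congrArg _ (Eq.trans ?_ (eK_mulVec h m r (πL z) i).symm)
    exact congrFun (πD z) i.1
  · change Γ.eX.pa _ (πL (1 ⊗ₜ v) i.1) = πL (1 ⊗ₜ v) i.1
    rw [π1]
    exact Eu.to_pa (Eu.mem_pi.1 (Q.πdeg _ _ (Eu.of_pa hv rfl)) i.1)
      (Prod.ext (by simp; ring) (by simp))
  · change algebraMap (Px D) (Px D ⧸ I') (πL (1 ⊗ₜ v) i.1) = 0
    rw [π1]
    exact (k2 _).2 (Q.πG _ v hv i.1 i.2)
  · obtain ⟨c, rfl⟩ := ext0 _ c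
    refine Q.inj _ z (by rwa [mm]) ⟨c, fun i hi => ?_⟩
    have := (k3 _ _).1 (hc ⟨i, hi⟩)
    rwa [eK_mulVec h] at this
  · obtain ⟨k, rfl⟩ := ext0 _ k
    obtain ⟨z, c, hz, hc⟩ := Q.sur (m - (r + 1 : ℕ)) k fun i hi => by
      have := (k2 _).1 (hk ⟨i, by rwa [mm] at hi⟩)
      rwa [eK_mulVec h] at this
    refine ⟨z, fun l => c l.1, by rwa [mm] at hz, fun i => (k3 _ _).2 ?_⟩
    rw [Pi.add_apply, eK_mulVec h, ← sub_sub]
    exact hc i.1 i.2

theorem Cg.sub {R : Type} [CommRing R] {w : R} {ι κ μ ν : Type} {a b : Matrix κ ι R}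
    (h : Cg w a b) (f : ν → κ) (g : μ → ι) {a' b' : Matrix ν μ R}
    (e : a' - b' = (a - b).submatrix f g) : Cg w a' b' := fun i l => by
  have := congrFun (congrFun e i) l
  rw [Matrix.sub_apply] at this
  rw [this]
  exact h _ _

/-- **(c) RES** -/
theorem stRes : StRes := by
  intro B D _ _ _ _ _ _ _ _ ι _ _ Γ W p d h Q
  obtain ⟨m, hm⟩ : ∃ m : ℕ, ∀ i, (p i).natAbs < m := by
    obtain ⟨m, hm⟩ := (Set.finite_range fun i => (p i).natAbs).bddAbove
    exact ⟨m + 1, fun i => Nat.lt_succ_of_le (hm ⟨i, rfl⟩)⟩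
  obtain ⟨Λ, Λ', _, _, f, f', k1, k2, ⟨O⟩⟩ := exists_outL h Q m fun i => by
    have := hm i
    omega
  let ε : ∀ n : ℕ, ι ≃ Kp p m (2 * m + n) := fun n => (Equiv.subtypeUnivEquiv fun i => by
    have := hm i
    push_cast
    omega).symm
  have dl : ∀ n {ν ν' : Type} (x : Matrix (Kp p m (2 * m + (n + 1))) ν (Px D)) (g : ν' → ν),
      d * x.submatrix (ε (n + 1)) g = (eK p m d (2 * m + n) * x).submatrix (ε n) g :=
    fun n _ _ x g => submatrix_mul_equiv (eK p m d (2 * m + n)) x (ε n) (ε (n + 1)) g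
  have dr : ∀ n {ν ν' : Type} (x : Matrix ν (Kp p m (2 * m + n)) (Px D)) (g : ν' → ν),
      x.submatrix g (ε n) * d = (x * eK p m d (2 * m + n)).submatrix g (ε (n + 1)) :=
    fun n _ _ x g => submatrix_mul_equiv x (eK p m d (2 * m + n)) g (ε n) (ε (n + 1))
  have a1 : ∀ (x y : ℤ × ℤ) (a b : ℤ), a = b + 3 → x - y = x - (a, 0) + (3, 0) - (y - (b, 0)) :=
    fun x y a b e => Prod.ext (by simp [e]; ring) (by simp)
  have a2 : ∀ (x y : ℤ × ℤ) (a b : ℤ), b = a + 3 → x - y = x - (a, 0) - (3, 0) - (y - (b, 0)) :=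
    fun x y a b e => Prod.ext (by simp [e]; ring) (by simp)
  have ab : ∀ {μ : Type} (a b c o : Matrix μ μ (Px D)), a - o - (-b + -c) = a + b + c - o :=
    fun a b c o => by abel
  have one : ∀ {μ : Type} [DecidableEq μ], (1 : Matrix μ μ Λ') = (1 : Matrix μ μ (Px D)).map f' :=
    (Matrix.map_one _ (map_zero _) (map_one _)).symm
  refine ⟨⟨fun n => O.n (2 * m + n),
    fun n j => O.q (2 * m + n) j - (3 * ((2 * m + n : ℕ) : ℤ), 0),
    fun n => O.δ (2 * m + n), fun n => (O.β (2 * m + n)).submatrix (ε n) id,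
    fun n => (O.α (2 * m + n)).submatrix id (ε n),
    fun n => -(O.c (2 * m + n)).submatrix (ε (n + 1)) (ε n), fun n => -O.a (2 * m + n),
    fun n i j => Eu.of_pa (O.hδ _ i j) ?_, fun n i j => Eu.of_pa (O.hβ _ (ε n i) j) ?_,
    fun n j i => Eu.of_pa (O.hα _ j (ε n i)) ?_,
    fun n i l => neg_mem (Eu.of_pa (O.hc _ (ε (n + 1) i) (ε n l)) ?_),
    fun n i j => neg_mem (Eu.of_pa (O.ha _ i j) ?_),
    fun n => cg_of k1 ((O.δδ _).trans (Matrix.map_zero _ (map_zero _)).symm),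
    fun n => (cg_of k2 (O.chβ (2 * m + n))).sub (ε n) id ?_,
    fun n => (cg_of k2 (O.chα (2 * m + n))).sub id (ε (n + 1)) ?_,
    fun n => (cg_of k2 ((O.βα (2 * m + n)).trans one)).sub (ε (n + 1)) (ε (n + 1)) ?_,
    fun n => (cg_of k2 ((O.αβ (2 * m + n)).trans one)).sub id id ?_⟩⟩
  · exact a1 _ _ _ _ (by push_cast; ring)
  · exact Prod.ext (by simp [ε]; ring) (by simp)
  · exact Prod.ext (by simp [ε]; ring) (by simp)
  · exact Prod.ext (by simp [ε]; ring) (by simp)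
  · exact a2 _ _ _ _ (by push_cast; ring)
  · rw [dl]
    rfl
  · rw [dr]
    rfl
  · rw [Matrix.mul_neg, Matrix.neg_mul, dl, dr, ← submatrix_one_equiv (ε (n + 1))]
    exact ab _ _ _ _
  · rw [submatrix_mul_equiv, Matrix.mul_neg, Matrix.neg_mul]
    exact ab _ _ _ _

end Vale.Agent.P287T.Sx
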