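import Vale.Agent.P287T.Sx.Bd
import Vale.Agent.P287T.Sx.Am
import Vale.Agent.P287T.Sx.CmI
import Vale.Agent.P287T.Sx.R5

/-!
# Block STRICT: the theorem
-/

set_option linter.all false

open TensorProduct MvPolynomial Matrix

noncomputable section

namespace Vale.Agent.P287T.Sx

attribute [local instance] MvPolynomial.algebraMvPolynomial

variable {B D : Type} [CommRing B] [Algebra ℂ B] [CommRing D] [Algebra ℂ D] [Algebra B D]
  [IsScalarTower ℂ B D] (Γ : Gr B D) {ι : Type} [Fintype ι] [DecidableEq ι] (p : ι → ℤ)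

theorem towX : IsScalarTower ℂ (Px B) (Px D) :=
  IsScalarTower.of_algebraMap_eq fun x => by
    rw [algebraMap_def, MvPolynomial.algebraMap_apply, MvPolynomial.algebraMap_apply, map_C,
      ← IsScalarTower.algebraMap_apply]

attribute [local instance] towX

theorem Gr.ch_eX {γ : ℤ × ℤ} {f : Px D} (hf : f ∈ Γ.eX.H γ) (h0 : f ≠ 0) :
    ∃ n : ℕ, γ.1 = 2 * n := by
  obtain ⟨μ, hμ⟩ := ne_zero_iff.1 h0
  by_contra h
  refine hμ (Γ.chD _ (fun e => h ⟨μ.degree, ?_⟩) (Eu.mem_mv.1 hf μ))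
  rw [wx_weight, Prod.fst_sub] at e
  exact sub_eq_zero.1 e

theorem Gr.lowX : Low Γ.eX 0 := fun γ hγ f hf => by
  by_contra h
  obtain ⟨n, hn⟩ := Γ.ch_eX hf h
  omega

theorem Gr.span_X (f : Px D) :
    f ∈ Submodule.span (Px B) {w : Px D | ∃ γ : ℤ × ℤ, γ.1 = 0 ∧ w ∈ Γ.eX.H γ} := by
  induction f using MvPolynomial.induction_on' with
  | monomial μ a =>
    have e : (monomial μ a : Px D) = (monomial μ (1 : B) : Px B) • C a := by
      rw [Algebra.smul_def, algebraMap_def, map_monomial, map_one, mul_comm, C_mul_monomial,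
        mul_one]
    refine e ▸ Submodule.smul_mem _ _ ?_
    clear e
    induction a using Γ.eD.ind with
    | h0 => rw [C_0]; exact zero_mem _
    | hh δ a ha =>
      by_cases h0 : δ.1 = 0
      · have := Eu.monomial_mem (w := wx) ha 0
        rw [map_zero, add_zero] at this
        exact Submodule.subset_span ⟨δ, h0, this⟩
      · rw [(Submodule.mem_bot ℂ).1 (Γ.chD δ h0 ha), C_0]
        exact zero_mem _
    | ha a b ha hb => rw [C_add]; exact add_mem ha hb
  | add f g hf hg => exact add_mem hf hg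

theorem Gr.single_mem (i : ι) {γ : ℤ × ℤ} {f : Px D} (hf : f ∈ Γ.eX.H γ) :
    (Pi.single i f : ι → Px D) ∈ (Γ.eE p).H (γ + (p i, 0)) := Eu.mem_pi.2 fun l => by
  by_cases e : l = i
  · rwa [e, Pi.single_eq_same, add_sub_cancel_right]
  · rw [Pi.single_eq_of_ne e]
    exact zero_mem _

theorem Gr.single_span (i : ι) (f : Px D) {S : Submodule (Px B) (ι → Px D)}
    (h : ∀ γ : ℤ × ℤ, γ.1 = p i → ∀ v ∈ (Γ.eE p).H γ, v ∈ S) : (Pi.single i f : ι → Px D) ∈ S :=
  (Submodule.span_le (p := S.comap (LinearMap.single (Px B) (fun _ => Px D) i))).2 (by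
    rintro w ⟨γ, h1, h2⟩
    exact h _ (by rw [Prod.fst_add, h1, zero_add]) _ (Γ.single_mem p i h2)) (Γ.span_X f)

theorem Gr.lbX : Lb Γ.eL Γ.eX := (Γ.lbD.mv wx).res (Γ.alg.mv wx)

theorem Gr.mem_GE (W : Px ℂ) (m : ℤ) (v : ι → Px D) :
    v ∈ GE W p m ↔ v ∈ Wn (MvPolynomial.map (algebraMap ℂ B) W) (Γ.eE p) m := by
  have e : algebraMap (Px B) (Px D) (MvPolynomial.map (algebraMap ℂ B) W) =
      MvPolynomial.map (algebraMap ℂ D) W := by
    rw [algebraMap_def, MvPolynomial.map_map, ← IsScalarTower.algebraMap_eq]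
  constructor
  · intro hv
    rw [← Finset.univ_sum_single v]
    refine sum_mem fun i _ => ?_
    by_cases h : 3 * m ≤ p i
    · obtain ⟨c, hc⟩ := hv i h
      rw [hc, ← e, ← Algebra.smul_def, Pi.single_smul']
      exact Wn.smul _
    · exact Γ.single_span p i _ fun γ h1 v hv => Wn.of hv (by omega)
  · refine fun hv => Wn.le (S := (GE W p m).restrictScalars (Px B)) (fun u i _ => ?_)
      (fun γ v h1 h2 i hi => ?_) hv
    · rw [Pi.smul_apply, Algebra.smul_def, e]
      exact dvd_mul_right _ _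
    · rw [(Submodule.mem_bot ℂ).1 (Γ.lowX _ (by rw [Prod.fst_sub]; omega) (Eu.mem_pi.1 h2 i))]
      exact dvd_zero _

variable {Γ p}

theorem exists_qi {W : Px ℂ} {d : Matrix ι ι (Px D)} (h : Inp Γ W p d) :
    Nonempty (Qi Γ W p d) := by
  obtain ⟨R⟩ := stAm B D Γ
  obtain ⟨c, c1, c2, c3⟩ := stCm B D ι Γ W p d h
  obtain ⟨n, hn⟩ := (Set.finite_range fun i => (p i).natAbs).bddAbove
  have hn' : ∀ i, (p i).natAbs ≤ n := fun i => hn ⟨i, rfl⟩
  have hw := w_mem Γ.lbB h.fm.hW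
  let H : Ab (A := Px D) Γ R (MvPolynomial.map (algebraMap ℂ B) W)
      (d.mulVecLin.restrictScalars (Px B)) Γ.eL Γ.eX (Γ.eE p) :=
    { hE := Γ.lbE p
      hL := Γ.lbX.pi _
      hA := Γ.lbX
      hAE := (Γ.lbD.mv wx).pi _
      alg := fun δ u hu => by
        have := Eu.monomial_mem (w := wx) hu 0
        rwa [map_zero, add_comm] at this
      lowA := Γ.lowX
      genA := fun f => Submodule.span_mono
        (by rintro w ⟨γ, h1, h2⟩; exact ⟨γ, h1.le, h2⟩) (Γ.span_X f)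
      c0 := -n
      c1 := n
      lowE := fun γ hγ v hv => funext fun i =>
        Γ.lowX _ (by have := hn' i; rw [Prod.fst_sub]; omega) (Eu.mem_pi.1 hv i)
      genE := fun v => by
        rw [← Finset.univ_sum_single v]
        exact sum_mem fun i _ => Γ.single_span p i _ fun γ h1 v hv =>
          Submodule.subset_span ⟨γ, by have := hn' i; omega, hv⟩
      P := LinearMap.pi fun i => ((Int.negOnePow (p i) : ℤˣ) : ℤ) • LinearMap.proj i
      par := fun γ v hv => funext fun i => by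
        show ((Int.negOnePow (p i) : ℤˣ) : ℤ) • v i = ((Int.negOnePow γ.1 : ℤˣ) : ℤ) • v i
        by_cases h0 : v i = 0
        · rw [h0, smul_zero, smul_zero]
        · obtain ⟨k, hk⟩ := Γ.ch_eX (Eu.mem_pi.1 hv i) h0
          rw [Prod.fst_sub, sub_eq_iff_eq_add] at hk
          rw [hk, Int.negOnePow_add, Int.negOnePow_two_mul, one_mul]
      dg := Ci.deg_mulVec p Γ.lbD h.fm.dg
      dd := fun v => by
        show d *ᵥ (d *ᵥ v) = _
        rw [mulVec_mulVec, h.fm.sq, smul_mulVec, one_mulVec,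
          ← algebraMap_smul (Px D) (MvPolynomial.map (algebraMap ℂ B) W), algebraMap_def,
          MvPolynomial.map_map, ← IsScalarTower.algebraMap_eq]
      hw := hw
      c := c
      hc := ⟨c1, c2, c3, (Γ.lbD.mvC wx).pi _, Γ.lbD⟩
      ex := fun k F hk hF e => by
        obtain ⟨x, x1, x2⟩ := stEx B D ι Γ p d h.neg R.Q (R.f 0) (R.lb 0) R.ch k F hk hF e
        exact ⟨x, x1, fun c γ => x2 (R.f c) (R.lb c) γ⟩ }
  obtain ⟨DT, d1, d2, d3, d4, d5⟩ := H.main
  exact ⟨{
    T := (ι → Px D) ⊗[B] R.Q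
    e := H.eT 3
    lb := H.lbT 3
    DT := DT
    deg := d1
    G := Wn (MvPolynomial.map (algebraMap ℂ B) W) (H.eT 3)
    hG := fun m v hv => Wn.eps (H.lbT 3) hw hv
    DG := fun m v hv => Wn.map d1 (by simp only; omega) hv
    DD := fun m v => d2 v ▸ Wn.smul v
    WG := fun m v => Wn.smul v
    π := prj (Px B) (ι → Px D) R
    πdeg := H.deg_prj 3
    πD := d3
    πG := fun m v hv => (Γ.mem_GE p W m _).2 (Wn.map (H.deg_prj 3) (by simp) hv)
    inj := fun m z hz ⟨c, hc⟩ => d4 m z hz ⟨c, (Γ.mem_GE p W m _).1 hc⟩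
    sur := fun m x hx => by
      obtain ⟨z, c, h1, h2⟩ := d5 m x ((Γ.mem_GE p W _ _).1 hx)
      exact ⟨z, c, h1, (Γ.mem_GE p W m _).2 h2⟩ }⟩

/-- **STRICT** -/
theorem stStrict : StStrict := fun B D _ _ _ _ _ _ _ _ ι _ _ Γ W p d h =>
  (exists_qi h).elim fun Q => stRes B D ι Γ W p d h.fm Q

end Vale.Agent.P287T.Sx
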