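import Mathlib.RingTheory.Flat.IsBaseChange
import Mathlib.RingTheory.TensorProduct.IsBaseChangePi
import Mathlib.RingTheory.Noetherian.Basic
import Mathlib.LinearAlgebra.Matrix.ToLin

/-!
# P287 phase 2, block STRICT (c): gradings given by projectors
-/

namespace Vale.Agent.P287T.Sx

open Matrix

variable {G : Type} [AddCommGroup G] {Λ : Type} [CommRing Λ]

/-- a grading of the ring `Λ`, given by the projectors `p g` -/
structure GR (p : G → Λ →+ Λ) : Prop where
  one : p 0 1 = 1
  one' : ∀ g, g ≠ 0 → p g 1 = 0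
  sum : ∀ a, ∃ s : Finset G, ∑ g ∈ s, p g a = a
  mul : ∀ g h a b, p g (a * p h b) = p (g - h) a * p h b

/-- a grading of the module `M`, given by the projectors `pr g` -/
structure Gd (p : G → Λ →+ Λ) (M : Type) [AddCommGroup M] [Module Λ M] where
  pr : G → M →+ M
  sum : ∀ m, ∃ s : Finset G, ∑ g ∈ s, pr g m = m
  hom : ∀ g h a m, pr g (a • pr h m) = p (g - h) a • pr h m

variable {p : G → Λ →+ Λ} {M N Q : Type} [AddCommGroup M] [Module Λ M] [AddCommGroup N]
  [Module Λ N] [AddCommGroup Q] [Module Λ Q]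

/-- the map `u` is homogeneous of degree zero -/
def Cm (γ : Gd p M) (δ : Gd p N) (u : M →ₗ[Λ] N) : Prop := ∀ g m, δ.pr g (u m) = u (γ.pr g m)

/-- the ring as a graded module -/
def GR.gd (hp : GR p) : Gd p Λ := ⟨p, hp.sum, hp.mul⟩

namespace Gd

variable (γ : Gd p M) (δ : Gd p N)

theorem idem (hp : GR p) (g : G) (m : M) : γ.pr g (γ.pr g m) = γ.pr g m := by
  have := γ.hom g g 1 m
  rwa [one_smul, sub_self, hp.one, one_smul] at this

theorem orth (hp : GR p) {g h : G} (e : g ≠ h) (m : M) : γ.pr g (γ.pr h m) = 0 := by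
  have := γ.hom g h 1 m
  rwa [one_smul, hp.one' _ (sub_ne_zero.2 e), zero_smul] at this

theorem smul {h : G} {m : M} (hm : γ.pr h m = m) (g : G) (a : Λ) :
    γ.pr g (a • m) = p (g - h) a • m := by
  have := γ.hom g h a m
  rwa [hm] at this

theorem smul_hom {h g : G} {m : M} (hm : γ.pr h m = m) {a : Λ} (ha : p g a = a) :
    γ.pr (g + h) (a • m) = a • m := by
  rw [γ.smul hm, add_sub_cancel_right, ha]

theorem sum' (hp : GR p) (m : M) : ∃ s : Finset G, ∀ t, s ⊆ t → ∑ g ∈ t, γ.pr g m = m := by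
  obtain ⟨s, hs⟩ := γ.sum m
  refine ⟨s, fun t ht => ?_⟩
  rw [← Finset.sum_subset ht, hs]
  intro g _ hg
  rw [← hs, map_sum]
  exact Finset.sum_eq_zero fun h hh => γ.orth hp (fun e : g = h => hg (by rw [e]; exact hh)) m

theorem eq_zero {m : M} (h : ∀ g, γ.pr g m = 0) : m = 0 := by
  obtain ⟨s, hs⟩ := γ.sum m
  rw [← hs]
  exact Finset.sum_eq_zero fun g _ => h g

/-- the product of two graded modules -/
def prod (hp : GR p) : Gd p (M × N) where
  pr g := (γ.pr g).prodMap (δ.pr g)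
  sum m := by
    classical
    obtain ⟨s, hs⟩ := γ.sum' hp m.1
    obtain ⟨t, ht⟩ := δ.sum' hp m.2
    refine ⟨s ∪ t, Prod.ext ?_ ?_⟩
    · rw [Prod.fst_sum]; exact hs _ Finset.subset_union_left
    · rw [Prod.snd_sum]; exact ht _ Finset.subset_union_right
  hom g h a m := Prod.ext (γ.hom g h a m.1) (δ.hom g h a m.2)

theorem prod_pr (hp : GR p) (g : G) (m : M × N) :
    (γ.prod δ hp).pr g m = (γ.pr g m.1, δ.pr g m.2) := rfl

/-- finite powers with shifted degrees: the `i`-th copy is generated in degree `q i` -/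
def pi (hp : GR p) {ι : Type} [Finite ι] (q : ι → G) : Gd p (ι → M) where
  pr g :=
    { toFun := fun f i => γ.pr (g - q i) (f i)
      map_zero' := funext fun _ => map_zero _
      map_add' := fun _ _ => funext fun _ => map_add _ _ _ }
  sum f := by
    classical
    have := Fintype.ofFinite ι
    choose s hs using fun i => γ.sum' hp (f i)
    refine ⟨Finset.univ.biUnion fun i => (s i).image (· + q i), funext fun i => ?_⟩
    rw [Finset.sum_apply]
    have h1 := hs i ((Finset.univ.biUnion fun i => (s i).image (· + q i)).image (· - q i))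
      fun g hg => Finset.mem_image.2 ⟨g + q i, Finset.mem_biUnion.2 ⟨i, Finset.mem_univ _,
        Finset.mem_image_of_mem _ hg⟩, add_sub_cancel_right _ _⟩
    rw [Finset.sum_image fun a _ b _ h => sub_left_injective h] at h1
    exact h1
  hom g h a f := funext fun i => by
    change γ.pr (g - q i) (a • γ.pr (h - q i) (f i)) = p (g - h) a • γ.pr (h - q i) (f i)
    rw [γ.hom, sub_sub_sub_cancel_right]

end Gd

/-- the graded free module with generators in degrees `q i` -/
def fr (hp : GR p) {ι : Type} [Finite ι] (q : ι → G) : Gd p (ι → Λ) := hp.gd.pi hp q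

theorem fr_pr (hp : GR p) {ι : Type} [Finite ι] (q : ι → G) (g : G) (f : ι → Λ) (i : ι) :
    (fr hp q).pr g f i = p (g - q i) (f i) := rfl

theorem fr_single (hp : GR p) {ι : Type} [Finite ι] [DecidableEq ι] (q : ι → G) (i : ι) :
    (fr hp q).pr (q i) (Pi.single i 1) = Pi.single i 1 := by
  funext k
  rw [fr_pr]
  by_cases h : k = i
  · subst h
    rw [sub_self, Pi.single_eq_same, hp.one]
  · rw [Pi.single_eq_of_ne h, map_zero]

/-- the matrix `d` is homogeneous of degree zero -/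
def HM (p : G → Λ →+ Λ) {ι κ : Type} (q : ι → G) (r : κ → G) (d : Matrix κ ι Λ) : Prop :=
  ∀ k i, p (q i - r k) (d k i) = d k i

theorem Cm.comp {γ : Gd p M} {δ : Gd p N} {ε : Gd p Q} {u : M →ₗ[Λ] N} {v : N →ₗ[Λ] Q}
    (hv : Cm δ ε v) (hu : Cm γ δ u) : Cm γ ε (v ∘ₗ u) := fun g m => by
  rw [LinearMap.comp_apply, LinearMap.comp_apply, hv, hu]

theorem Cm.hom {γ : Gd p M} {δ : Gd p N} {u : M →ₗ[Λ] N} (hu : Cm γ δ u) {g : G} {m : M}
    (hm : γ.pr g m = m) : δ.pr g (u m) = u m := by rw [hu, hm]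

theorem cm_lc (hp : GR p) {ι : Type} [Fintype ι] (q : ι → G) (γ : Gd p M) {t : ι → M}
    (ht : ∀ i, γ.pr (q i) (t i) = t i) : Cm (fr hp q) γ (Fintype.linearCombination Λ t) := by
  intro g f
  rw [Fintype.linearCombination_apply, Fintype.linearCombination_apply, map_sum]
  exact Finset.sum_congr rfl fun i _ => γ.smul (ht i) g (f i)

theorem HM.cm (hp : GR p) {ι κ : Type} [Fintype ι] [Finite κ] {q : ι → G} {r : κ → G}
    {d : Matrix κ ι Λ} (hd : HM p q r d) : Cm (fr hp q) (fr hp r) d.mulVecLin := by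
  intro g f
  funext k
  rw [fr_pr, mulVecLin_apply, mulVecLin_apply, mulVec, mulVec, dotProduct, dotProduct, map_sum]
  refine Finset.sum_congr rfl fun i _ => ?_
  have := hp.mul (g - r k) (q i - r k) (f i) (d k i)
  rw [hd, sub_sub_sub_cancel_right] at this
  rw [mul_comm, this, mul_comm, fr_pr]

theorem Cm.hm (hp : GR p) {ι κ : Type} [Fintype ι] [DecidableEq ι] [Finite κ] {q : ι → G}
    {r : κ → G} {u : (ι → Λ) →ₗ[Λ] (κ → Λ)} (hu : Cm (fr hp q) (fr hp r) u) :
    HM p q r (LinearMap.toMatrix' u) := by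
  intro k i
  rw [LinearMap.toMatrix'_apply]
  exact congrFun (hu.hom (fr_single hp q i)) k

theorem HM.mul (hp : GR p) {ι κ μ : Type} [Fintype κ] {q : ι → G} {r : κ → G} {s : μ → G}
    {d : Matrix κ ι Λ} {e : Matrix μ κ Λ} (he : HM p r s e) (hd : HM p q r d) :
    HM p q s (e * d) := by
  intro m i
  rw [Matrix.mul_apply, map_sum]
  refine Finset.sum_congr rfl fun k _ => ?_
  have := hp.mul (q i - s m) (q i - r k) (e m k) (d k i)
  rwa [hd, sub_sub_sub_cancel_left, he] at this

section bc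

variable {Λ' : Type} [CommRing Λ'] [Algebra Λ Λ'] {M' N' : Type} [AddCommGroup M'] [Module Λ M']
  [Module Λ' M'] [IsScalarTower Λ Λ' M'] [AddCommGroup N'] [Module Λ N'] [Module Λ' N']
  [IsScalarTower Λ Λ' N']

/-- kernels commute with flat base change -/
theorem ker_span [Module.Flat Λ Λ'] {i : M →ₗ[Λ] M'} {j : N →ₗ[Λ] N'} (hi : IsBaseChange Λ' i)
    (hj : IsBaseChange Λ' j) {u : M →ₗ[Λ] N} {u' : M' →ₗ[Λ'] N'} (h : ∀ m, u' (i m) = j (u m))
    {x : M'} (hx : u' x = 0) : x ∈ Submodule.span Λ' (i '' {m | u m = 0}) := by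
  let i0 : LinearMap.ker u →ₗ[Λ] LinearMap.ker u' :=
    { toFun := fun m => ⟨i m.1, by rw [LinearMap.mem_ker, h, LinearMap.mem_ker.1 m.2, map_zero]⟩
      map_add' := fun a b => Subtype.ext (map_add i _ _)
      map_smul' := fun a b => Subtype.ext (map_smul i _ _) }
  have h0 : IsBaseChange Λ' i0 :=
    IsBaseChange.of_left_exact Λ' i0 i j (f := (LinearMap.ker u).subtype) (g := u)
      (f' := (LinearMap.ker u').subtype) (g' := u') rfl (LinearMap.ext fun m => (h m).symm) hi hj
      (LinearMap.exact_subtype_ker_map u) Subtype.val_injective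
      (LinearMap.exact_subtype_ker_map u') Subtype.val_injective
  refine h0.inductionOn (⟨x, hx⟩ : LinearMap.ker u')
    (fun y => y.1 ∈ Submodule.span Λ' (i '' {m | u m = 0})) (zero_mem _) ?_ ?_ ?_
  · exact fun m => Submodule.subset_span ⟨m.1, m.2, rfl⟩
  · exact fun s n hn => Submodule.smul_mem _ s hn
  · exact fun a b ha hb => add_mem ha hb

theorem bc_pi (ι : Type) [Finite ι] :
    IsBaseChange Λ' ((Algebra.linearMap Λ Λ').compLeft ι) :=
  (IsBaseChange.linearMap Λ Λ').finitePow ι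

end bc

theorem span_fin (T0 : Finset M) (S : Set M) (h : ∀ x ∈ T0, x ∈ Submodule.span Λ S) :
    ∃ T : Finset M, (T : Set M) ⊆ S ∧
      Submodule.span Λ (T0 : Set M) ≤ Submodule.span Λ (T : Set M) := by
  classical
  induction T0 using Finset.induction_on with
  | empty => exact ⟨∅, by simp, le_rfl⟩
  | insert a s _ ih =>
    obtain ⟨T, hT, hT'⟩ := ih fun x hx => h x (Finset.mem_insert_of_mem hx)
    obtain ⟨U, hU, hU'⟩ := Submodule.mem_span_finite_of_mem_span (h a (Finset.mem_insert_self _ _))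
    refine ⟨T ∪ U, by rw [Finset.coe_union]; exact Set.union_subset hT hU, ?_⟩
    rw [Finset.coe_insert, Submodule.span_insert, Finset.coe_union, Submodule.span_union]
    exact sup_le (le_sup_of_le_right ((Submodule.span_singleton_le_iff_mem _ _).2 hU'))
      (le_sup_of_le_left hT')

/-- a submodule which is finitely generated modulo `B` -/
theorem fg_mod [IsNoetherian Λ N] (Z B : Submodule Λ M) (π : M →ₗ[Λ] N) (V : Finset M)
    (hV : ∀ v ∈ V, v ∈ Z) (h : ∀ z ∈ Z, π z = 0 → z ∈ Submodule.span Λ (V : Set M) ⊔ B)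
    (S : Set M) (hS : Z ≤ Submodule.span Λ S) :
    ∃ T : Finset M, (T : Set M) ⊆ S ∧ Z ≤ Submodule.span Λ (T : Set M) ⊔ B := by
  classical
  obtain ⟨U, hU⟩ := IsNoetherian.noetherian (Z.map π)
  have h1 : ∀ u : N, ∃ z, u ∈ U → z ∈ Z ∧ π z = u := fun u => by
    by_cases hu : u ∈ U
    · have : u ∈ Z.map π := by rw [← hU]; exact Submodule.subset_span hu
      obtain ⟨z, hz⟩ := this
      exact ⟨z, fun _ => hz⟩
    · exact ⟨0, fun h => absurd h hu⟩
  choose z hz using h1
  obtain ⟨T, hT, h3⟩ := span_fin (Λ := Λ) (V ∪ U.image z) S fun x hx => hS (by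
    rcases Finset.mem_union.1 hx with hx | hx
    · exact hV _ hx
    · obtain ⟨u, hu, rfl⟩ := Finset.mem_image.1 hx
      exact (hz u hu).1)
  refine ⟨T, hT, fun x hx => ?_⟩
  have h4 : Z.map π ≤ (Z ⊓ Submodule.span Λ (T : Set M)).map π := by
    rw [← hU]
    refine Submodule.span_le.2 fun u hu => ⟨z u, ⟨(hz u hu).1, h3 (Submodule.subset_span ?_)⟩,
      (hz u hu).2⟩
    exact Finset.mem_coe.2 (Finset.mem_union_right _ (Finset.mem_image_of_mem _ hu))
  obtain ⟨y, ⟨hy, hy'⟩, e⟩ := h4 ⟨x, hx, rfl⟩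
  have h5 := h (x - y) (sub_mem hx hy) (by rw [map_sub, e, sub_self])
  have h6 : Submodule.span Λ (V : Set M) ≤ Submodule.span Λ (T : Set M) :=
    (Submodule.span_mono (Finset.coe_subset.2 Finset.subset_union_left)).trans h3
  rw [← sub_add_cancel x y]
  exact add_mem (sup_le_sup_right h6 B h5) (Submodule.mem_sup_left hy')

end Vale.Agent.P287T.Sx
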