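import Vale.Agent.P287T.Sx.R0

/-!
# P287 phase 2, block STRICT (c): finite free models after a flat base change
-/

namespace Vale.Agent.P287T.Sx

open Matrix

variable {G : Type} [AddCommGroup G] {Λ : Type} [CommRing Λ] {p : G → Λ →+ Λ}
  {Λ' : Type} [CommRing Λ'] [Algebra Λ Λ']

theorem r1_map_mulVec {ι κ : Type} [Fintype ι] (e : Matrix κ ι Λ) (f : ι → Λ) :
    e.map (algebraMap Λ Λ') *ᵥ (fun i => algebraMap Λ Λ' (f i)) =
      fun k => algebraMap Λ Λ' ((e *ᵥ f) k) :=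
  funext fun k => (RingHom.map_mulVec (algebraMap Λ Λ') e f k).symm

section step

variable {C0 C1 C0' C1' C2' : Type} [AddCommGroup C0] [Module Λ C0] [AddCommGroup C1] [Module Λ C1]
  [AddCommGroup C0'] [Module Λ C0'] [Module Λ' C0'] [IsScalarTower Λ Λ' C0']
  [AddCommGroup C1'] [Module Λ C1'] [Module Λ' C1'] [IsScalarTower Λ Λ' C1']
  [AddCommGroup C2'] [Module Λ' C2']

/-- one step of the construction of a finite free model -/
theorem r1_step [Module.Flat Λ Λ'] [IsNoetherianRing Λ'] (hp : GR p) (γ0 : Gd p C0) (γ1 : Gd p C1)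
    {j0 : C0 →ₗ[Λ] C0'} {j1 : C1 →ₗ[Λ] C1'} (h0 : IsBaseChange Λ' j0) (h1 : IsBaseChange Λ' j1)
    {b : C1 →ₗ[Λ] C0} {b' : C1' →ₗ[Λ'] C0'} (b2 : C2' →ₗ[Λ'] C1') (hb : Cm γ1 γ0 b)
    (hj : ∀ x, b' (j1 x) = j0 (b x))
    (fin : ∃ V : Finset C1', (∀ v ∈ V, b' v = 0) ∧ ∀ x, b' x = 0 →
      ∃ s, x - b2 s ∈ Submodule.span Λ' (V : Set C1'))
    {m n : ℕ} {qm : Fin m → G} {q : Fin n → G} {e : Matrix (Fin m) (Fin n) Λ} {t : Fin n → C0}
    (he : HM p q qm e) (ht : ∀ i, γ0.pr (q i) (t i) = t i) :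
    ∃ (n' : ℕ) (q' : Fin n' → G) (d : Matrix (Fin n) (Fin n') Λ) (t' : Fin n' → C1),
      HM p q' q d ∧ (∀ k, γ1.pr (q' k) (t' k) = t' k) ∧ e * d = 0 ∧
      (∀ k, b (t' k) = ∑ i, d i k • t i) ∧
      ∀ (f : Fin n → Λ') (x : C1'), e.map (algebraMap Λ Λ') *ᵥ f = 0 →
        b' x = ∑ i, f i • j0 (t i) → ∃ g s, d.map (algebraMap Λ Λ') *ᵥ g = f ∧
          x = ∑ k, g k • j1 (t' k) + b2 s := by
  classical
  obtain ⟨V, hV, hV'⟩ := fin
  let φ := Fintype.linearCombination Λ t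
  let φ' := Fintype.linearCombination Λ' fun i => j0 (t i)
  let δ : ((Fin n → Λ) × C1) →ₗ[Λ] ((Fin m → Λ) × C0) :=
    (e.mulVecLin ∘ₗ LinearMap.fst _ _ _).prod (φ ∘ₗ LinearMap.fst _ _ _ - b ∘ₗ LinearMap.snd _ _ _)
  let δ' : ((Fin n → Λ') × C1') →ₗ[Λ'] ((Fin m → Λ') × C0') :=
    ((e.map (algebraMap Λ Λ')).mulVecLin ∘ₗ LinearMap.fst _ _ _).prod
      (φ' ∘ₗ LinearMap.fst _ _ _ - b' ∘ₗ LinearMap.snd _ _ _)
  have dδ : ∀ x, δ x = (e *ᵥ x.1, φ x.1 - b x.2) := fun _ => rfl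
  have dδ' : ∀ x, δ' x = (e.map (algebraMap Λ Λ') *ᵥ x.1, φ' x.1 - b' x.2) := fun _ => rfl
  let J := ((Algebra.linearMap Λ Λ').compLeft (Fin n)).prodMap j1
  have dJ : ∀ x, J x = (fun i => algebraMap Λ Λ' (x.1 i), j1 x.2) := fun _ => rfl
  have hφ : ∀ f : Fin n → Λ, φ' (fun i => algebraMap Λ Λ' (f i)) = j0 (φ f) := fun f => by
    simp only [φ, φ', Fintype.linearCombination_apply, map_sum, map_smul, algebraMap_smul]
  let γ := (fr hp q).prod γ1 hp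
  have hγ : ∀ g x, δ x = 0 → δ (γ.pr g x) = 0 := fun g x hx => by
    rw [dδ, Prod.mk_eq_zero] at hx
    rw [dδ, Gd.prod_pr, Prod.mk_eq_zero]
    refine ⟨?_, ?_⟩
    · have := he.cm hp g x.1
      rw [mulVecLin_apply, mulVecLin_apply, hx.1, map_zero] at this
      exact this.symm
    · rw [← cm_lc hp q γ0 ht g x.1, ← hb g x.2, ← map_sub, hx.2, map_zero]
  let S : Set ((Fin n → Λ') × C1') := {y | ∃ g x, δ x = 0 ∧ γ.pr g x = x ∧ J x = y}
  have hS : LinearMap.ker δ' ≤ Submodule.span Λ' S := fun y hy => by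
    have h2 := ker_span (IsBaseChange.prodMap _ _ (bc_pi (Fin n)) h1)
      (IsBaseChange.prodMap _ _ (bc_pi (Fin m)) h0) (u := δ) (u' := δ') (fun x => by
        change δ' (J x) = (fun i => algebraMap Λ Λ' ((δ x).1 i), j0 (δ x).2)
        rw [dδ', dJ, dδ, r1_map_mulVec, hφ, hj, map_sub]) hy
    refine Submodule.span_le.2 ?_ h2
    rintro _ ⟨x, hx, rfl⟩
    obtain ⟨s, hs⟩ := γ.sum x
    rw [← hs, map_sum]
    exact Submodule.sum_mem _ fun g _ =>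
      Submodule.subset_span ⟨g, _, hγ g x hx, γ.idem hp g x, rfl⟩
  obtain ⟨T, hT, hT'⟩ := fg_mod (LinearMap.ker δ') (LinearMap.range (LinearMap.inr _ _ _ ∘ₗ b2))
    (LinearMap.fst Λ' (Fin n → Λ') C1') (V.image fun v => (0, v))
    (fun v hv => by
      obtain ⟨w, hw, rfl⟩ := Finset.mem_image.1 hv
      rw [LinearMap.mem_ker, dδ', mulVec_zero, map_zero, hV w hw, sub_zero]; rfl)
    (fun z hz h => by
      rw [LinearMap.mem_ker, dδ', Prod.mk_eq_zero] at hz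
      have h3 : z.1 = 0 := h
      rw [h3, map_zero, zero_sub, neg_eq_zero] at hz
      obtain ⟨s, hs⟩ := hV' z.2 hz.2
      have h4 : z = LinearMap.inr Λ' (Fin n → Λ') C1' (z.2 - b2 s) + (0, b2 s) :=
        Prod.ext (by simpa using h3) (by simp)
      rw [h4]
      refine add_mem (Submodule.mem_sup_left ?_) (Submodule.mem_sup_right ⟨s, rfl⟩)
      have h5 := Submodule.mem_map_of_mem (f := LinearMap.inr Λ' (Fin n → Λ') C1') hs
      rwa [Submodule.map_span, ← Finset.coe_image] at h5) S hS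
  let en := T.equivFin.symm
  choose g x hx hg hJ using fun k : Fin T.card => hT (en k).2
  refine ⟨T.card, g, Matrix.of fun i k => (x k).1 i, fun k => (x k).2,
    fun i k => congrFun (congrArg Prod.fst (hg k)) i, fun k => congrArg Prod.snd (hg k), ?_, ?_,
    fun f y hf hy => ?_⟩
  · ext a k
    exact congrFun (congrArg Prod.fst (hx k)) a
  · intro k
    have := congrArg Prod.snd (hx k)
    rw [dδ] at this
    exact (sub_eq_zero.1 this).symm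
  have h6 : (f, y) ∈ LinearMap.ker δ' := by
    rw [LinearMap.mem_ker, dδ', hf, hy, Prod.mk_eq_zero]
    exact ⟨rfl, sub_self _⟩
  obtain ⟨u, hu, w, ⟨s, rfl⟩, huw⟩ := Submodule.mem_sup.1 (hT' h6)
  have h7 : (T : Set _) = Set.range fun k => J (x k) := by
    ext z
    refine ⟨fun hz => ⟨en.symm ⟨z, hz⟩, (hJ _).trans (by rw [Equiv.apply_symm_apply])⟩, ?_⟩
    rintro ⟨k, rfl⟩
    change J (x k) ∈ _
    rw [hJ]
    exact (en k).2
  rw [h7, Submodule.mem_span_range_iff_exists_fun] at hu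
  obtain ⟨c, rfl⟩ := hu
  refine ⟨c, s, ?_, ?_⟩
  · have := congrArg Prod.fst huw
    rw [Prod.fst_add, Prod.fst_sum] at this
    rw [← show _ = f from this]
    funext i
    simp [mulVec, dotProduct, dJ, mul_comm]
  · have := congrArg Prod.snd huw
    rw [Prod.snd_add, Prod.snd_sum] at this
    exact (show _ = y from this).symm

end step

variable {C C' : ℕ → Type} [∀ r, AddCommGroup (C r)] [∀ r, Module Λ (C r)]
  [∀ r, AddCommGroup (C' r)] [∀ r, Module Λ (C' r)] [∀ r, Module Λ' (C' r)]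
  [∀ r, IsScalarTower Λ Λ' (C' r)]

/-- a finite free graded complex `F` over `Λ` with a map to the complex `C`, whose cone is exact
after the base change to `Λ'` -/
structure Mdl (γ : ∀ r, Gd p (C r)) (j : ∀ r, C r →ₗ[Λ] C' r) (b : ∀ r, C (r + 1) →ₗ[Λ] C r)
    (b' : ∀ r, C' (r + 1) →ₗ[Λ'] C' r) where
  n : ℕ → ℕ
  q : ∀ r, Fin (n r) → G
  t : ∀ r, Fin (n r) → C r
  d : ∀ r, Matrix (Fin (n r)) (Fin (n (r + 1))) Λ
  n0 : n 0 = 0
  ht : ∀ r i, (γ r).pr (q r i) (t r i) = t r i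
  hd : ∀ r, HM p (q (r + 1)) (q r) (d r)
  dd : ∀ r, d r * d (r + 1) = 0
  ch : ∀ r k, b r (t (r + 1) k) = ∑ i, d r i k • t r i
  ex0 : ∀ x, b' 0 x = 0 → ∃ (g : Fin (n 1) → Λ') (s : C' 2),
    x = ∑ k, g k • j 1 (t 1 k) + b' 1 s
  ex : ∀ r (f : Fin (n (r + 1)) → Λ') (x : C' (r + 2)), (d r).map (algebraMap Λ Λ') *ᵥ f = 0 →
    b' (r + 1) x = ∑ i, f i • j (r + 1) (t (r + 1) i) →
    ∃ g s, (d (r + 1)).map (algebraMap Λ Λ') *ᵥ g = f ∧
      x = ∑ k, g k • j (r + 2) (t (r + 2) k) + b' (r + 2) s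

/-- the state of the construction -/
structure R1St (γ : ∀ r, Gd p (C r)) (r : ℕ) where
  m : ℕ
  qm : Fin m → G
  n : ℕ
  q : Fin n → G
  e : Matrix (Fin m) (Fin n) Λ
  t : Fin n → C r
  he : HM p q qm e
  ht : ∀ i, (γ r).pr (q i) (t i) = t i

theorem exists_mdl [Module.Flat Λ Λ'] [IsNoetherianRing Λ'] (hp : GR p) (γ : ∀ r, Gd p (C r))
    {j : ∀ r, C r →ₗ[Λ] C' r} (hj : ∀ r, IsBaseChange Λ' (j r)) {b : ∀ r, C (r + 1) →ₗ[Λ] C r}
    {b' : ∀ r, C' (r + 1) →ₗ[Λ'] C' r} (hb : ∀ r, Cm (γ (r + 1)) (γ r) (b r))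
    (hc : ∀ r x, b' r (j (r + 1) x) = j r (b r x))
    (fin : ∀ r, ∃ V : Finset (C' (r + 1)), (∀ v ∈ V, b' r v = 0) ∧ ∀ x, b' r x = 0 →
      ∃ s, x - b' (r + 1) s ∈ Submodule.span Λ' (V : Set (C' (r + 1)))) :
    Nonempty (Mdl γ j b b') := by
  choose n' q' d t' h1 h2 h3 h4 h5 using fun r (s : R1St γ r) =>
    r1_step hp (γ r) (γ (r + 1)) (hj r) (hj (r + 1)) (b' (r + 1)) (hb r) (hc r) (fin r) s.he s.ht
  let s : ∀ r, R1St γ r := fun r => Nat.rec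
    ⟨0, Fin.elim0, 0, Fin.elim0, 0, Fin.elim0, fun k => k.elim0, fun k => k.elim0⟩
    (fun r s => ⟨s.n, s.q, n' r s, q' r s, d r s, t' r s, h1 r s, h2 r s⟩) r
  refine ⟨⟨fun r => (s r).n, fun r => (s r).q, fun r => (s r).t, fun r => d r (s r), rfl,
    fun r => (s r).ht, fun r => h1 r (s r), fun r => h3 (r + 1) (s (r + 1)), fun r => h4 r (s r),
    fun x hx => ?_, fun r => h5 (r + 1) (s (r + 1))⟩⟩
  obtain ⟨g, y, -, h⟩ := h5 0 (s 0) Fin.elim0 x (funext fun k => k.elim0) (hx.trans rfl)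
  exact ⟨g, y, h⟩

end Vale.Agent.P287T.Sx
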