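import Vale.Agent.P287T.Sx.R1

/-!
# P287 phase 2, block STRICT (c): the model is homotopy equivalent to the local complex
-/

namespace Vale.Agent.P287T.Sx

open Matrix

variable {G : Type} [AddCommGroup G] {Λ : Type} [CommRing Λ] {p : G → Λ →+ Λ}

section contr

/-- the module has a finite basis of homogeneous elements -/
def HB {M : Type} [AddCommGroup M] [Module Λ M] (γ : Gd p M) : Prop :=
  ∃ (ι : Type) (b : Module.Basis ι Λ M), ∀ i, ∃ g, γ.pr g (b i) = b i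

theorem hb_fr (hp : GR p) {ι : Type} [Finite ι] (q : ι → G) : HB (fr hp q) := by
  classical
  refine ⟨ι, Pi.basisFun Λ ι, fun i => ⟨q i, ?_⟩⟩
  rw [Pi.basisFun_apply]
  exact fr_single hp q i

theorem HB.prod (hp : GR p) {M N : Type} [AddCommGroup M] [Module Λ M] [AddCommGroup N]
    [Module Λ N] {γ : Gd p M} {δ : Gd p N} (h : HB γ) (h' : HB δ) : HB (γ.prod δ hp) := by
  obtain ⟨ι, b, hb⟩ := h
  obtain ⟨κ, c, hc⟩ := h'
  refine ⟨ι ⊕ κ, b.prod c, ?_⟩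
  rintro (i | i)
  · obtain ⟨g, hg⟩ := hb i
    exact ⟨g, Prod.ext (by simpa [Gd.prod_pr] using hg) (by simp [Gd.prod_pr])⟩
  · obtain ⟨g, hg⟩ := hc i
    exact ⟨g, Prod.ext (by simp [Gd.prod_pr]) (by simpa [Gd.prod_pr] using hg)⟩

/-- homogeneous lifting -/
theorem HB.lift {M N Q : Type} [AddCommGroup M] [Module Λ M] [AddCommGroup N] [Module Λ N]
    [AddCommGroup Q] [Module Λ Q] {γ : Gd p M} {δ : Gd p N} {ε : Gd p Q} (hp : GR p) (h : HB γ)
    {u : M →ₗ[Λ] Q} {v : N →ₗ[Λ] Q} (hu : Cm γ ε u) (hv : Cm δ ε v) (e : ∀ m, ∃ n, v n = u m) :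
    ∃ w : M →ₗ[Λ] N, Cm γ δ w ∧ ∀ m, v (w m) = u m := by
  obtain ⟨ι, b, hb⟩ := h
  choose g hg using hb
  choose n hn using fun i => e (b i)
  have h1 : v ∘ₗ b.constr Λ (fun i => δ.pr (g i) (n i)) = u := b.ext fun i => by
    rw [LinearMap.comp_apply, Module.Basis.constr_basis, ← hv, hn, hu.hom (hg i)]
  refine ⟨b.constr Λ fun i => δ.pr (g i) (n i), fun a m => ?_, fun m => LinearMap.congr_fun h1 m⟩
  rw [← b.linearCombination_repr m, Finsupp.linearCombination_apply, Finsupp.sum, map_sum, map_sum,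
    map_sum, map_sum]
  refine Finset.sum_congr rfl fun i _ => ?_
  rw [map_smul, Module.Basis.constr_basis, δ.smul (δ.idem hp _ _), γ.smul (hg i), map_smul,
    Module.Basis.constr_basis]

variable {X : ℕ → Type} [∀ r, AddCommGroup (X r)] [∀ r, Module Λ (X r)]

/-- an exact complex of graded free modules is contractible -/
theorem contr (hp : GR p) (γ : ∀ r, Gd p (X r)) (hγ : ∀ r, HB (γ r))
    (b : ∀ r, X (r + 1) →ₗ[Λ] X r) (hb : ∀ r, Cm (γ (r + 1)) (γ r) (b r))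
    (bb : ∀ r x, b r (b (r + 1) x) = 0) (e0 : ∀ x, ∃ y, b 0 y = x)
    (e : ∀ r x, b r x = 0 → ∃ y, b (r + 1) y = x) :
    ∃ h : ∀ r, X r →ₗ[Λ] X (r + 1), (∀ r, Cm (γ r) (γ (r + 1)) (h r)) ∧
      (∀ x, b 0 (h 0 x) = x) ∧ ∀ r x, b (r + 1) (h (r + 1) x) + h r (b r x) = x := by
  let S := fun r => {h : X r →ₗ[Λ] X (r + 1) // Cm (γ r) (γ (r + 1)) h ∧
    ∀ x, b r (h (b r x)) = b r x}
  obtain ⟨h0, h1, h2⟩ := (hγ 0).lift hp (u := LinearMap.id) (fun _ _ => rfl) (hb 0) e0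
  have st : ∀ r (h : S r), ∃ k : S (r + 1), ∀ x, b (r + 1) (k.1 x) + h.1 (b r x) = x := by
    intro r h
    obtain ⟨k, k1, k2⟩ := (hγ (r + 1)).lift hp (u := LinearMap.id - h.1 ∘ₗ b r)
      (fun g m => by
        change (γ (r + 1)).pr g (m - h.1 (b r m)) = (γ (r + 1)).pr g m - h.1 (b r _)
        rw [map_sub, h.2.1, hb r]) (hb (r + 1))
      fun m => e r _ (by
        change b r (m - h.1 (b r m)) = 0
        rw [map_sub, h.2.2, sub_self])
    refine ⟨⟨k, k1, fun x => ?_⟩, fun x => ?_⟩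
    · rw [k2]
      change b (r + 1) x - h.1 (b r (b (r + 1) x)) = _
      rw [bb, map_zero, sub_zero]
    · rw [k2]
      exact sub_add_cancel _ _
  choose k hk using st
  let s : ∀ r, S r := fun r => Nat.rec ⟨h0, h1, fun x => h2 _⟩ k r
  exact ⟨fun r => (s r).1, fun r => (s r).2.1, h2, fun r => hk r (s r)⟩

end contr

/-- a homogeneous homotopy equivalence between two complexes of graded free modules, which vanish
at the place `0` -/
structure HE (p : G → Λ →+ Λ) {ι κ : ℕ → Type} [∀ r, Fintype (ι r)] [∀ r, DecidableEq (ι r)]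
    [∀ r, Fintype (κ r)] [∀ r, DecidableEq (κ r)] (q : ∀ r, ι r → G) (w : ∀ r, κ r → G)
    (d : ∀ r, Matrix (ι r) (ι (r + 1)) Λ) (e : ∀ r, Matrix (κ r) (κ (r + 1)) Λ) where
  β : ∀ r, Matrix (κ r) (ι r) Λ
  α : ∀ r, Matrix (ι r) (κ r) Λ
  a : ∀ r, Matrix (ι (r + 1)) (ι r) Λ
  c : ∀ r, Matrix (κ (r + 1)) (κ r) Λ
  hβ : ∀ r, HM p (q r) (w r) (β r)
  hα : ∀ r, HM p (w r) (q r) (α r)
  ha : ∀ r, HM p (q r) (q (r + 1)) (a r)
  hc : ∀ r, HM p (w r) (w (r + 1)) (c r)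
  chβ : ∀ r, e r * β (r + 1) = β r * d r
  chα : ∀ r, d r * α (r + 1) = α r * e r
  αβ : ∀ r, α (r + 1) * β (r + 1) + d (r + 1) * a (r + 1) + a r * d r = 1
  βα : ∀ r, β (r + 1) * α (r + 1) + e (r + 1) * c (r + 1) + c r * e r = 1

/-- a map of complexes with exact cone is a homotopy equivalence -/
theorem he_of_cone (hp : GR p) {ι κ : ℕ → Type} [∀ r, Fintype (ι r)] [∀ r, DecidableEq (ι r)]
    [∀ r, Fintype (κ r)] [∀ r, DecidableEq (κ r)] [IsEmpty (ι 0)] [IsEmpty (κ 0)]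
    {q : ∀ r, ι r → G} {w : ∀ r, κ r → G} {d : ∀ r, Matrix (ι r) (ι (r + 1)) Λ}
    {e : ∀ r, Matrix (κ r) (κ (r + 1)) Λ} (hd : ∀ r, HM p (q (r + 1)) (q r) (d r))
    (he : ∀ r, HM p (w (r + 1)) (w r) (e r)) (dd : ∀ r, d r * d (r + 1) = 0)
    (ee : ∀ r, e r * e (r + 1) = 0) (β : ∀ r, Matrix (κ r) (ι r) Λ)
    (hβ : ∀ r, HM p (q r) (w r) (β r)) (ch : ∀ r, e r * β (r + 1) = β r * d r)
    (e0 : ∀ k : κ 1 → Λ, ∃ g l, k = β 1 *ᵥ g + e 1 *ᵥ l)
    (ex : ∀ r f k, d r *ᵥ f = 0 → e (r + 1) *ᵥ k = β (r + 1) *ᵥ f →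
      ∃ g l, d (r + 1) *ᵥ g = f ∧ k = β (r + 2) *ᵥ g + e (r + 2) *ᵥ l) :
    ∃ H : HE p q w d e, H.β = β := by
  let X := fun r => (ι r → Λ) × (κ (r + 1) → Λ)
  let γ : ∀ r, Gd p (X r) := fun r => (fr hp (q r)).prod (fr hp (w (r + 1))) hp
  let b : ∀ r, X (r + 1) →ₗ[Λ] X r := fun r =>
    ((d r).mulVecLin ∘ₗ LinearMap.fst _ _ _).prod
      ((β (r + 1)).mulVecLin ∘ₗ LinearMap.fst _ _ _ - (e (r + 1)).mulVecLin ∘ₗ LinearMap.snd _ _ _)
  have db : ∀ r (x : X (r + 1)), b r x = (d r *ᵥ x.1, β (r + 1) *ᵥ x.1 - e (r + 1) *ᵥ x.2) :=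
    fun _ _ => rfl
  obtain ⟨h, h1, h2, h3⟩ := contr hp γ (fun r => (hb_fr hp _).prod hp (hb_fr hp _)) b
    (fun r g x => by
      refine Prod.ext ((hd r).cm hp g x.1) ?_
      change (fr hp (w (r + 1))).pr g (β (r + 1) *ᵥ x.1 - e (r + 1) *ᵥ x.2) = _
      rw [map_sub]
      exact congrArg₂ (· - ·) ((hβ _).cm hp g x.1) ((he _).cm hp g x.2))
    (fun r x => by
      rw [db, db]
      refine Prod.ext ?_ ?_
      · change d r *ᵥ (d (r + 1) *ᵥ x.1) = 0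
        rw [mulVec_mulVec, dd, zero_mulVec]
      · change β (r + 1) *ᵥ (d (r + 1) *ᵥ x.1) -
          e (r + 1) *ᵥ (β (r + 2) *ᵥ x.1 - e (r + 2) *ᵥ x.2) = 0
        rw [mulVec_sub, mulVec_mulVec, mulVec_mulVec, mulVec_mulVec, ch, ee, zero_mulVec, sub_zero,
          sub_self])
    (fun x => by
      obtain ⟨g, l, hl⟩ := e0 x.2
      refine ⟨(g, -l), Prod.ext (Subsingleton.elim _ _) ?_⟩
      change β 1 *ᵥ g - e 1 *ᵥ (-l) = x.2
      rw [mulVec_neg, sub_neg_eq_add, hl])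
    (fun r x hx => by
      rw [db, Prod.mk_eq_zero, sub_eq_zero] at hx
      obtain ⟨g, l, hg, hl⟩ := ex r x.1 x.2 hx.1 hx.2.symm
      refine ⟨(g, -l), Prod.ext hg ?_⟩
      change β (r + 2) *ᵥ g - e (r + 2) *ᵥ (-l) = x.2
      rw [mulVec_neg, sub_neg_eq_add, hl])
  let A := fun r => LinearMap.fst Λ _ _ ∘ₗ h r ∘ₗ LinearMap.inr Λ (ι r → Λ) (κ (r + 1) → Λ)
  let a := fun r => LinearMap.fst Λ _ _ ∘ₗ h r ∘ₗ LinearMap.inl Λ (ι r → Λ) (κ (r + 1) → Λ)
  let c := fun r => -(LinearMap.snd Λ _ _ ∘ₗ h r ∘ₗ LinearMap.inr Λ (ι r → Λ) (κ (r + 1) → Λ))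
  have cr : ∀ r g (k : κ (r + 1) → Λ), (γ (r + 1)).pr g (h r (0, k)) =
      h r (0, (fr hp (w (r + 1))).pr g k) := fun r g k => by
    rw [h1 r, Gd.prod_pr, map_zero]
  have cl : ∀ r g (f : ι r → Λ), (γ (r + 1)).pr g (h r (f, 0)) =
      h r ((fr hp (q r)).pr g f, 0) := fun r g k => by
    rw [h1 r, Gd.prod_pr, map_zero]
  have hA : ∀ r, Cm (fr hp (w (r + 1))) (fr hp (q (r + 1))) (A r) :=
    fun r g k => congrArg Prod.fst (cr r g k)
  have ha : ∀ r, Cm (fr hp (q r)) (fr hp (q (r + 1))) (a r) :=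
    fun r g k => congrArg Prod.fst (cl r g k)
  have hc : ∀ r, Cm (fr hp (w (r + 1))) (fr hp (w (r + 2))) (c r) := fun r g k => by
    change (fr hp (w (r + 2))).pr g (-(h r (0, k)).2) = -(h r (0, _)).2
    rw [map_neg]
    exact congrArg (fun x => -x.2) (cr r g k)
  have key : ∀ {μ ν : Type} [Fintype μ] [DecidableEq μ] (M N : Matrix ν μ Λ),
      (∀ v, M *ᵥ v = N *ᵥ v) → M = N := fun M N h => by
    ext i j
    have := congrFun (h (Pi.single j 1)) i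
    rwa [mulVec_single_one, mulVec_single_one] at this
  have tm : ∀ {μ ν : Type} [Fintype μ] [DecidableEq μ] (u : (μ → Λ) →ₗ[Λ] (ν → Λ)) v,
      LinearMap.toMatrix' u *ᵥ v = u v := fun u v => LinearMap.toMatrix'_mulVec u v
  have nk : ∀ r (k : κ (r + 1) → Λ), h r (0, -k) = -h r (0, k) := fun r k => by
    rw [← map_neg, Prod.neg_mk, neg_zero]
  have bk : ∀ r (k : κ (r + 2) → Λ), b r (0, k) = (0, -(e (r + 1) *ᵥ k)) := fun r k => by
    rw [db, mulVec_zero, mulVec_zero, zero_sub]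
  refine ⟨⟨β, fun r => Nat.casesOn r 0 fun r => LinearMap.toMatrix' (A r),
    fun r => LinearMap.toMatrix' (a r), fun r => Nat.casesOn r 0 fun r => LinearMap.toMatrix' (c r),
    hβ, ?_, fun r => (ha r).hm hp, ?_, ch, ?_, ?_, ?_⟩, rfl⟩
  · rintro (_ | r)
    · exact fun k => isEmptyElim k
    · exact (hA r).hm hp
  · rintro (_ | r)
    · exact fun _ k => isEmptyElim k
    · exact (hc r).hm hp
  · rintro (_ | r)
    · ext k
      exact isEmptyElim k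
    · refine key _ _ fun k => ?_
      have := congrArg Prod.fst (h3 r (0, k))
      rw [bk, nk] at this
      change d (r + 1) *ᵥ A (r + 1) k + -A r (e (r + 1) *ᵥ k) = 0 at this
      change (d (r + 1) * LinearMap.toMatrix' (A (r + 1))) *ᵥ k =
        (LinearMap.toMatrix' (A r) * e (r + 1)) *ᵥ k
      rw [← mulVec_mulVec, ← mulVec_mulVec, tm, tm]
      exact add_neg_eq_zero.1 this
  · intro r
    refine key _ _ fun f => ?_
    have := congrArg Prod.fst (h3 r (f, 0))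
    rw [db r, mulVec_zero, sub_zero, show ((d r *ᵥ f, β (r + 1) *ᵥ f) : X r) =
      (d r *ᵥ f, 0) + (0, β (r + 1) *ᵥ f) by rw [Prod.mk_add_mk, add_zero, zero_add],
      map_add] at this
    change d (r + 1) *ᵥ a (r + 1) f + (a r (d r *ᵥ f) + A r (β (r + 1) *ᵥ f)) = f at this
    change (LinearMap.toMatrix' (A r) * β (r + 1) + _ + _) *ᵥ f = _
    rw [add_mulVec, add_mulVec, ← mulVec_mulVec, ← mulVec_mulVec, ← mulVec_mulVec, tm, tm, tm,
      one_mulVec]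
    refine Eq.trans ?_ this
    abel
  · rintro (_ | r)
    · refine key _ _ fun k => ?_
      have := congrArg Prod.snd (h2 (0, k))
      change β 1 *ᵥ A 0 k - e 1 *ᵥ (h 0 (0, k)).2 = k at this
      change (β 1 * LinearMap.toMatrix' (A 0) + e 1 * LinearMap.toMatrix' (c 0) + 0 * e 0) *ᵥ k = _
      rw [Matrix.zero_mul, add_zero, add_mulVec, ← mulVec_mulVec, ← mulVec_mulVec, tm, tm,
        one_mulVec]
      refine Eq.trans ?_ this
      change _ + e 1 *ᵥ (-(h 0 (0, k)).2) = _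
      rw [mulVec_neg, ← sub_eq_add_neg]
    · refine key _ _ fun k => ?_
      have := congrArg Prod.snd (h3 r (0, k))
      rw [bk, nk] at this
      change β (r + 2) *ᵥ A (r + 1) k - e (r + 2) *ᵥ (h (r + 1) (0, k)).2 +
        c r (e (r + 1) *ᵥ k) = k at this
      change (β (r + 2) * LinearMap.toMatrix' (A (r + 1)) +
        e (r + 2) * LinearMap.toMatrix' (c (r + 1)) + LinearMap.toMatrix' (c r) * e (r + 1)) *ᵥ k = _
      rw [add_mulVec, add_mulVec, ← mulVec_mulVec, ← mulVec_mulVec, ← mulVec_mulVec, tm, tm, tm,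
        one_mulVec]
      refine Eq.trans ?_ this
      change _ + e (r + 2) *ᵥ (-(h (r + 1) (0, k)).2) + _ = _
      rw [mulVec_neg, ← sub_eq_add_neg]

end Vale.Agent.P287T.Sx
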