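import Vale.Agent.P287T.Sx.R2

/-!
# P287 phase 2, block STRICT (c): the model compared with a finite free complex
-/

namespace Vale.Agent.P287T.Sx

open Matrix

variable {G : Type} [AddCommGroup G] {Λ : Type} [CommRing Λ] {p : G → Λ →+ Λ}
  {Λ' : Type} [CommRing Λ'] [Algebra Λ Λ'] {p' : G → Λ' →+ Λ'}
  {C C' : ℕ → Type} [∀ r, AddCommGroup (C r)] [∀ r, Module Λ (C r)]
  [∀ r, AddCommGroup (C' r)] [∀ r, Module Λ (C' r)] [∀ r, Module Λ' (C' r)]
  [∀ r, IsScalarTower Λ Λ' (C' r)]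

/-- a graded complex over `Λ` which over `Λ'` is quasi-isomorphic to a finite free complex has a
finite free model, and the model is homotopy equivalent to that complex over `Λ'` -/
theorem res_core [Module.Flat Λ Λ'] [IsNoetherianRing Λ'] (hp : GR p) (hp' : GR p')
    (ha : ∀ g a, p' g (algebraMap Λ Λ' a) = algebraMap Λ Λ' (p g a)) (γ : ∀ r, Gd p (C r))
    {j : ∀ r, C r →ₗ[Λ] C' r} (hj : ∀ r, IsBaseChange Λ' (j r)) {b : ∀ r, C (r + 1) →ₗ[Λ] C r}
    {b' : ∀ r, C' (r + 1) →ₗ[Λ'] C' r} (hb : ∀ r, Cm (γ (r + 1)) (γ r) (b r))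
    (hc : ∀ r x, b' r (j (r + 1) x) = j r (b r x))
    {κ : ℕ → Type} [∀ r, Fintype (κ r)] [∀ r, DecidableEq (κ r)] [IsEmpty (κ 0)]
    {w : ∀ r, κ r → G} {e : ∀ r, Matrix (κ r) (κ (r + 1)) Λ'}
    (he : ∀ r, HM p' (w (r + 1)) (w r) (e r)) (ee : ∀ r, e r * e (r + 1) = 0)
    (π : ∀ r, C' r →ₗ[Λ'] (κ r → Λ')) (πc : ∀ r x, π r (b' r x) = e r *ᵥ π (r + 1) x)
    (πh : ∀ r g x, (γ r).pr g x = x → ∀ k, p' (g - w r k) (π r (j r x) k) = π r (j r x) k)
    (inj : ∀ r x c, b' r x = 0 → π (r + 1) x = e (r + 1) *ᵥ c → ∃ y, x = b' (r + 1) y)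
    (sur : ∀ r k, e r *ᵥ k = 0 → ∃ x c, b' r x = 0 ∧ k = π (r + 1) x + e (r + 1) *ᵥ c) :
    ∃ (n : ℕ → ℕ) (q : ∀ r, Fin (n r) → G) (d : ∀ r, Matrix (Fin (n r)) (Fin (n (r + 1))) Λ),
      (∀ r, HM p (q (r + 1)) (q r) (d r)) ∧ (∀ r, d r * d (r + 1) = 0) ∧
      Nonempty (HE p' q w (fun r => (d r).map (algebraMap Λ Λ')) e) := by
  classical
  obtain ⟨M⟩ := exists_mdl hp γ hj hb hc fun r => by
    obtain ⟨T, hT, hT'⟩ := fg_mod (LinearMap.ker (b' r)) (LinearMap.range (b' (r + 1))) (π (r + 1))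
      ∅ (by simp) (fun z hz h => by
        obtain ⟨y, hy⟩ := inj r z 0 hz (by rw [h, mulVec_zero])
        exact Submodule.mem_sup_right ⟨y, hy.symm⟩) (LinearMap.ker (b' r)) Submodule.subset_span
    refine ⟨T, fun v hv => hT hv, fun x hx => ?_⟩
    obtain ⟨u, hu, _, ⟨s, rfl⟩, h⟩ := Submodule.mem_sup.1 (hT' hx)
    exact ⟨s, by rwa [← h, add_sub_cancel_right]⟩
  have : IsEmpty (Fin (M.n 0)) := by rw [M.n0]; infer_instance
  let φ := fun r => Fintype.linearCombination Λ' fun i => j r (M.t r i)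
  have dφ : ∀ r f, φ r f = ∑ i, f i • j r (M.t r i) := fun r f =>
    Fintype.linearCombination_apply _ _ _
  let β : ∀ r, Matrix (κ r) (Fin (M.n r)) Λ' := fun r => of fun k i => π r (j r (M.t r i)) k
  have hβ : ∀ r f, β r *ᵥ f = π r (φ r f) := fun r f => by
    funext k
    rw [dφ, map_sum, Finset.sum_apply, mulVec, dotProduct]
    refine Finset.sum_congr rfl fun i _ => ?_
    rw [map_smul]
    exact mul_comm _ _
  have hφ : ∀ r g, b' r (φ (r + 1) g) = φ r ((M.d r).map (algebraMap Λ Λ') *ᵥ g) := fun r g => by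
    simp only [dφ, map_sum, map_smul, hc, M.ch, mulVec, dotProduct, map_apply, Finset.sum_smul,
      Finset.smul_sum]
    rw [Finset.sum_comm]
    refine Finset.sum_congr rfl fun i _ => Finset.sum_congr rfl fun k _ => ?_
    rw [mul_comm, mul_smul, algebraMap_smul]
  obtain ⟨H, -⟩ := he_of_cone hp' (q := M.q) (d := fun r => (M.d r).map (algebraMap Λ Λ'))
    (fun r k i => by rw [map_apply, ha, M.hd r k i]) he
    (fun r => by rw [← Matrix.map_mul, M.dd, Matrix.map_zero _ (map_zero _)]) ee β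
    (fun r k i => πh r _ _ (M.ht r i) k)
    (fun r => by
      ext k i
      have := πc r (φ (r + 1) (Pi.single i 1))
      rw [hφ, ← hβ, ← hβ, mulVec_mulVec, mulVec_mulVec, mulVec_single_one, mulVec_single_one] at this
      exact (congrFun this k).symm)
    (fun k => by
      obtain ⟨x, c, hx, hk⟩ := sur 0 k (Subsingleton.elim _ _)
      obtain ⟨g, s, h⟩ := M.ex0 x hx
      refine ⟨g, π 2 s + c, ?_⟩
      rw [hk, h, ← dφ, map_add, πc, hβ, mulVec_add, add_assoc])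
    (fun r f k hf hk => by
      obtain ⟨y, hy⟩ := inj r (φ (r + 1) f) k (by rw [hφ, hf, map_zero]) (by rw [hk, hβ])
      obtain ⟨x, c, hx, h⟩ := sur (r + 1) (k - π (r + 2) y) (by
        rw [mulVec_sub, hk, hβ, hy, πc, sub_self])
      obtain ⟨g, s, hg, hs⟩ := M.ex r f (y + x) hf (by rw [map_add, hx, add_zero, ← hy, dφ])
      refine ⟨g, π (r + 3) s + c, hg, ?_⟩
      have h1 := congrArg (π (r + 2)) hs
      rw [map_add, map_add, ← dφ, ← hβ, πc] at h1
      rw [mulVec_add, ← add_assoc]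
      refine (sub_eq_iff_eq_add.1 h).trans (Eq.trans ?_ (congrArg (· + e (r + 2) *ᵥ c) h1))
      abel)
  exact ⟨M.n, M.q, M.d, M.hd, M.dd, ⟨H⟩⟩

end Vale.Agent.P287T.Sx
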