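import Vale.Agent.P287T.Sx.R3
import Mathlib.RingTheory.TensorProduct.Quotient
import Mathlib.RingTheory.Flat.Stability
import Mathlib.Algebra.Module.Torsion.Basic

/-!
# P287 phase 2, block STRICT (c): descent to quotient rings
-/

namespace Vale.Agent.P287T.Sx

open Matrix TensorProduct

section desc

theorem desc_add {A C Q : Type} [AddCommGroup A] [AddCommGroup C] [AddCommGroup Q] (u : A →+ C)
    (hu : Function.Surjective u) (f : A →+ Q) (hk : ∀ v, u v = 0 → f v = 0) :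
    ∃ f' : C →+ Q, ∀ v, f' (u v) = f v :=
  ⟨u.liftOfSurjective hu ⟨f, hk⟩, fun v => u.liftOfRightInverse_comp_apply _ _ ⟨f, hk⟩ v⟩

variable {G : Type} [AddCommGroup G] {L Λ : Type} [CommRing L] [CommRing Λ] [Algebra L Λ]
  {p : G → L →+ L}

theorem GR.desc (hp : GR p) (hs : Function.Surjective (algebraMap L Λ))
    (hk : ∀ g a, algebraMap L Λ a = 0 → algebraMap L Λ (p g a) = 0) :
    ∃ q : G → Λ →+ Λ, GR q ∧ ∀ g a, q g (algebraMap L Λ a) = algebraMap L Λ (p g a) := by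
  choose q hq using fun g => desc_add (algebraMap L Λ).toAddMonoidHom hs
    ((algebraMap L Λ).toAddMonoidHom.comp (p g)) (hk g)
  replace hq : ∀ g a, q g (algebraMap L Λ a) = algebraMap L Λ (p g a) := hq
  refine ⟨q, ⟨?_, fun g hg => ?_, fun a => ?_, fun g h a b => ?_⟩, hq⟩
  · rw [← map_one (algebraMap L Λ), hq, hp.one]
  · rw [← map_one (algebraMap L Λ), hq, hp.one' g hg, map_zero]
  · obtain ⟨a, rfl⟩ := hs a
    obtain ⟨s, h⟩ := hp.sum a
    exact ⟨s, by simp only [hq, ← map_sum, h]⟩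
  · obtain ⟨a, rfl⟩ := hs a
    obtain ⟨b, rfl⟩ := hs b
    rw [hq, ← map_mul, hq, hq, hp.mul, map_mul]

variable {T C Q : Type} [AddCommGroup T] [Module L T] [AddCommGroup C] [Module L C] [Module Λ C]
  [IsScalarTower L Λ C] [AddCommGroup Q] [Module L Q] [Module Λ Q] [IsScalarTower L Λ Q]

theorem Gd.desc (γ : Gd p T) (hs : Function.Surjective (algebraMap L Λ)) {q : G → Λ →+ Λ}
    (hq : ∀ g a, q g (algebraMap L Λ a) = algebraMap L Λ (p g a)) (u : T →ₗ[L] C)
    (hu : Function.Surjective u) (hk : ∀ g v, u v = 0 → u (γ.pr g v) = 0) :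
    ∃ δ : Gd q C, ∀ g v, δ.pr g (u v) = u (γ.pr g v) := by
  choose r hr using fun g => desc_add u.toAddMonoidHom hu (u.toAddMonoidHom.comp (γ.pr g)) (hk g)
  replace hr : ∀ g v, r g (u v) = u (γ.pr g v) := hr
  refine ⟨⟨r, fun v => ?_, fun g h a v => ?_⟩, hr⟩
  · obtain ⟨v, rfl⟩ := hu v
    obtain ⟨s, h⟩ := γ.sum v
    exact ⟨s, by simp only [hr, ← map_sum, h]⟩
  · obtain ⟨a, rfl⟩ := hs a
    obtain ⟨v, rfl⟩ := hu v
    rw [hr, hq, algebraMap_smul, algebraMap_smul, ← map_smul, hr, γ.hom, map_smul]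

theorem desc_lin (hs : Function.Surjective (algebraMap L Λ)) (u : T →ₗ[L] C)
    (hu : Function.Surjective u) (f : T →ₗ[L] Q) (hk : ∀ v, u v = 0 → f v = 0) :
    ∃ f' : C →ₗ[Λ] Q, ∀ v, f' (u v) = f v := by
  obtain ⟨g, hg⟩ := desc_add u.toAddMonoidHom hu f.toAddMonoidHom hk
  replace hg : ∀ v, g (u v) = f v := hg
  refine ⟨⟨g, fun a v => ?_⟩, hg⟩
  obtain ⟨a, rfl⟩ := hs a
  obtain ⟨v, rfl⟩ := hu v
  change g _ = _ • g _
  rw [RingHom.id_apply, algebraMap_smul, algebraMap_smul, ← map_smul, hg, hg, map_smul]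

theorem bc_le {L' : Type} [CommRing L'] [Algebra L L'] {N : Submodule L T}
    {P : Submodule L' (L' ⊗[L] T)} (h : ∀ v ∈ N, (1 : L') ⊗ₜ[L] v ∈ P) : N.baseChange L' ≤ P := by
  rw [Submodule.baseChange_eq_span]
  refine Submodule.span_le.2 ?_
  rintro _ ⟨v, hv, rfl⟩
  exact h v hv

theorem bc_desc {L' Λ' C' : Type} [CommRing L'] [CommRing Λ'] [Algebra L L'] [Algebra L' Λ']
    [Algebra Λ Λ'] [Algebra L Λ'] [IsScalarTower L L' Λ'] [IsScalarTower L Λ Λ']
    (hs' : Function.Surjective (algebraMap L' Λ')) [AddCommGroup C'] [Module L' C'] [Module Λ C']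
    [Module Λ' C'] [IsScalarTower L' Λ' C'] [IsScalarTower Λ Λ' C'] (u : T →ₗ[L] C)
    (hu : Function.Surjective u) (u' : L' ⊗[L] T →ₗ[L'] C') (hu' : Function.Surjective u')
    (hk : ∀ z, u' z = 0 → z ∈ (LinearMap.ker u).baseChange L') (j : C →ₗ[Λ] C')
    (hj : ∀ v, j (u v) = u' (1 ⊗ₜ v)) : IsBaseChange Λ' j := by
  let g0 : T →ₗ[L] Λ' ⊗[Λ] C :=
    { toFun := fun v => (1 : Λ') ⊗ₜ[Λ] u v
      map_add' := fun a b => by rw [map_add, tmul_add]
      map_smul' := fun a v => by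
        rw [RingHom.id_apply, map_smul, ← algebraMap_smul Λ a, tmul_smul, algebraMap_smul] }
  obtain ⟨g, hg⟩ := desc_lin hs' u' hu' (g0.liftBaseChange L') fun z hz =>
    bc_le (P := LinearMap.ker (g0.liftBaseChange L')) (fun v hv => by
      rw [LinearMap.mem_ker, LinearMap.liftBaseChange_one_tmul]
      change (1 : Λ') ⊗ₜ[Λ] u v = 0
      rw [LinearMap.mem_ker.1 hv, tmul_zero]) (hk z hz)
  have h1 : ∀ c, g (j c) = (1 : Λ') ⊗ₜ[Λ] c := fun c => by
    obtain ⟨v, rfl⟩ := hu c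
    rw [hj, hg, LinearMap.liftBaseChange_one_tmul]
    rfl
  refine IsBaseChange.of_equiv (LinearEquiv.ofLinearMap (j.liftBaseChange Λ') g ?_ ?_) fun x =>
    j.liftBaseChange_one_tmul Λ' x
  · ext x
    obtain ⟨z, rfl⟩ := hu' x
    change j.liftBaseChange Λ' (g (u' z)) = u' z
    induction z using TensorProduct.induction_on with
    | zero => simp only [map_zero]
    | tmul a v =>
      rw [← mul_one a, ← smul_eq_mul, ← smul_tmul', map_smul, ← algebraMap_smul Λ', map_smul,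
        map_smul, ← hj, h1, LinearMap.liftBaseChange_one_tmul]
    | add a b ha hb => simp only [map_add, ha, hb]
  · ext x
    change g (j.liftBaseChange Λ' (1 ⊗ₜ x)) = 1 ⊗ₜ x
    rw [LinearMap.liftBaseChange_one_tmul, h1]

theorem exists_mod (hs : Function.Surjective (algebraMap L Λ)) (X : Type) [AddCommGroup X]
    [Module L X] (h : ∀ a, algebraMap L Λ a = 0 → ∀ x : X, a • x = 0) :
    ∃ _ : Module Λ X, IsScalarTower L Λ X := by
  let ψ : Λ →+* AddMonoid.End X := (algebraMap L Λ).liftOfSurjective hs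
    ⟨Module.toAddMonoidEnd L X, fun a ha => AddMonoidHom.ext (h a ha)⟩
  let m : Module Λ X := Module.compHom X ψ
  refine ⟨m, IsScalarTower.of_algebraMap_smul fun a x => ?_⟩
  exact DFunLike.congr_fun ((algebraMap L Λ).liftOfRightInverse_comp_apply _
    (Function.rightInverse_surjInv hs) (⟨Module.toAddMonoidEnd L X, fun a ha => AddMonoidHom.ext (h a ha)⟩) a) x

theorem lift_hm (hp : GR p) (hs : Function.Surjective (algebraMap L Λ)) {q : G → Λ →+ Λ}
    (hq : ∀ g a, q g (algebraMap L Λ a) = algebraMap L Λ (p g a)) {ι κ : Type} {r : ι → G}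
    {s : κ → G} {d : Matrix κ ι Λ} (hd : HM q r s d) :
    ∃ D : Matrix κ ι L, HM p r s D ∧ D.map (algebraMap L Λ) = d := by
  choose a ha using fun k i => hs (d k i)
  refine ⟨of fun k i => p (r i - s k) (a k i), fun k i => hp.gd.idem hp _ _, ?_⟩
  ext k i
  rw [map_apply, of_apply, ← hq, ha, hd]

end desc

section out

variable {G : Type} [AddCommGroup G] {L L' Λ Λ' : Type} [CommRing L] [CommRing L'] [CommRing Λ]
  [CommRing Λ'] [Algebra L L'] [Algebra L Λ] [Algebra L' Λ'] [Algebra Λ Λ'] [Algebra L Λ']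
  [IsScalarTower L L' Λ'] [IsScalarTower L Λ Λ'] {p : G → L →+ L} {p' : G → L' →+ L'}

/-- the resolution and its comparison with the complex `e`, modulo the kernels of `f` and `f'` -/
structure OutL (p : G → L →+ L) (p' : G → L' →+ L') (f : L →+* Λ) (f' : L' →+* Λ')
    {κ : ℕ → Type} [∀ r, Fintype (κ r)] [∀ r, DecidableEq (κ r)] (s : ∀ r, κ r → G)
    (e : ∀ r, Matrix (κ r) (κ (r + 1)) L') where
  n : ℕ → ℕ
  q : ∀ r, Fin (n r) → G
  δ : ∀ r, Matrix (Fin (n r)) (Fin (n (r + 1))) L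
  β : ∀ r, Matrix (κ r) (Fin (n r)) L'
  α : ∀ r, Matrix (Fin (n r)) (κ r) L'
  a : ∀ r, Matrix (Fin (n (r + 1))) (Fin (n r)) L'
  c : ∀ r, Matrix (κ (r + 1)) (κ r) L'
  hδ : ∀ r, HM p (q (r + 1)) (q r) (δ r)
  hβ : ∀ r, HM p' (q r) (s r) (β r)
  hα : ∀ r, HM p' (s r) (q r) (α r)
  ha : ∀ r, HM p' (q r) (q (r + 1)) (a r)
  hc : ∀ r, HM p' (s r) (s (r + 1)) (c r)
  δδ : ∀ r, (δ r * δ (r + 1)).map f = 0
  chβ : ∀ r, (e r * β (r + 1)).map f' = (β r * (δ r).map (algebraMap L L')).map f'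
  chα : ∀ r, ((δ r).map (algebraMap L L') * α (r + 1)).map f' = (α r * e r).map f'
  αβ : ∀ r, (α (r + 1) * β (r + 1) + (δ (r + 1)).map (algebraMap L L') * a (r + 1) +
    a r * (δ r).map (algebraMap L L')).map f' = 1
  βα : ∀ r, (β (r + 1) * α (r + 1) + e (r + 1) * c (r + 1) + c r * e r).map f' = 1

theorem res_L [Module.Flat Λ Λ'] [IsNoetherianRing Λ'] (hp : GR p) (hp' : GR p')
    (ha : ∀ g a, p' g (algebraMap L L' a) = algebraMap L L' (p g a))
    (hs : Function.Surjective (algebraMap L Λ)) (hs' : Function.Surjective (algebraMap L' Λ'))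
    (hk : ∀ g a, algebraMap L Λ a = 0 → algebraMap L Λ (p g a) = 0)
    (hk' : ∀ g a, algebraMap L' Λ' a = 0 → algebraMap L' Λ' (p' g a) = 0)
    {T : Type} [AddCommGroup T] [Module L T] (γ : ℕ → Gd p T) (D : T →ₗ[L] T)
    (hD : ∀ r, Cm (γ (r + 1)) (γ r) D) (N : ℕ → Submodule L T)
    (hN : ∀ r g v, v ∈ N r → (γ r).pr g v ∈ N r) (DN : ∀ r v, v ∈ N (r + 1) → D v ∈ N r)
    (WN : ∀ r a v, algebraMap L Λ a = 0 → a • v ∈ N r)
    (WN' : ∀ r a z, algebraMap L' Λ' a = 0 → a • z ∈ (N r).baseChange L')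
    {κ : ℕ → Type} [∀ r, Fintype (κ r)] [∀ r, DecidableEq (κ r)] [IsEmpty (κ 0)]
    {s : ∀ r, κ r → G} {e : ∀ r, Matrix (κ r) (κ (r + 1)) L'}
    (he : ∀ r, HM p' (s (r + 1)) (s r) (e r))
    (ee : ∀ r, (e r * e (r + 1)).map (algebraMap L' Λ') = 0)
    (π : ∀ r, L' ⊗[L] T →ₗ[L'] (κ r → L'))
    (πc : ∀ r z i, algebraMap L' Λ' (π r (D.baseChange L' z) i) =
      algebraMap L' Λ' ((e r *ᵥ π (r + 1) z) i))
    (πh : ∀ r g v, (γ r).pr g v = v → ∀ i, p' (g - s r i) (π r (1 ⊗ₜ v) i) = π r (1 ⊗ₜ v) i)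
    (πN : ∀ r v, v ∈ N r → ∀ i, algebraMap L' Λ' (π r (1 ⊗ₜ v) i) = 0)
    (inj : ∀ r z c, D.baseChange L' z ∈ (N r).baseChange L' →
      (∀ i, algebraMap L' Λ' (π (r + 1) z i) = algebraMap L' Λ' ((e (r + 1) *ᵥ c) i)) →
      ∃ y, z - D.baseChange L' y ∈ (N (r + 1)).baseChange L')
    (sur : ∀ r k, (∀ i, algebraMap L' Λ' ((e r *ᵥ k) i) = 0) →
      ∃ z c, D.baseChange L' z ∈ (N r).baseChange L' ∧
        ∀ i, algebraMap L' Λ' (k i) = algebraMap L' Λ' ((π (r + 1) z + e (r + 1) *ᵥ c) i)) :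
    Nonempty (OutL p p' (algebraMap L Λ) (algebraMap L' Λ') s e) := by
  obtain ⟨q, hq, pq⟩ := hp.desc hs hk
  obtain ⟨q', hq', pq'⟩ := hp'.desc hs' hk'
  have sq : ∀ a, algebraMap Λ Λ' (algebraMap L Λ a) = algebraMap L' Λ' (algebraMap L L' a) :=
    fun a => by rw [← IsScalarTower.algebraMap_apply, ← IsScalarTower.algebraMap_apply]
  let C := fun r => T ⧸ N r
  let C' := fun r => (L' ⊗[L] T) ⧸ (N r).baseChange L'
  let u : ∀ r, T →ₗ[L] C r := fun r => (N r).mkQ
  let u' : ∀ r, L' ⊗[L] T →ₗ[L'] C' r := fun r => ((N r).baseChange L').mkQ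
  have hu : ∀ r, Function.Surjective (u r) := fun r => Submodule.mkQ_surjective _
  have hu' : ∀ r, Function.Surjective (u' r) := fun r => Submodule.mkQ_surjective _
  have ku : ∀ r v, u r v = 0 ↔ v ∈ N r := fun r v => Submodule.Quotient.mk_eq_zero _
  have ku' : ∀ r v, u' r v = 0 ↔ v ∈ (N r).baseChange L' :=
    fun r v => Submodule.Quotient.mk_eq_zero _
  choose m1 t1 using fun r => exists_mod hs (C r) fun a h x => by
    obtain ⟨v, rfl⟩ := hu r x
    rw [← map_smul, ku]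
    exact WN r a v h
  choose m2 t2 using fun r => exists_mod hs' (C' r) fun a h x => by
    obtain ⟨v, rfl⟩ := hu' r x
    rw [← map_smul, ku']
    exact WN' r a v h
  let m3 : ∀ r, Module Λ (C' r) := fun r => Module.compHom _ (algebraMap Λ Λ')
  have t3 : ∀ r, IsScalarTower Λ Λ' (C' r) := fun r => IsScalarTower.of_compHom _ _ _
  have t4 : ∀ r, IsScalarTower L Λ (C' r) := fun r => IsScalarTower.of_algebraMap_smul fun a x => by
    rw [← algebraMap_smul Λ', sq, algebraMap_smul, algebraMap_smul]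
  choose δ hδ using fun r => (γ r).desc hs pq (u r) (hu r) fun g v h =>
    (ku r _).2 (hN r g v ((ku r _).1 h))
  choose b hb using fun r => desc_lin hs (u (r + 1)) (hu _) (u r ∘ₗ D) fun v h =>
    (ku r _).2 (DN r v ((ku _ _).1 h))
  replace hb : ∀ r v, b r (u (r + 1) v) = u r (D v) := hb
  choose b' hb' using fun r => desc_lin hs' (u' (r + 1)) (hu' _) (u' r ∘ₗ D.baseChange L')
    fun v h => (ku' r _).2 (bc_le (P := ((N r).baseChange L').comap (D.baseChange L'))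
      (fun v hv => Submodule.tmul_mem_baseChange_of_mem 1 (DN r v hv)) ((ku' _ _).1 h))
  replace hb' : ∀ r v, b' r (u' (r + 1) v) = u' r (D.baseChange L' v) := hb'
  choose j hj using fun r => desc_lin hs (u r) (hu r)
    ((u' r).restrictScalars L ∘ₗ TensorProduct.mk L L' T 1) fun v h =>
    (ku' r _).2 (Submodule.tmul_mem_baseChange_of_mem 1 ((ku _ _).1 h))
  replace hj : ∀ r v, j r (u r v) = u' r (1 ⊗ₜ v) := hj
  choose ρ hρ using fun r => desc_lin hs' (u' r) (hu' r)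
    ((Algebra.linearMap L' Λ').compLeft (κ r) ∘ₗ π r) fun v h =>
    bc_le (P := LinearMap.ker ((Algebra.linearMap L' Λ').compLeft (κ r) ∘ₗ π r))
      (fun v hv => funext (πN r v hv)) ((ku' _ _).1 h)
  replace hρ : ∀ r v, ρ r (u' r v) = fun i => algebraMap L' Λ' (π r v i) := hρ
  have sv : ∀ {μ : Type} (k : μ → Λ'), ∃ k' : μ → L', k = fun i => algebraMap L' Λ' (k' i) :=
    fun k => by
      choose k' h using fun i => hs' (k i)
      exact ⟨k', (funext h).symm⟩
  obtain ⟨n, g, d, hd, dd, ⟨H⟩⟩ := res_core hq hq'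
    (fun g a => by
      obtain ⟨a, rfl⟩ := hs a
      rw [sq, pq', ha, pq, sq]) δ (j := j)
    (fun r => bc_desc hs' (u r) (hu r) (u' r) (hu' r)
      (fun z h => by
        rw [show LinearMap.ker (u r) = N r from Submodule.ker_mkQ _]
        exact (ku' _ _).1 h)
      (j r) (hj r)) (b := b) (b' := b')
    (fun r g x => by
      obtain ⟨v, rfl⟩ := hu _ x
      rw [hb, hδ, hδ, hb, hD r])
    (fun r x => by
      obtain ⟨v, rfl⟩ := hu _ x
      rw [hj, hb', hb, hj, LinearMap.baseChange_tmul])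
    (w := s) (e := fun r => (e r).map (algebraMap L' Λ'))
    (fun r k i => by rw [map_apply, pq', he r k i])
    (fun r => by rw [← Matrix.map_mul, ee]) ρ
    (fun r x => by
      obtain ⟨v, rfl⟩ := hu' _ x
      rw [hb', hρ, hρ, r1_map_mulVec]
      exact funext (πc r v))
    (fun r g x hx k => by
      obtain ⟨v, rfl⟩ := hu _ x
      rw [← hx, hδ, hj, hρ]
      exact (pq' _ _).trans (congrArg _ (πh r g _ ((γ r).idem hp g v) k)))
    (fun r x c hx h => by
      obtain ⟨v, rfl⟩ := hu' _ x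
      obtain ⟨c, rfl⟩ := sv c
      rw [hρ, r1_map_mulVec] at h
      rw [hb', ku'] at hx
      obtain ⟨y, hy⟩ := inj r v c hx (congrFun h)
      exact ⟨u' _ y, by rw [hb', ← sub_eq_zero, ← map_sub, ku']; exact hy⟩)
    (fun r k h => by
      obtain ⟨k, rfl⟩ := sv k
      rw [r1_map_mulVec] at h
      obtain ⟨z, c, hz, hc⟩ := sur r k (congrFun h)
      refine ⟨u' _ z, fun i => algebraMap L' Λ' (c i), by rw [hb', ku']; exact hz, ?_⟩
      rw [hρ, r1_map_mulVec]
      exact funext fun i => (hc i).trans (map_add _ _ _))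
  choose d0 h0 e0 using fun r => lift_hm hp hs pq (hd r)
  choose β h1 e1 using fun r => lift_hm hp' hs' pq' (H.hβ r)
  choose α h2 e2 using fun r => lift_hm hp' hs' pq' (H.hα r)
  choose a h3 e3 using fun r => lift_hm hp' hs' pq' (H.ha r)
  choose c h4 e4 using fun r => lift_hm hp' hs' pq' (H.hc r)
  have e5 : ∀ r, ((d0 r).map (algebraMap L L')).map (algebraMap L' Λ') =
      (d r).map (algebraMap Λ Λ') := fun r => by
    rw [← e0]
    exact Matrix.ext fun _ _ => (sq _).symm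
  have ad : ∀ {μ ν : Type} (x y : Matrix μ ν L'), (x + y).map (algebraMap L' Λ') =
      x.map (algebraMap L' Λ') + y.map (algebraMap L' Λ') := fun x y =>
    Matrix.map_add _ (map_add _) x y
  refine ⟨⟨n, g, d0, β, α, a, c, h0, h1, h2, h3, h4, fun r => ?_, fun r => ?_, fun r => ?_,
    fun r => ?_, fun r => ?_⟩⟩
  · rw [Matrix.map_mul, e0, e0, dd]
  · simp only [Matrix.map_mul, e1, e5]
    exact H.chβ r
  · simp only [Matrix.map_mul, e2, e5]
    exact H.chα r
  · simp only [ad, Matrix.map_mul, e1, e2, e3, e5]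
    exact H.αβ r
  · simp only [ad, Matrix.map_mul, e1, e2, e4]
    exact H.βα r

end out

end Vale.Agent.P287T.Sx
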