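import Vale.Agent.P287T.Sx.CmI
import Vale.Agent.P287T.Sx.Jb

/-!
# Block STRICT: the twisted differential on the total object
-/

set_option linter.all false

open TensorProduct MvPolynomial Matrix

noncomputable section

namespace Vale.Agent.P287T.Sx

attribute [local instance] MvPolynomial.algebraMvPolynomial

variable {B D : Type} [CommRing B] [Algebra ℂ B] [CommRing D] [Algebra ℂ D] [Algebra B D]
  [IsScalarTower ℂ B D] {Q : Type} [AddCommGroup Q] [Module ℂ Q] [Module B Q]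
  [IsScalarTower ℂ B Q] {ι : Type} [Fintype ι] [DecidableEq ι] (Γ : Gr B D) (p : ι → ℤ)

variable (D) in
/-- the signs of the generators -/
def sgE : Matrix ι ι (Px D) := diagonal fun i => ((p i).negOnePow : ℤ)

variable (B D Q) in
/-- the parity operator -/
def om : Module.End (Px B) ((ι → Px D) ⊗[B] Q) := dQ B (sgE D p) Q

theorem sgE_mulVec (v : ι → Px D) (i : ι) : (sgE D p *ᵥ v) i = ((p i).negOnePow : ℤ) • v i := by
  rw [sgE, mulVec_diagonal, zsmul_eq_mul]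

theorem sgE_sgE (v : ι → Px D) : sgE D p *ᵥ sgE D p *ᵥ v = v := funext fun i => by
  rw [sgE_mulVec, sgE_mulVec, smul_smul, ← Units.val_mul, ← Int.negOnePow_add,
    Int.negOnePow_even _ ⟨_, rfl⟩, Units.val_one, one_smul]

theorem dQ_tmul (d : Matrix ι ι (Px D)) (v : ι → Px D) (q : Q) :
    dQ B d Q (v ⊗ₜ q) = (d *ᵥ v) ⊗ₜ q := rfl

theorem om_om : om B D Q p * om B D Q p = 1 :=
  AlgebraTensorModule.ext fun v q => congrArg (· ⊗ₜ[B] q) (sgE_sgE p v)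

theorem sgE_hom {δ : ℤ × ℤ} {v : ι → Px D} (hv : v ∈ (Γ.eE p).H δ) :
    sgE D p *ᵥ v = (δ.1.negOnePow : ℤ) • v := by
  ext i μ
  rw [sgE_mulVec, Pi.smul_apply, coeff_smul, coeff_smul]
  by_cases e : δ.1 = p i + 2 * (μ.degree : ℤ)
  · rw [e, Int.negOnePow_add, Int.negOnePow_two_mul, mul_one]
  · rw [show coeff μ (v i) = 0 from Γ.chD _ (by
      rw [Ex.weight_wx]; simp only [Prod.fst_sub]; omega) (Eu.mem_mv.1 (Eu.mem_pi.1 hv i) μ),
      smul_zero, smul_zero]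

theorem deg_om {f : Eu Q} (hf : Lb Γ.eB f) :
    Deg (Eu.ten (Γ.lbE p) hf) (Eu.ten (Γ.lbE p) hf) 0 (om B D Q p) :=
  deg_rT (L := Px B) (φ := Ci.dL B (sgE D p)) (Γ.lbE p) hf fun δ v hv => by
    show sgE D p *ᵥ v ∈ _
    rw [sgE_hom Γ p hv, zero_add]
    exact zsmul_mem hv _

theorem om_hom {f : Eu Q} (hf : Lb Γ.eB f) (h0 : ∀ γ : ℤ × ℤ, γ.1 ≠ 0 → f.H γ ≤ ⊥) {γ : ℤ × ℤ}
    {t : (ι → Px D) ⊗[B] Q} (ht : t ∈ (Eu.ten (Γ.lbE p) hf).H γ) :
    om B D Q p t = (γ.1.negOnePow : ℤ) • t := by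
  refine Eu.ten_ind (γ := γ) (Γ.lbE p) hf (P := fun t => om B D Q p t = (γ.1.negOnePow : ℤ) • t)
    (by simp) (fun u v a b => by rw [map_add, a, b, smul_add]) (fun δ δ' v q hv hq e => ?_) ht
  by_cases h : δ'.1 = 0
  · rw [om, dQ_tmul, sgE_hom Γ p hv, e, Prod.fst_add, h, add_zero, smul_tmul']
  · rw [show q = 0 from h0 _ h hq, tmul_zero, map_zero, smul_zero]

theorem om_comm {f : Eu Q} (hf : Lb Γ.eB f) (h0 : ∀ γ : ℤ × ℤ, γ.1 ≠ 0 → f.H γ ≤ ⊥) {γ : ℤ × ℤ}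
    {F : Module.End (Px B) ((ι → Px D) ⊗[B] Q)}
    (hF : Deg (Eu.ten (Γ.lbE p) hf) (Eu.ten (Γ.lbE p) hf) γ F) :
    om B D Q p * F = (γ.1.negOnePow : ℤ) • (F * om B D Q p) := by
  refine LinearMap.ext fun t => ?_
  induction t using (Eu.ten (Γ.lbE p) hf).ind with
  | h0 => simp
  | ha a b h h' => rw [map_add, map_add, h, h']
  | hh δ t ht =>
    rw [LinearMap.smul_apply, Module.End.mul_apply, Module.End.mul_apply,
      om_hom Γ p hf h0 (hF δ t ht), om_hom Γ p hf h0 ht, map_zsmul, smul_smul, Prod.fst_add,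
      Int.negOnePow_add, Units.val_mul]

variable (f : ℤ → Eu Q) (lb : ∀ c, Lb Γ.eB (f c))

/-- endomorphisms of Čech degree `k` and cohomological degree `m` -/
def GA (k m : ℤ) : AddSubgroup (Module.End (Px B) ((ι → Px D) ⊗[B] Q)) where
  carrier := {F | ∀ c, Deg (Eu.ten (Γ.lbE p) (lb c)) (Eu.ten (Γ.lbE p) (lb c)) (3 * m + c * k, 0) F}
  zero_mem' := fun _ => Deg.zero
  add_mem' := fun h h' c => (h c).add (h' c)
  neg_mem' := fun h c => (h c).neg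

theorem GA_mul {k m k' m' : ℤ} {x y : Module.End (Px B) ((ι → Px D) ⊗[B] Q)}
    (hx : x ∈ GA Γ p f lb k m) (hy : y ∈ GA Γ p f lb k' m') :
    x * y ∈ GA Γ p f lb (k + k') (m + m') := fun c =>
  (hx c).comp (hy c) (by ext <;> simp <;> ring)

theorem one_GA : (1 : Module.End (Px B) ((ι → Px D) ⊗[B] Q)) ∈ GA Γ p f lb 0 0 := fun c =>
  (Deg.id _).cast (by simp)

theorem om_GA : om B D Q p ∈ GA Γ p f lb 0 0 := fun c => (deg_om Γ p (lb c)).cast (by simp)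

theorem dQ_GA {m : ℤ} {d : Matrix ι ι (Px D)} (hd : MX (Γ.eD.H 0) p p (3 * m) d) :
    dQ B d Q ∈ GA Γ p f lb 0 m := fun c =>
  (deg_rT (L := Px B) (Γ.lbE p) (lb c) (Ci.deg_dL Γ p hd)).cast (by simp)

variable (h0 : ∀ γ : ℤ × ℤ, γ.1 ≠ 0 → (f 0).H γ ≤ ⊥)

include h0

theorem big : Big (GA Γ p f lb) (∑ c : ι × ι, (p c.1 - p c.2).natAbs) := by
  refine ⟨GA_mul Γ p f lb, fun {k m x} hx hm => ?_⟩
  rw [Ex.sum_cf Γ p (lb 0) h0 (hx 0)]
  refine Finset.sum_eq_zero fun c hc => ?_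
  have h1 : 2 * (c.2.2.degree : ℤ) = 3 * m + 0 * k + p c.2.1 - p c.1 :=
    (Ex.fin_idx p _).mem_toFinset.1 hc
  have h2 := Finset.single_le_sum (f := fun c : ι × ι => (p c.1 - p c.2).natAbs)
    (fun _ _ => Nat.zero_le _) (Finset.mem_univ (c.2.1, c.1))
  simp only at h2
  omega

theorem exa {d : Matrix ι ι (Px D)} (hN : Neg Γ p d) : Exa (GA Γ p f lb) (dQ B d Q) := by
  intro k hk F hF hd
  obtain ⟨x, x1, x2⟩ := stEx B D ι Γ p d hN Q (f 0) (lb 0) h0 (2 - k) F (by omega)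
    ((hF 0).cast (by simp)) hd
  exact ⟨x, fun c => (x2 _ (lb c) _ (hF c)).cast (by ext <;> simp <;> ring), x1⟩

theorem om_GA_comm {k m : ℤ} {F : Module.End (Px B) ((ι → Px D) ⊗[B] Q)}
    (hF : F ∈ GA Γ p f lb k m) : om B D Q p * F = (m.negOnePow : ℤ) • (F * om B D Q p) := by
  rw [om_comm Γ p (lb 0) h0 (hF 0), zero_mul, add_zero, show 3 * m = m + 2 * m by ring,
    Int.negOnePow_add, Int.negOnePow_two_mul, mul_one]

omit h0

theorem dQ_sq {W : Px ℂ} {d : Matrix ι ι (Px D)} (hF : Fm Γ W p d) :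
    dQ B d Q * dQ B d Q = MvPolynomial.map (algebraMap ℂ B) W • 1 :=
  AlgebraTensorModule.ext fun v q => by
    rw [Module.End.mul_apply, dQ_tmul, dQ_tmul, mulVec_mulVec, hF.sq, smul_mulVec, one_mulVec,
      LinearMap.smul_apply, Module.End.one_apply, smul_tmul',
      ← algebraMap_smul (Px D) (MvPolynomial.map (algebraMap ℂ B) W), algebraMap_def, MvPolynomial.map_map, ← IsScalarTower.algebraMap_eq]

theorem tw_ring {R : Type} [Ring R] {G : ℤ → ℤ → AddSubgroup R} {N : ℕ} (hB : Big G N)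
    {w a o b κ : R} (hW : ∀ x, w * x = x * w) (hx : Exa G a) (g0 : a ∈ G 0 1) (g1 : o * b ∈ G 1 0)
    (g2 : κ ∈ G 2 (-1)) (c0 : o * a = -(a * o)) (c1 : o * b = b * o) (r1 : b * a = a * b)
    (r2 : b * b = a * κ + κ * a) (sq : a * a = w) (oo : o * o = 1) :
    ∃ P : Polynomial R, Tot G 1 P ∧ P.coeff 0 = a ∧ P.coeff 1 = o * b ∧
      P * P = Polynomial.C w := by
  have e1 : a * (o * b) + o * b * a = 0 := by
    rw [mul_assoc o, r1, ← mul_assoc o, c0, ← mul_assoc a, neg_mul, add_neg_cancel]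
  have e2 : o * b * (o * b) = a * κ + κ * a := by
    rw [← r2, mul_assoc, ← mul_assoc b, ← c1, ← mul_assoc, ← mul_assoc, oo, one_mul]
  obtain ⟨P, hP⟩ : ∃ P, P = Polynomial.monomial 0 a + Polynomial.monomial 1 (o * b) +
    Polynomial.monomial 2 (-κ) := ⟨_, rfl⟩
  have tP : Tot G 1 P :=
    hP ▸ ((tot_monomial g0).add (tot_monomial g1)).add (tot_monomial (neg_mem g2))
  have p0 : P.coeff 0 = a := by simp [hP, Polynomial.coeff_monomial]
  have p1 : P.coeff 1 = o * b := by simp [hP, Polynomial.coeff_monomial]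
  have p2 : P.coeff 2 = -κ := by simp [hP, Polynomial.coeff_monomial]
  obtain ⟨R, r1, r2, r3⟩ := conv hB hB.idl hW tP (p0 ▸ hx)
    ((tot_mul hB.mul tP tP).sub (tot_monomial (n := 0) (sq ▸ hB.mul g0 g0))) fun k hk => by
      rw [Polynomial.coeff_sub, Polynomial.coeff_mul, Polynomial.coeff_C,
        Finset.Nat.sum_antidiagonal_eq_sum_range_succ_mk]
      interval_cases k
      · simp [p0, sq]
      · simpa [Finset.sum_range_succ, p0, p1] using e1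
      · simp [Finset.sum_range_succ, p0, p1, p2, e2]
  exact ⟨P + R, tP.add r1, by rw [Polynomial.coeff_add, r2 0 (by omega), add_zero, p0],
    by rw [Polynomial.coeff_add, r2 1 (by omega), add_zero, p1], r3⟩

theorem del_GA {d : Matrix ι ι (Px D)} {c : Cmd B D (Ci.dL B d)} (hc : c.Hg (Γ.lbE p) Γ.lbBD)
    {π : D ⊗[B] Q →ₗ[B] Q} (hπ : ∀ e, Deg (Eu.ten Γ.lbBD (lb e)) (f e) (e, 0) π) :
    c.del π ∈ GA Γ p f lb 1 0 := fun e => (hc.del (lb e) (hπ e)).cast (by simp)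

theorem kap_GA {d : Matrix ι ι (Px D)} {c : Cmd B D (Ci.dL B d)} (hc : c.Hg (Γ.lbE p) Γ.lbBD)
    {π : D ⊗[B] Q →ₗ[B] Q} (hπ : ∀ e, Deg (Eu.ten Γ.lbBD (lb e)) (f e) (e, 0) π) :
    c.kap π ∈ GA Γ p f lb 2 (-1) := fun e =>
  (hc.kap (lb e) (hπ e)).cast (by ext <;> simp <;> ring)

theorem smul_one_comm (w : Px B) (x : Module.End (Px B) ((ι → Px D) ⊗[B] Q)) :
    (w • (1 : Module.End (Px B) ((ι → Px D) ⊗[B] Q))) * x =
      x * (w • (1 : Module.End (Px B) ((ι → Px D) ⊗[B] Q))) :=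
  LinearMap.ext fun t => (map_smul x w t).symm

theorem tw_of (h0 : ∀ γ : ℤ × ℤ, γ.1 ≠ 0 → (f 0).H γ ≤ ⊥) {W : Px ℂ} {d : Matrix ι ι (Px D)}
    (hF : Fm Γ W p d) (hN : Neg Γ p d) {b κ : Module.End (Px B) ((ι → Px D) ⊗[B] Q)}
    (gd : b ∈ GA Γ p f lb 1 0) (g2 : κ ∈ GA Γ p f lb 2 (-1))
    (r1 : b * dQ B d Q = dQ B d Q * b) (r2 : b * b = dQ B d Q * κ + κ * dQ B d Q) :
    ∃ P : Polynomial (Module.End (Px B) ((ι → Px D) ⊗[B] Q)), Tot (GA Γ p f lb) 1 P ∧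
      P.coeff 0 = dQ B d Q ∧ P.coeff 1 = om B D Q p * b ∧
      P * P = Polynomial.C (MvPolynomial.map (algebraMap ℂ B) W • 1) := by
  have g0 : dQ B d Q ∈ GA Γ p f lb 0 1 := dQ_GA Γ p f lb hF.dg
  have g1 : om B D Q p * b ∈ GA Γ p f lb 1 0 := by
    simpa using GA_mul Γ p f lb (om_GA Γ p f lb) gd
  have c0 : om B D Q p * dQ B d Q = -(dQ B d Q * om B D Q p) := by
    rw [om_GA_comm Γ p f lb h0 g0, Int.negOnePow_one, Units.val_neg, Units.val_one, neg_one_zsmul]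
  have c1 : om B D Q p * b = b * om B D Q p := by
    rw [om_GA_comm Γ p f lb h0 gd, Int.negOnePow_zero, Units.val_one, one_zsmul]
  exact tw_ring (big Γ p f lb h0) (smul_one_comm _) (exa Γ p f lb h0 hN) g0 g1 g2 c0 c1 r1 r2
    (dQ_sq Γ p hF) (om_om p)

/-- **The twisted differential.** -/
theorem exists_tw {W : Px ℂ} {d : Matrix ι ι (Px D)} (hF : Fm Γ W p d) (hN : Neg Γ p d)
    {c : Cmd B D (Ci.dL B d)} (hc : c.Hg (Γ.lbE p) Γ.lbBD) (A : Am Γ) :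
    ∃ P : Polynomial (Module.End (Px B) ((ι → Px D) ⊗[B] A.Q)), Tot (GA Γ p A.f A.lb) 1 P ∧
      P.coeff 0 = dQ B d A.Q ∧ P.coeff 1 = om B D A.Q p * c.del A.π ∧
      P * P = Polynomial.C (MvPolynomial.map (algebraMap ℂ B) W • 1) :=
  tw_of Γ p A.f A.lb A.ch hF hN (del_GA Γ p A.f A.lb hc A.dπ) (kap_GA Γ p A.f A.lb hc A.dπ)
    (LinearMap.ext (c.del_d A.π)) (LinearMap.ext (c.del_del A.π A.π1))

/-- the same, summed up -/
theorem exists_tw' {W : Px ℂ} {d : Matrix ι ι (Px D)} (hF : Fm Γ W p d) (hN : Neg Γ p d)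
    {c : Cmd B D (Ci.dL B d)} (hc : c.Hg (Γ.lbE p) Γ.lbBD) (A : Am Γ) :
    ∃ b ∈ Fl (GA Γ p A.f A.lb) 1 2, (dQ B d A.Q + om B D A.Q p * c.del A.π + b) *
      (dQ B d A.Q + om B D A.Q p * c.del A.π + b) = MvPolynomial.map (algebraMap ℂ B) W • 1 := by
  obtain ⟨P, h1, h2, h3, h4⟩ := exists_tw Γ p hF hN hc A
  obtain ⟨b, hb, e⟩ := h1.split
  exact ⟨b, hb, by rw [← h3, ← h2, ← e, ← map_mul, h4, tot_C]⟩

theorem GA_le (k m : ℤ) : GA Γ p f lb k m ≤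
    GG (Px B) (Eu.ten (Γ.lbE p) (lb 0)) (Eu.ten (Γ.lbE p) (lb 3)) k m := fun _ h =>
  ⟨(h 0).cast (by simp), (h 3).cast (by rw [mul_add])⟩

theorem par_om {f : Eu Q} (hf : Lb Γ.eB f) (h0 : ∀ γ : ℤ × ℤ, γ.1 ≠ 0 → f.H γ ≤ ⊥) :
    Par (Eu.ten (Γ.lbE p) hf) (om B D Q p) := fun _ _ h => om_hom Γ p hf h0 h

/-- the same, for the two gradings -/
theorem exists_tw2 {W : Px ℂ} {d : Matrix ι ι (Px D)} (hF : Fm Γ W p d) (hN : Neg Γ p d)
    {c : Cmd B D (Ci.dL B d)} (hc : c.Hg (Γ.lbE p) Γ.lbBD) (A : Am Γ) :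
    ∃ b ∈ Fl (GG (Px B) (Eu.ten (Γ.lbE p) (A.lb 0)) (Eu.ten (Γ.lbE p) (A.lb 3))) 1 2,
      (dQ B d A.Q + om B D A.Q p * c.del A.π + b) * (dQ B d A.Q + om B D A.Q p * c.del A.π + b) =
        MvPolynomial.map (algebraMap ℂ B) W • 1 := by
  obtain ⟨b, hb, e⟩ := exists_tw' Γ p hF hN hc A
  exact ⟨b, Fl_ind (fun k hk x hx => mem_Fl (GA_le Γ p A.f A.lb _ _ hx) hk (by ring)) hb, e⟩

end Vale.Agent.P287T.Sx
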