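import Vale.Agent.P287T.Sx.Dg
import Mathlib.Algebra.Ring.NegOnePow

/-!
# Bounds on charges, parity operators and windows
-/

set_option linter.all false

open TensorProduct

noncomputable section

namespace Vale.Agent.P287T.Sx

section

variable {V V' : Type} [AddCommGroup V] [Module ℂ V] [AddCommGroup V'] [Module ℂ V']
  {e : Eu V} {e' : Eu V'} {γ : ℤ × ℤ}

/-- no charges below `c` -/
def Low (e : Eu V) (c : ℤ) : Prop := ∀ γ : ℤ × ℤ, γ.1 < c → e.H γ ≤ ⊥

/-- `P` is the parity operator of the charge -/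
def Par (e : Eu V) (P : V → V) : Prop :=
  ∀ γ v, v ∈ e.H γ → P v = ((Int.negOnePow γ.1 : ℤˣ) : ℤ) • v

theorem Par.comm {P : V →+ V} {P' : V' → V'} (h : Par e P) (h' : Par e' P') {φ : V →+ V'}
    (hP : ∀ a b, P' (a + b) = P' a + P' b) (hφ : Deg e e' γ φ) (v : V) :
    P' (φ v) = ((Int.negOnePow γ.1 : ℤˣ) : ℤ) • φ (P v) := by
  induction v using e.ind with
  | h0 => rw [map_zero, map_zero, map_zero, smul_zero, h' 0 0 (zero_mem _), smul_zero]
  | hh δ v hv =>
    rw [h' _ _ (hφ _ _ hv), h _ _ hv, map_zsmul, smul_smul, Prod.fst_add, Int.negOnePow_add,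
      Units.val_mul]
  | ha a b ha hb => simp only [map_add, hP, ha, hb, smul_add]

theorem Par.sq {P : V →+ V} (h : Par e P) (v : V) : P (P v) = v := by
  induction v using e.ind with
  | h0 => rw [map_zero, map_zero]
  | hh δ v hv =>
    rw [h _ _ hv, map_zsmul, h _ _ hv, smul_smul, ← Units.val_mul, Int.units_mul_self,
      Units.val_one, one_smul]
  | ha a b ha hb => simp only [map_add, ha, hb]

theorem low_of_ch (h : ∀ γ : ℤ × ℤ, γ.1 ≠ 0 → e.H γ ≤ ⊥) : Low e 0 := fun γ hγ => h γ hγ.ne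

theorem par_of_ch (h : ∀ γ : ℤ × ℤ, γ.1 ≠ 0 → e.H γ ≤ ⊥) : Par e id := fun γ v hv => by
  by_cases h0 : γ.1 = 0
  · rw [h0, Int.negOnePow_zero, Units.val_one, one_smul, id]
  · rw [(Submodule.mem_bot ℂ).1 (h γ h0 hv), smul_zero, id]

variable {L : Type} [CommRing L] [Module L V] [Module L V']

variable (L) in
/-- generated by elements of charge at most `c` -/
def Gen (e : Eu V) (c : ℤ) : Prop :=
  ∀ v, v ∈ Submodule.span L {w | ∃ γ : ℤ × ℤ, γ.1 ≤ c ∧ w ∈ e.H γ}

theorem gen_of_ch (h : ∀ γ : ℤ × ℤ, γ.1 ≠ 0 → e.H γ ≤ ⊥) : Gen L e 0 := fun v => by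
  induction v using e.ind with
  | h0 => exact zero_mem _
  | hh δ v hv =>
    by_cases h0 : δ.1 = 0
    · exact Submodule.subset_span ⟨δ, h0.le, hv⟩
    · rw [(Submodule.mem_bot ℂ).1 (h δ h0 hv)]
      exact zero_mem _
  | ha a b ha hb => exact add_mem ha hb

theorem Gen.van {c c' : ℤ} (h : Gen L e c) (h' : Low e' c') {φ : V →ₗ[L] V'}
    (hφ : Deg e e' γ φ) (hc : γ.1 + c < c') : φ = 0 :=
  LinearMap.ext fun v => (Submodule.span_le (p := LinearMap.ker φ)).2
    (by rintro w ⟨δ, h1, h2⟩; exact h' _ (by rw [Prod.fst_add]; omega) (hφ _ _ h2)) (h v)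

/-- the window: multiples of `w` and elements of charge less than `3 m` -/
def Wn (w : L) (e : Eu V) (m : ℤ) : Submodule L V :=
  Submodule.span L ({v | ∃ u, v = w • u} ∪ {v | ∃ γ : ℤ × ℤ, γ.1 < 3 * m ∧ v ∈ e.H γ})

variable {w : L} {m : ℤ}

theorem Wn.smul (u : V) : w • u ∈ Wn w e m := Submodule.subset_span (Or.inl ⟨u, rfl⟩)

theorem Wn.of {v : V} (hv : v ∈ e.H γ) (h : γ.1 < 3 * m) : v ∈ Wn w e m :=
  Submodule.subset_span (Or.inr ⟨γ, h, hv⟩)

theorem Wn.le {S : Submodule L V} (h1 : ∀ u, w • u ∈ S)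
    (h2 : ∀ (γ : ℤ × ℤ) v, γ.1 < 3 * m → v ∈ e.H γ → v ∈ S) : Wn w e m ≤ S :=
  Submodule.span_le.2 fun v hv => by
    rcases hv with ⟨u, rfl⟩ | ⟨γ, h, hv⟩
    exacts [h1 u, h2 γ v h hv]

theorem Wn.map {φ : V →ₗ[L] V'} (hφ : Deg e e' γ φ) {m' : ℤ} (h : γ.1 + 3 * m ≤ 3 * m') {v : V}
    (hv : v ∈ Wn w e m) : φ v ∈ Wn w e' m' :=
  Wn.le (S := (Wn w e' m').comap φ) (fun u => by
    rw [Submodule.mem_comap, map_smul]; exact Wn.smul _)
    (fun δ v h1 h2 => Wn.of (hφ _ _ h2) (by rw [Prod.fst_add]; omega)) hv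

theorem Wn.eps [Algebra ℂ L] [IsScalarTower ℂ L V] {b : Eu L} (hb : Lb b e) (hw : w ∈ b.H γ)
    {v : V} (hv : v ∈ Wn w e m) : e.ε v ∈ Wn w e m := by
  induction hv using Submodule.span_induction with
  | mem v hv =>
    rcases hv with ⟨u, rfl⟩ | ⟨γ, h, hv⟩
    · rw [hb, hw, smul_assoc, smul_comm]
      exact add_mem (Wn.smul _) (Wn.smul _)
    · rw [hv]
      exact Wn.of (Submodule.smul_mem _ _ hv) h
  | zero => rw [map_zero]; exact zero_mem _
  | add a b _ _ ha hb => rw [map_add]; exact add_mem ha hb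
  | smul r v hv ih => rw [hb]; exact add_mem (Submodule.smul_mem _ _ hv) (Submodule.smul_mem _ _ ih)

end

variable {B : Type} [CommRing B] [Algebra ℂ B] {a : Eu B}
  {V X : Type} [AddCommGroup V] [Module ℂ V] [Module B V] [IsScalarTower ℂ B V]
  [AddCommGroup X] [Module ℂ X] [Module B X] [IsScalarTower ℂ B X] {eV : Eu V} {eX : Eu X}
  (hV : Lb a eV) (hX : Lb a eX)

theorem Low.ten {c c' : ℤ} (h : Low eV c) (h' : Low eX c') : Low (Eu.ten hV hX) (c + c') :=
  fun γ hγ z hz => Eu.ten_ind hV hX (P := fun z => z ∈ (⊥ : Submodule ℂ _)) (zero_mem _)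
    (fun _ _ => add_mem) (fun δ δ' v x hv hx e => by
      rw [e, Prod.fst_add] at hγ
      by_cases h1 : δ.1 < c
      · rw [(Submodule.mem_bot ℂ).1 (h _ h1 hv), zero_tmul]
        exact zero_mem _
      · rw [(Submodule.mem_bot ℂ).1 (h' _ (by omega) hx), tmul_zero]
        exact zero_mem _) hz

theorem ch_ten (h : ∀ γ : ℤ × ℤ, γ.1 ≠ 0 → eV.H γ ≤ ⊥) (h' : ∀ γ : ℤ × ℤ, γ.1 ≠ 0 → eX.H γ ≤ ⊥) :
    ∀ γ : ℤ × ℤ, γ.1 ≠ 0 → (Eu.ten hV hX).H γ ≤ ⊥ :=
  fun γ hγ z hz => Eu.ten_ind hV hX (P := fun z => z ∈ (⊥ : Submodule ℂ _)) (zero_mem _)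
    (fun _ _ => add_mem) (fun δ δ' v x hv hx e => by
      rw [e, Prod.fst_add] at hγ
      by_cases h1 : δ.1 = 0
      · rw [(Submodule.mem_bot ℂ).1 (h' _ (by omega) hx), tmul_zero]
        exact zero_mem _
      · rw [(Submodule.mem_bot ℂ).1 (h _ h1 hv), zero_tmul]
        exact zero_mem _) hz

theorem Par.ten {P : V → V} {P' : X → X} (h : Par eV P) (h' : Par eX P')
    (Φ : V ⊗[B] X →+ V ⊗[B] X) (hΦ : ∀ v x, Φ (v ⊗ₜ x) = P v ⊗ₜ P' x) : Par (Eu.ten hV hX) Φ :=
  fun γ z hz => Eu.ten_ind hV hX (P := fun z => Φ z = ((Int.negOnePow γ.1 : ℤˣ) : ℤ) • z)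
    (by rw [map_zero, smul_zero]) (fun u v hu hv => by rw [map_add, smul_add, hu, hv])
    (fun δ δ' v x hv hx e => by
      rw [hΦ, h _ _ hv, h' _ _ hx, e, Prod.fst_add, Int.negOnePow_add, Units.val_mul,
        ← smul_tmul', tmul_smul, smul_smul]) hz

theorem Gen.ten {L : Type} [CommRing L] [Algebra B L] [Module L V] [IsScalarTower B L V]
    {c c' : ℤ} (h : Gen L eV c) (h' : Gen B eX c') : Gen L (Eu.ten hV hX) (c + c') := fun z => by
  induction z using TensorProduct.induction_on with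
  | zero => exact zero_mem _
  | tmul v x =>
    induction h v using Submodule.span_induction with
    | mem v hv =>
      obtain ⟨δ, h1, hv⟩ := hv
      induction h' x using Submodule.span_induction with
      | mem x hx =>
        obtain ⟨δ', h2, hx⟩ := hx
        exact Submodule.subset_span ⟨δ + δ', add_le_add h1 h2, Eu.tmul_mem hV hX hv hx⟩
      | zero => rw [tmul_zero]; exact zero_mem _
      | add a b _ _ ha hb => rw [tmul_add]; exact add_mem ha hb
      | smul r x _ ih => rw [tmul_smul]; exact Submodule.smul_of_tower_mem _ _ ih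
    | zero => rw [zero_tmul]; exact zero_mem _
    | add a b _ _ ha hb => rw [add_tmul]; exact add_mem ha hb
    | smul r x _ ih => rw [← smul_tmul']; exact Submodule.smul_mem _ _ ih
  | add x y hx hy => exact add_mem hx hy

/-- windows commute with base change -/
theorem mem_bc {A : Type} [CommRing A] [Algebra ℂ A] [Algebra B A] [IsScalarTower ℂ B A]
    {eA : Eu A} (hA : Lb a eA) (h0 : Low eA 0) (h1 : Gen B eA 0) {w : B} {m : ℤ} {z : A ⊗[B] X} :
    z ∈ (Wn w eX m).baseChange A ↔ z ∈ Wn w (Eu.ten hA hX) m := by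
  constructor
  · rintro ⟨y, rfl⟩
    induction y using TensorProduct.induction_on with
    | zero => rw [map_zero]; exact zero_mem _
    | tmul u x =>
      obtain ⟨x, hx⟩ := x
      refine Wn.le (S := (Wn w (Eu.ten hA hX) m).comap (TensorProduct.mk B A X u)) (fun y => ?_)
        (fun γ y h2 hy => ?_) hx
      · rw [Submodule.mem_comap, map_smul]
        exact Wn.smul _
      · exact (Submodule.span_le (p := (Wn w (Eu.ten hA hX) m).comap
          ((TensorProduct.mk B A X).flip y))).2 (by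
            rintro u ⟨δ, h3, hu⟩
            exact Wn.of (Eu.tmul_mem hA hX hu hy) (by rw [Prod.fst_add]; omega)) (h1 u)
    | add x y hx hy => rw [map_add]; exact add_mem hx hy
  · refine fun hz => Wn.le (S := ((Wn w eX m).baseChange A).restrictScalars B) (fun y => ?_)
      (fun γ y h2 hy => ?_) hz
    · induction y using TensorProduct.induction_on with
      | zero => rw [smul_zero]; exact zero_mem _
      | tmul u x =>
        rw [← tmul_smul]
        exact Submodule.tmul_mem_baseChange_of_mem _ (Wn.smul _)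
      | add x y hx hy => rw [smul_add]; exact add_mem hx hy
    · refine Eu.ten_ind hA hX (P := fun y => y ∈ (Wn w eX m).baseChange A) (zero_mem _)
        (fun _ _ => add_mem) (fun δ δ' u x hu hx e => ?_) hy
      rw [e, Prod.fst_add] at h2
      by_cases h3 : δ.1 < 0
      · rw [(Submodule.mem_bot ℂ).1 (h0 _ h3 hu), zero_tmul]
        exact zero_mem _
      · exact Submodule.tmul_mem_baseChange_of_mem _ (Wn.of hx (by omega))

end Vale.Agent.P287T.Sx
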